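import Crest.Agent.X212.Mod61.Fmt
import Crest.Agent.X212.Eqv71.Res
import Crest.Agent.X212.Std94.Smo
import Crest.Agent.X212.Grp76.Pt

/-! Smooth points of the Banach model: the class `Hs`, regularity of parallel fields, the bundles
of a `Ref`, admissibility and density of smooth points. -/

set_option autoImplicit false
set_option linter.unusedSectionVars false
noncomputable section
open scoped Manifold ContDiff Topology InnerProductSpace
open MeasureTheory Set Function Filter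

namespace Crest.Agent.X212.Mod61
open An Prm93 Eqv71 Sob92
open Wz78 (SA g_skw g_p g_J g_ρ g_j g_p' mem_g pg_mem pg_of_mem opL_inj)

variable {E : Type} [NormedAddCommGroup E] [NormedSpace ℝ E] [FiniteDimensional ℝ E]
  [MeasurableSpace E] [BorelSpace E]
  {HM : Type} [TopologicalSpace HM] {I : ModelWithCorners ℝ E HM} [I.Boundaryless]
  {M : Type} [TopologicalSpace M] [ChartedSpace HM M] [IsManifold I ∞ M]
  [MeasurableSpace M] [T2Space M] [BorelSpace M] [SecondCountableTopology M]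
  {ι : Type} [Fintype ι] {lam : Type} [Fintype lam]
  {T : Type} [NormedAddCommGroup T] [NormedSpace ℝ T]

section hs
variable {V W : Type} [NormedAddCommGroup V] [InnerProductSpace ℝ V] [CompleteSpace V]
  [NormedAddCommGroup W] [InnerProductSpace ℝ W] [CompleteSpace W]
  {F : Fr I M ι} {S : ℝ} (hS : Sup F.toPre S) {p : M → V →L[ℝ] V} {q : M → W →L[ℝ] W}
  {u v : M → V} {k j : ℕ}
include hS

theorem Hs_cb (hu : u ∈ Hs F.toPre p) : F.Cb u := by
  choose h hh using fun n => hu (n + 4) (by omega)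
  exact ⟨fun n => √|S| * ‖h n‖, contMDiff_infty.2 fun n => hh n ▸ contMDiff_val hS le_rfl (h n),
    fun n => hh n ▸ CB_val hS n le_rfl (h n)⟩

theorem Hs_proj (hu : u ∈ Hs F.toPre p) (x : M) : p x (u x) = u x := by
  obtain ⟨h, rfl⟩ := hu 4 le_rfl
  exact val_proj hS le_rfl h x

theorem Hs_sec (u : Sec I p) : u.1 ∈ Hs F.toPre p := fun _ hk => ⟨_, val_toH hS hk u⟩

theorem Hs_mul {f : M → V →L[ℝ] W} (hf : F.Cb f) (hm : Maps p q f) (hu : u ∈ Hs F.toPre p) :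
    (fun x => f x (u x)) ∈ Hs F.toPre q := fun k hk => by
  obtain ⟨h, rfl⟩ := hu k hk
  exact ⟨_, funext (val_mulH hS hk hf hm h)⟩

theorem ofV_eq (hk : 4 ≤ k) {h : F.H k p} (e : F.val k p h = u) : ofV F.toPre k p u = h := by
  have h1 : ∃ a : F.H k p, F.val k p a = u := ⟨h, e⟩
  rw [ofV, dif_pos h1]
  exact val_injective hS hk (h1.choose_spec.trans e.symm)

theorem incl_ofV (hu : u ∈ Hs F.toPre p) (hk : 4 ≤ k) (hj : k ≤ j) :
    F.incl j k p (ofV F.toPre j p u) = ofV F.toPre k p u :=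
  (ofV_eq hS hk (by rw [val_incl hS hk hj, val_ofV hu (hk.trans hj)])).symm

theorem Hs_of_all (hk : 4 ≤ k) {h : F.H k p} (hh : ∀ j, k ≤ j → ∃ g, F.incl j k p g = h) :
    F.val k p h ∈ Hs F.toPre p := fun j hj => by
  rcases le_total k j with e | e
  · obtain ⟨g, rfl⟩ := hh j e
    exact ⟨g, (val_incl hS hk e g).symm⟩
  · exact ⟨_, val_incl hS hj e h⟩

theorem dense_ofV (hk : 4 ≤ k) : Dense {h : F.H k p | ∃ u ∈ Hs F.toPre p, ofV F.toPre k p u = h} :=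
  (F.dense_toH k p).mono <| by
    rintro _ ⟨u, rfl⟩
    exact ⟨u.1, Hs_sec hS u, ofV_eq hS hk (val_toH hS hk u)⟩

end hs

section ode
variable {N : Type} [NormedAddCommGroup N] [NormedSpace ℝ N] {F : Pre I M ι} {v : M → N}
  {L : ι → M → N →L[ℝ] N}

theorem D_ode (hv : MDifferentiable I 𝓘(ℝ, N) v) (h : ∀ a x, F.D a v x = L a x (v x))
    {K : M → N →L[ℝ] N} (hK : Sm I K) (a : ι) :
    F.D a (fun x => K x (v x)) = fun x => (F.D a K x + K x ∘L L a x) (v x) := funext fun x => by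
  rw [Pre.D_def, dv_app (hK.mdifferentiableAt (by simp)) (hv x), ← Pre.D_def, ← Pre.D_def, h]
  rfl

/-- solutions of a linear total differential equation are smooth -/
theorem sm_of_ode (hv : MDifferentiable I 𝓘(ℝ, N) v) (h : ∀ a x, F.D a v x = L a x (v x))
    (hL : ∀ a, Sm I (L a)) : Sm I v := by
  refine contMDiff_infty.2 fun n => contMDiff_of_class F.sm (span_coef F)
    (fun _ f => ∃ K : M → N →L[ℝ] N, Sm I K ∧ f = fun x => K x (v x)) ?_ ?_ n v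
    ⟨fun _ => .id ℝ N, contMDiff_const, rfl⟩
  · rintro _ ⟨K, hK, rfl⟩
    exact hK.continuous.clm_apply hv.continuous
  · rintro _ _ ⟨K, hK, rfl⟩
    refine ⟨fun x => (hK.mdifferentiableAt (by simp)).clm_apply (hv x), fun a =>
      ⟨_, (F.sm_D hK a).add (hK.clm_comp (hL a)), D_ode hv h hK a⟩⟩

theorem cb_of_ode (hv : MDifferentiable I 𝓘(ℝ, N) v) (h : ∀ a x, F.D a v x = L a x (v x))
    (hL : ∀ a, F.Cb (L a)) {C : ℝ} (hC : ∀ x, ‖v x‖ ≤ C) : F.Cb v := by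
  have h0 : ∀ K : M → N →L[ℝ] N, F.Cb K → ∃ A, ∀ x, ‖K x (v x)‖ ≤ A := fun K ⟨A, hA⟩ =>
    ⟨|A 0| * C, fun x => ((K x).le_opNorm _).trans (mul_le_mul
      ((CB_bound (hA.2 0) x).trans (le_abs_self _)) (hC x) (norm_nonneg _) (abs_nonneg _))⟩
  have h1 : ∀ (k : ℕ) (K : M → N →L[ℝ] N), F.Cb K → ∃ A, F.CB k (fun x => K x (v x)) A := by
    intro k
    induction k with
    | zero => exact fun K hK => (h0 K hK).imp fun _ => CB_zero.2
    | succ k ih =>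
      intro K hK
      obtain ⟨C, hC⟩ := h0 K hK
      choose A hA using fun a => ih _ (Cb_add (Cb_D hK a) (Cb_comp hK (hL a)))
      refine ⟨|C| + ∑ a, |A a|, CB_succ.2 ⟨fun x => (hC x).trans ?_, fun a => ?_⟩⟩
      · have : 0 ≤ ∑ a, |A a| := by positivity
        linarith [le_abs_self C]
      · have := Finset.single_le_sum (f := fun a => |A a|) (fun _ _ => abs_nonneg _)
          (Finset.mem_univ a)
        rw [D_ode hv h (Cb.sm hK)]
        exact CB_mono (hA a) (by linarith [le_abs_self (A a), abs_nonneg C])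
  choose A hA using fun k => h1 k _ (Cb_const (.id ℝ N))
  exact ⟨A, sm_of_ode hv h fun a => Cb.sm (hL a), hA⟩

/-- the same over a clopen set -/
theorem cb_ind_of_ode {O : Set M} (hO : IsClopen O) (hv : ContMDiffOn I 𝓘(ℝ, N) 1 v O)
    (h : ∀ x ∈ O, ∀ a, F.D a v x = L a x (v x)) (hL : ∀ a, F.Cb (L a)) {C : ℝ}
    (hC : ∀ x ∈ O, ‖v x‖ ≤ C) : F.Cb (O.indicator v) := by
  refine cb_of_ode (L := L) (fun x => ?_) (fun a x => ?_) hL (C := |C|) fun x => ?_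
  · by_cases hx : x ∈ O
    · exact ((hv.contMDiffAt (hO.2.mem_nhds hx)).mdifferentiableAt
        one_ne_zero).congr_of_eventuallyEq (ind_ev hO.2 hx v)
    · exact mdifferentiableAt_const.congr_of_eventuallyEq (ind_ev0 hO.1 hx v)
  · rw [D_ind F hO]
    by_cases hx : x ∈ O
    · rw [indicator_of_mem hx, indicator_of_mem hx, h x hx]
    · rw [indicator_of_notMem hx, indicator_of_notMem hx, map_zero]
  · by_cases hx : x ∈ O
    · rw [indicator_of_mem hx]; exact (hC x hx).trans (le_abs_self C)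
    · rw [indicator_of_notMem hx, norm_zero]; exact abs_nonneg C

end ode

theorem Adm0.ad0 {r : ℕ} {c : Cfg M ι lam r} {B : Base M ι lam} {G : Geo I M ι lam}
    (h : Adm0 c B G) : Ad0 c B G := ⟨h.ok, h.conn, h.sm, h.pos⟩

theorem adm0 {r : ℕ} {c : Cfg M ι lam r} {B : Base M ι lam} {G : Geo I M ι lam}
    (h : Ad0 c B G) : Adm0 c B G := ⟨h.ok, h.conn, h.sm, h.pos⟩

variable {𝔉 : Fam I M ι lam T} (h : 𝔉.OK) {o : Ref 𝔉} {r n m k j : ℕ} {x : M}

namespace Fam.OK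
include h

theorem sup : Sup 𝔉.F0.toPre (h.tame.choose 0) := Sup.of_tame h.tame.choose_spec

theorem cP (a b : ι) : 𝔉.F0.Cb (𝔉.B.P a b) := h.P0 ▸ ⟨_, h.tame.choose_spec.P a b⟩

theorem dat (o : Ref 𝔉) : Std94.Kl.Dat (Std94.cbK 𝔉.F0.toPre) 𝔉.B o.m id :=
  ⟨h.cP, h.co, o.cp, o.cρ, o.cj⟩

theorem cPg (o : Ref 𝔉) : 𝔉.F0.Cb o.Pg := Cb_ind h.Om ((h.dat o).pg h.B (Std94.pmx o.ok))

theorem cP1 (o : Ref 𝔉) : 𝔉.F0.Cb o.P1 :=
  Std94.Kl.idx (K := Std94.cbK 𝔉.F0.toPre) (h.dat o).P (h.cPg o)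

theorem cP2 (o : Ref 𝔉) : 𝔉.F0.Cb o.P2 :=
  Std94.Kl.idx (K := Std94.cbK 𝔉.F0.toPre) (h.dat o).sd (h.cPg o)

theorem cPp (o : Ref 𝔉) : 𝔉.F0.Cb o.Pp := Cb_ind h.Om' (h.dat o).pp

theorem cPm (o : Ref 𝔉) : 𝔉.F0.Cb o.Pm := Cb_ind h.Om' (h.dat o).pm

end Fam.OK

theorem Pg_mem (x : M) (ξ : o.m.A) : o.Pg x ξ ∈ o.m.gS x := by
  by_cases hx : x ∈ 𝔉.Om
  · rw [Ref.Pg, indicator_of_mem hx]; exact pg_mem x ξ
  · rw [Ref.Pg, indicator_of_notMem hx]; exact zero_mem _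

theorem Pg_of (hx : x ∈ 𝔉.Om) {ξ : o.m.A} (hξ : ξ ∈ o.m.gS x) : o.Pg x ξ = ξ := by
  rw [Ref.Pg, indicator_of_mem hx, pg_of_mem hξ]

theorem idx_mem {α : Type} [Fintype α] {S : α → α → ℝ} {η : Fm α o.m.A}
    (e : idx S (o.Pg x) η = η) (a : α) : η a ∈ o.m.gS x := by
  rw [← e, idx_apply]
  exact Submodule.sum_mem _ fun b _ => Submodule.smul_mem _ _ (Pg_mem x _)

theorem idx_off {α : Type} [Fintype α] {S : α → α → ℝ} {η : Fm α o.m.A}
    (e : idx S (o.Pg x) η = η) (hx : x ∉ 𝔉.Om) : η = 0 := by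
  ext1 a
  rw [← e, idx_apply, Ref.Pg, indicator_of_notMem hx]
  simp

theorem idx_sum {α : Type} [Fintype α] {S : α → α → ℝ} {η : Fm α o.m.A}
    (e : idx S (o.Pg x) η = η) (a : α) : ∑ b, S a b • η b = η a := by
  by_cases hx : x ∈ 𝔉.Om
  · conv_rhs => rw [← e, idx_apply]
    simp only [Pg_of hx (idx_mem e _)]
  · simp [idx_off e hx]

theorem idx_of {α : Type} [Fintype α] {S : α → α → ℝ} {η : Fm α o.m.A} (hx : x ∈ 𝔉.Om)
    (hg : ∀ a, η a ∈ o.m.gS x) (e : ∀ a, ∑ b, S a b • η b = η a) : idx S (o.Pg x) η = η := by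
  ext1 a
  simp only [idx_apply, Pg_of hx (hg _), e]

theorem ind_off {V : Type} [NormedAddCommGroup V] [NormedSpace ℝ V] {O : Set M}
    {p : M → V →L[ℝ] V} {v : V} (e : O.indicator p x v = v) (hx : x ∉ O) : v = 0 := by
  rw [← e, indicator_of_notMem hx]; rfl

theorem ind_fix {V : Type} [NormedAddCommGroup V] [NormedSpace ℝ V] {O : Set M}
    {p : M → V →L[ℝ] V} {v : V} (e : O.indicator p x v = v) : p x v = v := by
  by_cases hx : x ∈ O
  · rwa [indicator_of_mem hx] at e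
  · rw [ind_off e hx, map_zero]

theorem W_apply (t : T) (α : M → Fm ι o.m.A) (a : ι) (x : M) :
    o.W t α a x = 𝔉.W0 o.m (o.A t) t a x + ∑ b, 𝔉.S t x a b • opL (α x b) := by
  simp only [Ref.W, Md.addC, idx_apply, map_sum, map_smul, ContinuousLinearMap.id_apply]

include h

theorem isConn_W {t : T} (ht : t ∈ 𝔉.Q) {α : M → Fm ι o.m.A} (hs : Sm I α)
    (hg : ∀ x a, α x a ∈ o.m.gS x) : o.m.IsConn 𝔉.B (𝔉.G t) (o.W t α) := by
  refine isConn_addC o.ok (h.conn _ _ o.ok (o.connA h.B t) t ht) (fun a => ?_) (fun x a => ?_) fun x a => ?_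
  · simp only [idx_apply, ContinuousLinearMap.id_apply]
    exact fun x => SA.sum _ fun b _ => SA.smul (Cb.sm ((h.sS a b).cb t ht) x)
      (((Grp76.pj o.m.A b).contMDiff.comp hs) x)
  · rw [idx_apply]
    exact Submodule.sum_mem _ fun b _ => Submodule.smul_mem _ _ (hg x b)
  · simp only [idx_apply, Finset.smul_sum, smul_smul]
    rw [Finset.sum_comm]
    simp only [← Finset.sum_smul, h.PS t ht]

namespace Pnt
variable (y : Pnt o r)

theorem cα : 𝔉.F0.Cb y.α := Hs_cb h.sup y.hα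
theorem cφ : 𝔉.F0.Cb y.φ := Hs_cb h.sup y.hφ
theorem pα (x : M) : o.P1 x (y.α x) = y.α x := Hs_proj h.sup y.hα x
theorem pφ (x : M) : o.Pp x (y.φ x) = y.φ x := Hs_proj h.sup y.hφ x

theorem pΦ (x : M) : o.Pp x (y.cfg.Φ x) = y.cfg.Φ x :=
  (map_add _ _ _).trans (congrArg₂ (· + ·) (o.pos x) (y.pφ h x))

theorem ad0 : Ad0 y.cfg 𝔉.B (𝔉.G y.t) :=
  ⟨o.ok, isConn_W h y.ht (Cb.sm (y.cα h)) fun x => idx_mem (y.pα h x),
    (Cb.sm o.cΦ).add (Cb.sm (y.cφ h)), fun x => ind_fix (y.pΦ h x)⟩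

theorem off (x : M) (hx : x ∉ 𝔉.Om') : y.cfg.Φ x = 0 := ind_off (y.pΦ h x) hx

omit h in
theorem mem_U : y.pt k ∈ o.U r k := y.ht

omit h in
theorem val_α (hk : 3 ≤ k) : 𝔉.F0.val _ _ (y.pt k).1 = y.α := val_ofV y.hα (by omega)

omit h in
theorem val_φ (hk : 3 ≤ k) : 𝔉.F0.val _ _ (y.pt k).2.1 = y.φ := val_ofV y.hφ (by omega)

theorem iC_pt (hk : 3 ≤ k) (hj : k ≤ j) : o.iC r k j (y.pt j) = y.pt k :=
  Prod.ext (incl_ofV h.sup y.hα (by omega) (by omega))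
    (Prod.ext (incl_ofV h.sup y.hφ (by omega) (by omega)) rfl)

omit h in
theorem ext' {y y' : Pnt o r} (h1 : y.α = y'.α) (h2 : y.φ = y'.φ) (h3 : y.z = y'.z)
    (h4 : y.t = y'.t) : y = y' := by
  cases y; cases y'; simp_all

omit h in
theorem pt_inj (hk : 3 ≤ k) {y y' : Pnt o r} (e : y.pt k = y'.pt k) : y = y' :=
  ext' (by rw [← y.val_α hk, e, y'.val_α hk]) (by rw [← y.val_φ hk, e, y'.val_φ hk])
    (congrArg (·.2.2.1) e) (congrArg (·.2.2.2) e)

end Pnt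

theorem C_ext (hk : 3 ≤ k) {v w : o.C r k} (h1 : 𝔉.F0.val _ _ v.1 = 𝔉.F0.val _ _ w.1)
    (h2 : 𝔉.F0.val _ _ v.2.1 = 𝔉.F0.val _ _ w.2.1) (h3 : v.2.2 = w.2.2) : v = w :=
  Prod.ext (val_injective h.sup (by omega) h1) (Prod.ext (val_injective h.sup (by omega) h2) h3)

theorem Y_ext (hk : 4 ≤ k) {v w : o.Y n m k} (h1 : 𝔉.F0.val _ _ v.1 = 𝔉.F0.val _ _ w.1)
    (h2 : 𝔉.F0.val _ _ v.2.1 = 𝔉.F0.val _ _ w.2.1) (h3 : v.2.2 = w.2.2) : v = w :=
  Prod.ext (val_injective h.sup hk h1) (Prod.ext (val_injective h.sup hk h2) h3)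

theorem isOpen_U : IsOpen (o.U r k) := h.opn.preimage (by fun_prop)

/-- smooth points are dense in the domain -/
theorem U_subset (hk : 3 ≤ k) : o.U r k ⊆ closure (range fun y : Pnt o r => y.pt k) := by
  intro v hv
  have h1 := (dense_ofV (p := o.P1) h.sup (k := k + 1) (by omega)).prod
    (dense_ofV (p := o.Pp) h.sup (k := k + 1) (by omega))
  have h2 : Continuous fun z : 𝔉.F0.H (k + 1) o.P1 × 𝔉.F0.H (k + 1) o.Pp =>
      ((z.1, z.2, v.2.2) : o.C r k) := by fun_prop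
  refine map_mem_closure h2 (h1 (v.1, v.2.1)) ?_
  rintro ⟨_, _⟩ ⟨⟨α, hα, rfl⟩, φ, hφ, rfl⟩
  exact ⟨⟨α, φ, v.2.2.1, v.2.2.2, hα, hφ, hv⟩, rfl⟩

/-- maps continuous on the domain are determined by the smooth points -/
theorem eqOn_U (hk : 3 ≤ k) {X : Type*} [TopologicalSpace X] [T2Space X] {f g : o.C r k → X}
    (hf : ContinuousOn f (o.U r k)) (hg : ContinuousOn g (o.U r k))
    (e : ∀ y : Pnt o r, f (y.pt k) = g (y.pt k)) : Set.EqOn f g (o.U r k) :=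
  Set.EqOn.of_subset_closure (s := range fun y : Pnt o r => y.pt k)
    (by rintro _ ⟨y, rfl⟩; exact e y) hf hg (by rintro _ ⟨y, rfl⟩; exact y.mem_U) (U_subset h hk)

/-- points of the domain that lift to all levels are smooth -/
theorem exists_pt (hk : 3 ≤ k) {v : o.C r k} (hv : v ∈ o.U r k)
    (hh : ∀ j, k ≤ j → v ∈ range (o.iC r k j)) : ∃ y : Pnt o r, y.pt k = v := by
  have h1 : ∀ j, k + 1 ≤ j → ∃ i, k ≤ i ∧ j = i + 1 := fun j hj => ⟨j - 1, by omega, by omega⟩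
  refine ⟨⟨_, _, v.2.2.1, v.2.2.2, Hs_of_all h.sup (h := v.1) (by omega) fun j hj => ?_,
    Hs_of_all h.sup (h := v.2.1) (by omega) fun j hj => ?_, hv⟩,
    Prod.ext (ofV_eq h.sup (by omega) rfl) (Prod.ext (ofV_eq h.sup (by omega) rfl) rfl)⟩
  all_goals
    obtain ⟨i, hi, rfl⟩ := h1 j hj
    obtain ⟨g, rfl⟩ := hh i hi
    exact ⟨_, rfl⟩

end Crest.Agent.X212.Mod61
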