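import Crest.Agent.X212.Mod61.Eq

/-! The module of perturbations, representing maps, and transport of the Banach models along an
equivalence. -/

set_option autoImplicit false
set_option linter.unusedSectionVars false
noncomputable section
open scoped Manifold ContDiff Topology InnerProductSpace
open MeasureTheory Set Function Filter

namespace Crest.Agent.X212.Mod61
open An Prm93 Eqv71 Sob92
open Grp76 (tp pj)

variable {E : Type} [NormedAddCommGroup E] [NormedSpace ℝ E] [FiniteDimensional ℝ E]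
  [MeasurableSpace E] [BorelSpace E]
  {HM : Type} [TopologicalSpace HM] {I : ModelWithCorners ℝ E HM} [I.Boundaryless]
  {M : Type} [TopologicalSpace M] [ChartedSpace HM M] [IsManifold I ∞ M]
  [MeasurableSpace M] [T2Space M] [BorelSpace M] [SecondCountableTopology M]
  {ι : Type} [Fintype ι] {lam : Type} [Fintype lam]
  {T : Type} [NormedAddCommGroup T] [NormedSpace ℝ T]
  {𝔉 : Fam I M ι lam T} (h : 𝔉.OK) {o o' : Ref 𝔉} {r n m k j : ℕ} {x : M}

/-! ### the module of perturbations -/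

namespace PtX

/-- the rows -/
def eqv : PtX M ι lam r n m ≃ ((c : Cfg M ι lam r) →
    (M → c.m.V) × (M → Fm (ι × ι) c.m.A) × (Fin n → ℂ) × (Fin m → ℝ)) where
  toFun τ c := (τ.D c, τ.C c, τ.S c, τ.R c)
  invFun f := ⟨⟨fun c => (f c).1, fun c => (f c).2.1, fun c => (f c).2.2.1⟩, fun c => (f c).2.2.2⟩
  left_inv _ := rfl
  right_inv _ := rfl

instance : AddCommGroup (PtX M ι lam r n m) := eqv.addCommGroup
instance : Module ℝ (PtX M ι lam r n m) := eqv.module ℝ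

variable (τ σ : PtX M ι lam r n m) (c : Cfg M ι lam r) (s : ℝ)

@[simp] theorem add_D : (τ + σ).D c = τ.D c + σ.D c := rfl
@[simp] theorem add_C : (τ + σ).C c = τ.C c + σ.C c := rfl
@[simp] theorem add_S : (τ + σ).S c = τ.S c + σ.S c := rfl
@[simp] theorem add_R : (τ + σ).R c = τ.R c + σ.R c := rfl
@[simp] theorem sub_D : (τ - σ).D c = τ.D c - σ.D c := rfl
@[simp] theorem sub_C : (τ - σ).C c = τ.C c - σ.C c := rfl
@[simp] theorem sub_S : (τ - σ).S c = τ.S c - σ.S c := rfl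
@[simp] theorem sub_R : (τ - σ).R c = τ.R c - σ.R c := rfl
@[simp] theorem smul_D : (s • τ).D c = s • τ.D c := rfl
@[simp] theorem smul_C : (s • τ).C c = s • τ.C c := rfl
@[simp] theorem smul_S : (s • τ).S c = s • τ.S c := rfl
@[simp] theorem smul_R : (s • τ).R c = s • τ.R c := rfl
@[simp] theorem zero_D : (0 : PtX M ι lam r n m).D c = 0 := rfl
@[simp] theorem zero_C : (0 : PtX M ι lam r n m).C c = 0 := rfl
@[simp] theorem zero_S : (0 : PtX M ι lam r n m).S c = 0 := rfl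
@[simp] theorem zero_R : (0 : PtX M ι lam r n m).R c = 0 := rfl

/-- all rows vanish -/
structure Zr (O O' : Set M) : Prop where
  D : ∀ x ∈ O', τ.D c x = 0
  C : ∀ x ∈ O, τ.C c x = 0
  S : τ.S c = 0
  R : τ.R c = 0

end PtX

theorem ind_smul {V : Type} [AddCommGroup V] [Module ℝ V] (s : ℝ) (O : Set M) (f : M → V) :
    s • O.indicator f = O.indicator (s • f) := funext fun x => by
  by_cases hx : x ∈ O <;> simp [hx]

theorem ind_zero {V : Type} [Zero V] {O : Set M} {f : M → V} :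
    O.indicator f = 0 ↔ ∀ x ∈ O, f x = 0 := by
  simp only [funext_iff, Pi.zero_apply, indicator_apply_eq_zero]

theorem iY_apply (e : o.Y n m j) :
    o.iY n m k j e = (𝔉.F0.incl j k _ e.1, 𝔉.F0.incl j k _ e.2.1, e.2.2) := by
  simp only [Ref.iY, ContinuousLinearMap.coe_prodMap', Prod.map, ContinuousLinearMap.coe_id', id]

theorem iC_apply (v : o.C r j) : o.iC r k j v =
    (𝔉.F0.incl (j + 1) (k + 1) _ v.1, 𝔉.F0.incl (j + 1) (k + 1) _ v.2.1, v.2.2) := by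
  simp only [Ref.iC, ContinuousLinearMap.coe_prodMap', Prod.map, ContinuousLinearMap.coe_id', id]

theorem snd_snd {A B C : Type} {v : A × B × C} {a : A} {b : B} {c : C} (e : v = (a, b, c)) :
    v.1 = a ∧ v.2.1 = b ∧ v.2.2 = c := e ▸ ⟨rfl, rfl, rfl⟩

theorem mem_U {v : o.C r k} : v ∈ o.U r k ↔ v.2.2.2 ∈ 𝔉.Q := Iff.rfl

theorem iC_U {v : o.C r j} : o.iC r k j v ∈ o.U r k ↔ v ∈ o.U r j := by
  rw [mem_U, mem_U, (snd_snd (iC_apply v)).2.2]

section rep
variable {τ σ : T → PtX M ι lam r n m} {y : Pnt o r}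

theorem RepE.add {e e' : o.Y n m j} (a : RepE τ y e) (b : RepE σ y e') : RepE (τ + σ) y (e + e') :=
  ⟨by rw [Prod.fst_add, val_add, a.D, b.D]; exact (indicator_add' _ _ _).symm,
    by rw [Prod.snd_add, Prod.fst_add, val_add, a.C, b.C]; exact (indicator_add' _ _ _).symm,
    congrArg₂ (· + ·) a.S b.S, congrArg₂ (· + ·) a.R b.R⟩

theorem RepE.smul (s : ℝ) {e : o.Y n m j} (a : RepE τ y e) : RepE (s • τ) y (s • e) :=
  ⟨by rw [Prod.smul_fst, val_smul, a.D]; exact ind_smul _ _ _,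
    by rw [Prod.smul_snd, Prod.smul_fst, val_smul, a.C]; exact ind_smul _ _ _,
    congrArg (s • ·) a.S, congrArg (s • ·) a.R⟩

theorem repE_zero : RepE (0 : T → PtX M ι lam r n m) y (0 : o.Y n m j) :=
  ⟨val_zero.trans (indicator_zero' _).symm, val_zero.trans (indicator_zero' _).symm, rfl, rfl⟩

variable (o r n m k j) in
/-- the graph of `RepF` -/
def repS : Submodule ℝ ((T → PtX M ι lam r n m) × (o.C r k → o.Y n m j)) where
  carrier := {p | RepF p.1 p.2}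
  add_mem' a b := ⟨a.1.add b.1, fun y => (a.2 y).add (b.2 y)⟩
  zero_mem' := ⟨contDiffOn_const, fun _ => repE_zero⟩
  smul_mem' s _ a := ⟨a.1.const_smul s, fun y => (a.2 y).smul s⟩

theorem RepF.sub {f g : o.C r k → o.Y n m j} (a : RepF τ f) (b : RepF σ g) :
    RepF (τ - σ) (f - g) := (repS o r n m k j).sub_mem (x := (τ, f)) (y := (σ, g)) a b

theorem RepF.add {f g : o.C r k → o.Y n m j} (a : RepF τ f) (b : RepF σ g) :
    RepF (τ + σ) (f + g) := (repS o r n m k j).add_mem (x := (τ, f)) (y := (σ, g)) a b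

variable (o r n m k j) in
/-- families with a representing map -/
def rpS : Submodule ℝ (T → PtX M ι lam r n m) := (repS o r n m k j).map (.fst ℝ _ _)

theorem mem_rpS : τ ∈ rpS o r n m k j ↔ ∃ f : o.C r k → o.Y n m j, RepF τ f :=
  ⟨fun ⟨p, a, e⟩ => ⟨p.2, e ▸ a⟩, fun ⟨f, a⟩ => ⟨(τ, f), a, rfl⟩⟩

variable (o r n m) in
/-- `Ref.Rp` is a submodule -/
def RpS : Submodule ℝ (T → PtX M ι lam r n m) := ⨅ k ≥ 7, rpS o r n m k k

variable (o r n m) in
/-- `Ref.Sm` is a submodule -/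
def SmS : Submodule ℝ (T → PtX M ι lam r n m) := ⨅ k ≥ 7, rpS o r n m k (k + 1)

theorem mem_RpS : τ ∈ RpS o r n m ↔ o.Rp τ := by
  simp only [RpS, Submodule.mem_iInf, mem_rpS, Ref.Rp]

theorem mem_SmS : τ ∈ SmS o r n m ↔ o.Sm τ := by
  simp only [SmS, Submodule.mem_iInf, mem_rpS, Ref.Sm]

/-- multiplication by a smooth function of the parameter -/
theorem RepF.smul_par {f : o.C r k → o.Y n m j} (a : RepF τ f) {g : T → ℝ}
    (hg : ContDiffOn ℝ ∞ g 𝔉.Q) : RepF (fun t => g t • τ t) fun v => g v.2.2.2 • f v :=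
  ⟨(hg.comp (f := fun v : o.C r k => v.2.2.2) (by fun_prop) fun _ hv => hv).smul a.1, fun y =>
    let b := (a.2 y).smul (g y.t); ⟨b.D, b.C, b.S, b.R⟩⟩

include h

theorem RepE.unique (hj : 4 ≤ j) {e e' : o.Y n m j} (a : RepE τ y e) (b : RepE τ y e') : e = e' :=
  Y_ext h hj (a.D.trans b.D.symm) (a.C.trans b.C.symm)
    (Prod.ext (a.S.trans b.S.symm) (a.R.trans b.R.symm))

theorem RepE.iY {i : ℕ} (hi : 4 ≤ i) (hj : i ≤ j) {e : o.Y n m j} (a : RepE τ y e) :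
    RepE τ y (o.iY n m i j e) := by
  obtain ⟨h1, h2, h3⟩ := snd_snd (iY_apply (k := i) e)
  exact ⟨by rw [h1, val_incl h.sup hi hj, a.D], by rw [h2, val_incl h.sup hi hj, a.C],
    by rw [h3, a.S], by rw [h3, a.R]⟩

theorem RepE.zero_iff (hj : 4 ≤ j) {e : o.Y n m j} (a : RepE τ y e) :
    e = 0 ↔ (τ y.t).Zr y.cfg 𝔉.Om 𝔉.Om' := by
  constructor
  · rintro rfl
    exact ⟨ind_zero.1 (a.D.symm.trans val_zero),
      ind_zero.1 (a.C.symm.trans val_zero), a.S.symm, a.R.symm⟩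
  · exact fun z => Y_ext h hj ((a.D.trans (ind_zero.2 z.D)).trans val_zero.symm)
      ((a.C.trans (ind_zero.2 z.C)).trans val_zero.symm)
      (Prod.ext (a.S.trans z.S) (a.R.trans z.R))

theorem RepF.iY {i : ℕ} (hi : 4 ≤ i) (hj : i ≤ j) {f : o.C r k → o.Y n m j} (a : RepF τ f) :
    RepF τ fun v => o.iY n m i j (f v) :=
  ⟨(o.iY n m i j).contDiff.comp_contDiffOn a.1, fun y => (a.2 y).iY h hi hj⟩

theorem RepF.eqOn (hk : 3 ≤ k) (hj : 4 ≤ j) {f g : o.C r k → o.Y n m j} (a : RepF τ f)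
    (b : RepF τ g) : Set.EqOn f g (o.U r k) :=
  eqOn_U h hk a.1.continuousOn b.1.continuousOn fun y => (a.2 y).unique h hj (b.2 y)

/-- compatibility of the levels -/
theorem RepF.level {k' j' : ℕ} (hk : 3 ≤ k) (hj : 4 ≤ j) (hk' : k ≤ k') (hj' : j ≤ j')
    {f : o.C r k → o.Y n m j} {g : o.C r k' → o.Y n m j'} (a : RepF τ f) (b : RepF τ g)
    {v : o.C r k'} (hv : v ∈ o.U r k') : o.iY n m j j' (g v) = f (o.iC r k k' v) :=
  eqOn_U h (hk.trans hk') (b.iY h hj hj').1.continuousOn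
    (a.1.continuousOn.comp (o.iC r k k').continuous.continuousOn fun _ => iC_U.2)
    (fun y => ((b.2 y).iY h hj hj').unique h hj (by rw [comp_apply, y.iC_pt h hk hk']; exact a.2 y))
    hv

theorem Ref.Sm.rp (a : o.Sm τ) : o.Rp τ := fun k hk =>
  let ⟨_, b⟩ := a k hk; ⟨_, b.iY h (by omega) k.le_succ⟩

omit h in
theorem iY_inj (hj : k ≤ j) : Injective (o.iY n m k j) := fun a b e => by
  simp only [iY_apply, Prod.mk.injEq] at e
  exact Prod.ext (incl_injective hj e.1) (Prod.ext (incl_injective hj e.2.1) e.2.2)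

end rep

/-! ### naturality at smooth points -/

variable (o o') in
/-- naturality for the allowed equivalences of smooth points -/
def NatP (Al : (M → CL o.m.V o'.m.V) → Circle → Prop) (τ : T → PtX M ι lam r n m) : Prop :=
  ∀ (y : Pnt o r) (y' : Pnt o' r) (w : M → CL o.m.V o'.m.V) (c : Circle), y'.t = y.t → Al w c →
    y.Eq y' w c →
    (∀ x ∈ 𝔉.Om', (τ y'.t).D y'.cfg x = cs o'.m.J c (w x ((τ y.t).D y.cfg x))) ∧
    (∀ x ∈ 𝔉.Om, ∀ s, (τ y'.t).C y'.cfg x s = cj (w x) ((τ y.t).C y.cfg x s)) ∧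
    (∀ i, (τ y'.t).S y'.cfg i = (c : ℂ) ^ 2 * (τ y.t).S y.cfg i) ∧
    (τ y'.t).R y'.cfg = (τ y.t).R y.cfg

include h in
theorem Fam.Nat.natP {τ : T → PtX M ι lam r n m} (a : 𝔉.Nat τ) (o o' : Ref 𝔉)
    (Al : (M → CL o.m.V o'.m.V) → Circle → Prop) : NatP o o' Al τ := fun y y' w c ht _ e => by
  rw [ht]
  exact a _ y.ht _ _ w c (adm0 (y.ad0 h)) (adm0 (ht ▸ y'.ad0 h)) (y.off h) (y'.off h) e

/-- `A` is the action of `(w, c)` on the equations -/
structure ActY (A : o.Y n m k →L[ℝ] o'.Y n m k) (w : M → CL o.m.V o'.m.V) (c : Circle) : Prop where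
  D : ∀ e x, 𝔉.F0.val _ _ (A e).1 x = cs o'.m.J c (w x (𝔉.F0.val _ _ e.1 x))
  C : ∀ e x s, 𝔉.F0.val _ _ (A e).2.1 x s = cj (w x) (𝔉.F0.val _ _ e.2.1 x s)
  S : ∀ e, (A e).2.2 = (((c : ℂ) ^ 2) • e.2.2.1, e.2.2.2)

/-- `A` is the linear action of `(w, c)` on the configurations -/
structure ActC (A : o.C r k →L[ℝ] o'.C r k) (w : M → CL o.m.V o'.m.V) (c : Circle) : Prop where
  α : ∀ v x a, 𝔉.F0.val _ _ (A v).1 x a =
    cj (w x) (𝔉.F0.val _ _ v.1 x a + o.b v.2.2.2 x a) - o'.b v.2.2.2 x a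
  φ : ∀ v x, 𝔉.F0.val _ _ (A v).2.1 x = cs o'.m.J c (w x (𝔉.F0.val _ _ v.2.1 x))
  z : ∀ v, (A v).2.2 = (((c : ℂ) ^ 2) • v.2.2.1, v.2.2.2)

variable {w : M → CL o.m.V o'.m.V} {w' : M → CL o'.m.V o.m.V} {c : Circle}

theorem ActC.t {A : o.C r k →L[ℝ] o'.C r k} (a : ActC A w c) (v : o.C r k) :
    (A v).2.2.2 = v.2.2.2 := by rw [a.z]

theorem b_P1 (t : T) (x : M) : o.P1 x (o.b t x) = o.b t x := o.bP t x

theorem add_b {η : Fm ι o.m.A} (hη : o.P1 x η = η) (t : T) :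
    o.P1 x (η + o.b t x) = η + o.b t x := by rw [map_add, hη, b_P1]

theorem cs_zero {κ : Type} [Fintype κ] (J : En κ) (c : ℂ) : cs J c 0 = 0 := by simp [cs]

theorem sq_inv_smul {X : Type} [AddCommGroup X] [Module ℂ X] (c : Circle) (z : X) :
    ((c⁻¹ : Circle) : ℂ) ^ 2 • (c : ℂ) ^ 2 • z = z := by
  rw [smul_smul]; simp

theorem inv_g (e : ∀ x ∈ 𝔉.Om, MX o o' x (w x)) (e' : ∀ x ∈ 𝔉.Om, w' x = trn (w x))
    {α : Type} [Fintype α] {S : α → α → ℝ} {η : Fm α o.m.A} (hη : idx S (o.Pg x) η = η) (a : α) :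
    cj (w' x) (cj (w x) (η a)) = η a := by
  by_cases hx : x ∈ 𝔉.Om
  · rw [e' x hx, (e x hx).trn_cj (idx_mem hη a)]
  · simp [idx_off hη hx]

include h

theorem inv_s (e : ∀ x ∈ 𝔉.Om, MX o o' x (w x)) (e' : ∀ x ∈ 𝔉.Om, w' x = trn (w x))
    {p : M → En (Fin o.m.N)} (hp : ∀ v, o.m.p x (p x v) = p x v) {v : o.m.V}
    (hv : 𝔉.Om'.indicator p x v = v) :
    cs o.m.J (c⁻¹ : Circle) (w' x (cs o'.m.J c (w x v))) = v := by
  by_cases hx : x ∈ 𝔉.Om'
  · have h1 := e x (h.sub hx)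
    have h2 : ∀ a, trn (w x) (w x a) = o.m.p x a := fun a => congrArg (fun T : En _ => T a) h1.uu
    rw [e' x (h.sub hx), h1.cs, h2, map_cs (o.ok.Jp _).symm, ← ind_fix hv, hp, cs_mul o.ok.Jsq]
    simp
  · simp [ind_off hv hx, cs_zero]

theorem ActY.inv (hk : 4 ≤ k) {A : o.Y n m k →L[ℝ] o'.Y n m k} {A' : o'.Y n m k →L[ℝ] o.Y n m k}
    (a : ActY A w c) (a' : ActY A' w' c⁻¹) (e : ∀ x ∈ 𝔉.Om, MX o o' x (w x))
    (e' : ∀ x ∈ 𝔉.Om, w' x = trn (w x)) (v : o.Y n m k) : A' (A v) = v :=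
  Y_ext h hk (funext fun x => by
      rw [a'.D, a.D, inv_s h e e' (p_pm o.ok x) (val_proj h.sup hk v.1 x)])
    (funext fun x => by
      ext1 s
      rw [a'.C, a.C, inv_g e e' (val_proj h.sup hk v.2.1 x)])
    (by rw [a'.S, a.S, sq_inv_smul])

theorem ActC.inv (hk : 3 ≤ k) {A : o.C r k →L[ℝ] o'.C r k} {A' : o'.C r k →L[ℝ] o.C r k}
    (a : ActC A w c) (a' : ActC A' w' c⁻¹) (e : ∀ x ∈ 𝔉.Om, MX o o' x (w x))
    (e' : ∀ x ∈ 𝔉.Om, w' x = trn (w x)) (v : o.C r k) : A' (A v) = v :=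
  C_ext h hk (funext fun x => by
      ext1 s
      rw [a'.α, a.α, a.t, sub_add_cancel, ← PiLp.add_apply,
        inv_g e e' (add_b (val_proj h.sup (by omega) v.1 x) _), PiLp.add_apply, add_sub_cancel_right])
    (funext fun x => by
      rw [a'.φ, a.φ, inv_s h e e' (p_pp o.ok x) (val_proj h.sup (by omega) v.2.1 x)])
    (by rw [a'.z, a.z, sq_inv_smul])

/-- the values of a natural family at equivalent points -/
theorem ActY.rep (hk : 4 ≤ k) {A : o.Y n m k →L[ℝ] o'.Y n m k} (a : ActY A w c)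
    {Al : (M → CL o.m.V o'.m.V) → Circle → Prop} {τ : T → PtX M ι lam r n m}
    (hn : NatP o o' Al τ) {y : Pnt o r} {y' : Pnt o' r} (ht : y'.t = y.t) (al : Al w c)
    (e : y.Eq y' w c) {v : o.Y n m k} {v' : o'.Y n m k} (b : RepE τ y v) (b' : RepE τ y' v') :
    v' = A v := by
  obtain ⟨h1, h2, h3, h4⟩ := hn y y' w c ht al e
  refine Y_ext h hk (funext fun x => ?_) (funext fun x => ?_) ?_
  · rw [a.D, b.D, b'.D]
    by_cases hx : x ∈ 𝔉.Om'
    · rw [indicator_of_mem hx, indicator_of_mem hx]; exact h1 x hx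
    · rw [indicator_of_notMem hx, indicator_of_notMem hx]
      exact ((congrArg _ (map_zero (w x))).trans (cs_zero _ _)).symm
  · ext1 s
    rw [a.C, b.C, b'.C]
    by_cases hx : x ∈ 𝔉.Om
    · rw [indicator_of_mem hx, indicator_of_mem hx]; exact h2 x hx s
    · rw [indicator_of_notMem hx, indicator_of_notMem hx]
      exact (map_zero (cj (w x))).symm
  · rw [a.S, b.S, b.R]
    exact Prod.ext (b'.S.trans (funext h3)) (b'.R.trans h4)

/-! ### the action of a bounded isomorphism -/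

omit h

/-- the coefficient on forms -/
def cF (𝔉 : Fam I M ι lam T) {κ κ' : Type} [Fintype κ] [DecidableEq κ] [Fintype κ']
    [DecidableEq κ'] (α : Type) [Fintype α] (w : M → CL (Eu κ) (Eu κ')) (x : M) :
    CL (Fm α (HS κ)) (Fm α (HS κ')) := tp fun a => cj (𝔉.Om.indicator w x) ∘L pj (HS κ) a

/-- the coefficient on spinors -/
def cS (w : M → CL o.m.V o'.m.V) (c : Circle) (x : M) : CL o.m.V o'.m.V :=
  csL o'.m.J c ∘L 𝔉.Om.indicator w x

theorem cF_apply {α : Type} [Fintype α] {S : α → α → ℝ} {η : Fm α o.m.A}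
    (hη : idx S (o.Pg x) η = η) (a : α) : cF 𝔉 α w x η a = cj (w x) (η a) := by
  by_cases hx : x ∈ 𝔉.Om
  · rw [cF, indicator_of_mem hx]; rfl
  · simp [idx_off hη hx]

variable (o o') in
/-- the defect of the moving parts of the base connections -/
def dB (w : M → CL o.m.V o'.m.V) : T →ₗ[ℝ] (M → Fm ι o'.m.A) where
  toFun t x := cF 𝔉 ι w x (o.b t x) - o'.b t x
  map_add' s t := funext fun x => by simp only [map_add, Pi.add_apply]; abel
  map_smul' s t := funext fun x => by simp only [map_smul, Pi.smul_apply, smul_sub, RingHom.id_apply]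

theorem dB_apply (t : T) (x : M) (a : ι) :
    dB o o' w t x a = cj (w x) (o.b t x a) - o'.b t x a := by
  rw [← cF_apply (b_P1 t x)]; rfl

variable (o o') in
/-- the moving parts agree up to Sobolev terms -/
def Mv (w : M → CL o.m.V o'.m.V) : Prop := ∀ t, dB o o' w t ∈ Hs 𝔉.F0.toPre o'.P1

theorem mv_B0 [o.B0] [o'.B0] : Mv o o' w := fun t => by
  have : dB o o' w t = 0 := funext fun x => by ext1 a; simp [dB_apply, o.b_zero, o'.b_zero]
  exact this ▸ zero_mem _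

theorem Cb_cj {κ κ' : Type} [Fintype κ] [DecidableEq κ] [Fintype κ'] [DecidableEq κ']
    {F : Pre I M ι} {u : M → CL (Eu κ) (Eu κ')} (hu : F.Cb u) : F.Cb fun x => cj (u x) := by
  have h1 : F.Cb fun y => (ContinuousLinearMap.compL ℝ (Eu κ') (Eu κ) (Eu κ') (u y) :
      CL (CL (Eu κ') (Eu κ)) (En κ')) := Cb_clm _ hu
  have h2 : F.Cb fun y => ((ContinuousLinearMap.compL ℝ (Eu κ') (Eu κ) (Eu κ)).flip (trn (u y)) :
      CL (En κ) (CL (Eu κ') (Eu κ))) := Cb_clm _ (Cb_clm trnL hu)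
  have h3 : F.Cb fun _ : M => (opL : CL (HS κ) (En κ)) := Cb_const _
  have h4 : F.Cb fun _ : M => (hsL : CL (En κ') (HS κ')) := Cb_const _
  exact Cb_comp h4 (Cb_comp (Cb_comp h1 h2) h3)

theorem Cb_cF {κ κ' : Type} [Fintype κ] [DecidableEq κ] [Fintype κ'] [DecidableEq κ']
    {u : M → CL (Eu κ) (Eu κ')} (hu : 𝔉.F0.Cb (𝔉.Om.indicator u)) (α : Type) [Fintype α] :
    𝔉.F0.Cb (cF 𝔉 α u) := by
  unfold cF
  simp only [Grp76.tp_eq]
  exact Cb_sum _ fun a _ => Cb_comp (Cb_const _) (Cb_comp (Cb_cj hu) (Cb_const _))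

theorem MI.cF (e : MI o o' w) (α : Type) [Fintype α] : 𝔉.F0.Cb (cF 𝔉 α w) := Cb_cF e.cb α

theorem MI.cS (e : MI o o' w) (c : Circle) : 𝔉.F0.Cb (cS w c) := Cb_comp (Cb_const _) e.cb

include h

theorem cS_apply {p : M → En (Fin o.m.N)} {v : o.m.V} (hv : 𝔉.Om'.indicator p x v = v) :
    cS w c x v = cs o'.m.J c (w x v) := by
  by_cases hx : x ∈ 𝔉.Om'
  · rw [cS, indicator_of_mem (h.sub hx)]; rfl
  · simp [ind_off hv hx, cs_zero]

theorem MI.mF (e : MI o o' w) {α : Type} [Fintype α] (S : M → α → α → ℝ) :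
    Maps (fun x => idx (S x) (o.Pg x)) (fun x => idx (S x) (o'.Pg x)) (Mod61.cF 𝔉 α w) := by
  intro x η hη
  by_cases hx : x ∈ 𝔉.Om
  · refine idx_of hx (fun a => ?_) fun a => ?_
    · rw [cF_apply hη]
      exact (e.me x hx).cj_mem (BE.refl h.B x) o.ok o'.ok (idx_mem hη a)
    · simp only [cF_apply hη, ← map_smul, ← map_sum, idx_sum hη]
  · simp [idx_off hη hx]

theorem maps_cS (c : Circle) {p : M → En (Fin o.m.N)} {p' : M → En (Fin o'.m.N)}
    (hJ : ∀ x, o'.m.J * p' x = p' x * o'.m.J) (hp : ∀ x ∈ 𝔉.Om, ∀ v, p' x (w x v) = w x (p x v)) :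
    Maps (𝔉.Om'.indicator p) (𝔉.Om'.indicator p') (Mod61.cS w c) := by
  intro x v hv
  by_cases hx : x ∈ 𝔉.Om'
  · rw [indicator_of_mem hx, cS_apply h hv, map_cs (hJ x).symm, hp x (h.sub hx), ind_fix hv]
  · simp [ind_off hv hx]

theorem MI.mP (e : MI o o' w) (c : Circle) : Maps o.Pp o'.Pp (Mod61.cS w c) :=
  maps_cS h c (fun x => Std94.J_pp (Std94.pmx o'.ok x)) fun x hx =>
    (e.me x hx).pp (BE.refl h.B x) h.B h.B o.ok

theorem MI.mM (e : MI o o' w) (c : Circle) : Maps o.Pm o'.Pm (Mod61.cS w c) :=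
  maps_cS h c (fun x => Std94.J_pm (Std94.pmx o'.ok x)) fun x hx =>
    (e.me x hx).pm (BE.refl h.B x) h.B h.B o.ok

omit h

/-- multiplication by `c ^ 2` -/
def sqL (X : Type) [NormedAddCommGroup X] [NormedSpace ℝ X] [NormedSpace ℂ X]
    [IsScalarTower ℝ ℂ X] (c : Circle) : X →L[ℝ] X := ContinuousLinearMap.lsmul ℝ ℂ ((c : ℂ) ^ 2)

variable (r k) in
/-- the action on configurations -/
def LC (w : M → CL o.m.V o'.m.V) (c : Circle) : o.C r k →L[ℝ] o'.C r k :=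
  (𝔉.F0.mulH _ _ _ (cF 𝔉 ι w)).prodMap
    ((𝔉.F0.mulH _ _ _ (cS w c)).prodMap ((sqL _ c).prodMap (.id ℝ T)))

variable (n m k) in
/-- the action on equations -/
def LY (w : M → CL o.m.V o'.m.V) (c : Circle) : o.Y n m k →L[ℝ] o'.Y n m k :=
  (𝔉.F0.mulH _ _ _ (cS w c)).prodMap
    ((𝔉.F0.mulH _ _ _ (cF 𝔉 (ι × ι) w)).prodMap ((sqL _ c).prodMap (.id ℝ _)))

theorem LC_apply (v : o.C r k) : LC r k w c v = (𝔉.F0.mulH _ _ _ (cF 𝔉 ι w) v.1,
    𝔉.F0.mulH _ _ _ (cS w c) v.2.1, ((c : ℂ) ^ 2) • v.2.2.1, v.2.2.2) := by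
  simp only [LC, sqL, ContinuousLinearMap.coe_prodMap', Prod.map, ContinuousLinearMap.coe_id', id,
    ContinuousLinearMap.lsmul_apply]

theorem LY_apply (v : o.Y n m k) : LY n m k w c v = (𝔉.F0.mulH _ _ _ (cS w c) v.1,
    𝔉.F0.mulH _ _ _ (cF 𝔉 (ι × ι) w) v.2.1, ((c : ℂ) ^ 2) • v.2.2.1, v.2.2.2) := by
  simp only [LY, sqL, ContinuousLinearMap.coe_prodMap', Prod.map, ContinuousLinearMap.coe_id', id,
    ContinuousLinearMap.lsmul_apply]

include h

theorem MI.LC_α (e : MI o o' w) (hk : 3 ≤ k) (c : Circle) (v : o.C r k) (x : M) (a : ι) :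
    𝔉.F0.val _ _ (LC r k w c v).1 x a = cj (w x) (𝔉.F0.val _ _ v.1 x a) := by
  have h4 : 4 ≤ k + 1 := by omega
  rw [LC_apply]
  exact (congrArg (· a) (val_mulH h.sup h4 (e.cF ι) (e.mF h _) v.1 x)).trans
    (cF_apply (val_proj h.sup h4 v.1 x) a)

theorem MI.LC_φ (e : MI o o' w) (hk : 3 ≤ k) (c : Circle) (v : o.C r k) (x : M) :
    𝔉.F0.val _ _ (LC r k w c v).2.1 x = cs o'.m.J c (w x (𝔉.F0.val _ _ v.2.1 x)) := by
  have h4 : 4 ≤ k + 1 := by omega
  rw [LC_apply]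
  exact (val_mulH h.sup h4 (e.cS c) (e.mP h c) v.2.1 x).trans
    (cS_apply h (val_proj h.sup h4 v.2.1 x))

theorem MI.actC [o.B0] [o'.B0] (e : MI o o' w) (hk : 3 ≤ k) (c : Circle) :
    ActC (LC r k w c) w c :=
  ⟨fun v x a => by simp [e.LC_α h hk, o.b_zero, o'.b_zero], e.LC_φ h hk c, fun v => by
    rw [LC_apply]⟩

theorem Mv.symm (mv : Mv o o' w) (e : MI o o' w) : Mv o' o fun x => trn (w x) := fun t => by
  have e' := e.symm h
  have h1 : dB o' o (fun x => trn (w x)) t =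
      -fun x => cF 𝔉 ι (fun x => trn (w x)) x (dB o o' w t x) := funext fun x => by
    ext1 a
    rw [Pi.neg_apply, PiLp.neg_apply, cF_apply (Hs_proj h.sup (mv t) x), dB_apply, dB_apply,
      map_sub, inv_g e.me (fun _ _ => rfl) (b_P1 t x), neg_sub]
  exact h1 ▸ neg_mem (Hs_mul h.sup (e'.cF ι) (e'.mF h _) (mv t))

theorem Mv.ex [CompleteSpace T] (mv : Mv o o' w) (hk : 4 ≤ k) :
    ∃ L : T →L[ℝ] 𝔉.F0.H k o'.P1, ∀ t, 𝔉.F0.val k _ (L t) = dB o o' w t := by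
  let L : T →ₗ[ℝ] 𝔉.F0.H k o'.P1 := ⟨⟨fun t => ofV _ k _ (dB o o' w t), fun s t =>
    ofV_eq h.sup hk (by rw [val_add, val_ofV (mv s) hk, val_ofV (mv t) hk, map_add])⟩, fun c t =>
    ofV_eq h.sup hk (by rw [val_smul, val_ofV (mv t) hk, map_smul]; rfl)⟩
  have hL : ∀ t, 𝔉.F0.val k _ (L t) = dB o o' w t := fun t => val_ofV (mv t) hk
  refine ⟨⟨L, L.continuous_of_seq_closed_graph fun u t g hu hg => ?_⟩, hL⟩
  refine (ofV_eq h.sup hk (funext fun x => ?_)).symm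
  have h1 : Continuous fun t => dB o o' w t x :=
    ((cF 𝔉 ι w x).continuous.comp (continuousOn_univ.1 (o.sb.ev x).continuousOn)).sub
      (continuousOn_univ.1 (o'.sb.ev x).continuousOn)
  refine tendsto_nhds_unique (((continuous_val_apply x).tendsto g).comp hg) ?_
  simpa only [Function.comp_def, hL] using (h1.tendsto t).comp hu

/-- the linear action on configurations exists -/
theorem MI.act [CompleteSpace T] (e : MI o o' w) (mv : Mv o o' w) (hk : 3 ≤ k) (c : Circle) :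
    ∃ A : o.C r k →L[ℝ] o'.C r k, ActC A w c := by
  obtain ⟨L, hL⟩ := mv.ex h (k := k + 1) (by omega)
  refine ⟨LC r k w c + .inl ℝ _ _ ∘L L ∘L .snd ℝ _ _ ∘L .snd ℝ _ _ ∘L .snd ℝ _ _,
    fun v x a => ?_, fun v x => ?_, fun v => ?_⟩
  · show 𝔉.F0.val _ _ ((LC r k w c v).1 + L v.2.2.2) x a = _
    rw [val_add, Pi.add_apply, PiLp.add_apply, e.LC_α h hk, hL, dB_apply, ← add_sub_assoc,
      ← map_add]
  · show 𝔉.F0.val _ _ ((LC r k w c v).2 + 0).1 x = _
    rw [add_zero, e.LC_φ h hk]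
  · show ((LC r k w c v).2 + 0).2 = _
    rw [add_zero, LC_apply]

theorem MI.actY (e : MI o o' w) (hk : 4 ≤ k) (c : Circle) : ActY (LY n m k w c) w c := by
  refine ⟨fun v x => ?_, fun v x a => ?_, fun v => ?_⟩ <;> rw [LY_apply]
  · exact (val_mulH h.sup hk (e.cS c) (e.mM h c) v.1 x).trans
      (cS_apply h (val_proj h.sup hk v.1 x))
  · exact (congrArg (· a) (val_mulH h.sup hk (e.cF _) (e.mF h _) v.2.1 x)).trans
      (cF_apply (val_proj h.sup hk v.2.1 x) a)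

theorem ActC.surj [CompleteSpace T] {A : o.C r k →L[ℝ] o'.C r k} (a : ActC A w c) (e : MI o o' w)
    (mv : Mv o o' w) (hk : 3 ≤ k) : Surjective A := fun v =>
  let ⟨_, a'⟩ := (e.symm h).act (r := r) h (mv.symm h e) hk c⁻¹
  ⟨_, a'.inv h hk (by rw [inv_inv]; exact a) (e.symm h).me (fun x _ => (trn_trn (w x)).symm) v⟩

variable (n m) in
/-- the action on equations as an isomorphism -/
def MI.eqY (e : MI o o' w) (hk : 4 ≤ k) (c : Circle) : o.Y n m k ≃L[ℝ] o'.Y n m k :=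
  .equivOfInverse (LY n m k w c) (LY n m k (fun x => trn (w x)) c⁻¹)
    ((e.actY h hk c).inv h hk ((e.symm h).actY h hk c⁻¹) e.me fun _ _ => rfl)
    (((e.symm h).actY h hk c⁻¹).inv h hk (by rw [inv_inv]; exact e.actY h hk c) (e.symm h).me
      fun x _ => (trn_trn (w x)).symm)

/-- **transport**: an equivalence `y₀ → y₀'` extends to all smooth points -/
theorem Pnt.Eq.tr {y₀ : Pnt o r} {y₀' : Pnt o' r} (e : y₀.Eq y₀' w c) (ht : y₀'.t = y₀.t)
    (mv : Mv o o' w) (y : Pnt o r) : ∃ y' : Pnt o' r, y'.t = y.t ∧ y.Eq y' w c ∧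
      ∀ k, 3 ≤ k → ∀ A : o.C r k →L[ℝ] o'.C r k, ActC A w c →
        y'.pt k = y₀'.pt k + A (y.pt k - y₀.pt k) := by
  have mi := e.mi h ht
  have h1 := sub_mem y.hα y₀.hα
  have h2 := sub_mem y.hφ y₀.hφ
  refine ⟨⟨_, _, ((c : ℂ) ^ 2) • y.z, y.t, add_mem y₀'.hα
    (add_mem (Hs_mul h.sup (mi.cF ι) (mi.mF h _) h1) (mv (y.t - y₀.t))),
    add_mem y₀'.hφ (Hs_mul h.sup (mi.cS c) (mi.mP h c) h2), y.ht⟩, rfl,
    eq_of_th h mi rfl (fun x hx a => ?_) (fun x hx => ?_) rfl,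
    fun k hk A ac => C_ext h hk ?_ ?_ ?_⟩
  · have h3 := Hs_proj h.sup h1 x
    rw [← e.th h ht x hx a]
    simp only [Mod61.th, Ref.A, Md.addC, Pi.add_apply, PiLp.add_apply, cF_apply h3, dB_apply,
      map_add, map_sub (opL : CL o'.m.A _), ContinuousLinearMap.add_comp,
      ContinuousLinearMap.sub_comp, (mi.me x hx).cj_comp (idx_mem h3 a),
      (mi.me x hx).cj_comp (o.b_mem _ x a)]
    simp only [Pi.sub_apply, PiLp.sub_apply, map_sub, ContinuousLinearMap.comp_add,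
      ContinuousLinearMap.comp_sub, ContinuousLinearMap.sub_comp]
    abel
  · simp only [Pi.add_apply, cS_apply h (Hs_proj h.sup h2 x), ← add_assoc, e.Φ' h x]
    simp only [← csL_apply, ← map_add, Pi.sub_apply, add_add_sub_cancel]
  · rw [Pnt.val_α _ hk, Prod.fst_add, val_add, y₀'.val_α hk]
    refine congrArg (y₀'.α + ·) (funext fun x => ?_)
    ext1 a
    rw [ac.α, Prod.fst_sub, val_sub, y.val_α hk, y₀.val_α hk, Pi.add_apply, PiLp.add_apply,
      cF_apply (Hs_proj h.sup h1 x), dB_apply, map_add, add_sub_assoc]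
    rfl
  · rw [Pnt.val_φ _ hk, Prod.snd_add, Prod.fst_add, val_add, y₀'.val_φ hk]
    refine congrArg (y₀'.φ + ·) (funext fun x => ?_)
    rw [ac.φ, Prod.snd_sub, Prod.fst_sub, val_sub, y.val_φ hk, y₀.val_φ hk,
      cS_apply h (Hs_proj h.sup h2 x)]
  · rw [Prod.snd_add, Prod.snd_add, ac.z]
    refine Prod.ext ?_ ?_
    · show _ • y.z = y₀'.z + _ • (y.z - y₀.z)
      rw [show y₀'.z = _ from e.z, ← smul_add]
      exact congrArg _ (add_sub_cancel _ _).symm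
    · show y.t = y₀'.t + (y.t - y₀.t)
      rw [ht, add_sub_cancel]

end Crest.Agent.X212.Mod61
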