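import Crest.Agent.X212.An.Gauge
import Crest.Agent.X212.Prm93.H
import Crest.Agent.X212.Sob92.Fun
import Crest.Agent.X212.Eqv71.Alg
import Crest.Agent.X212.Grp76.Ext
import Crest.Agent.X212.Fred93.Basic
import Crest.Agent.X212.Wz78.Hs

/-!
# Row 212, layer AN: the Banach model of the gauge theory (format)

A family `𝔉 : Fam` of backgrounds over an open set `Q` of parameters, a Sobolev frame `F0`, and
clopen sets `Om' ⊆ Om`: the connection lives on `Om`, the spinor on `Om'`.  `o : Ref 𝔉` is a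
module with a base configuration, `y : Pnt o r` a smooth configuration, `o.C r k`, `o.Y n m k` the
Banach spaces.  Leaves: `Ref.Sm` (perturbations), `NatOn` (naturality), `Ref.Rp` (the map),
`GrpM` (the group), `GrpM.Slc` (slice, Fredholm property, regularity).
-/

set_option autoImplicit false
set_option linter.unusedSectionVars false
noncomputable section
open scoped Manifold ContDiff Topology InnerProductSpace
open MeasureTheory Set Function Filter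

namespace Crest.Agent.X212.Mod61
open An Prm93 Eqv71

variable {E : Type} [NormedAddCommGroup E] [NormedSpace ℝ E] [FiniteDimensional ℝ E]
  [MeasurableSpace E] [BorelSpace E]
  {HM : Type} [TopologicalSpace HM] {I : ModelWithCorners ℝ E HM}
  {M : Type} [TopologicalSpace M] [ChartedSpace HM M] [IsManifold I ∞ M]
  [MeasurableSpace M] {ι : Type} [Fintype ι] {lam : Type} [Fintype lam]
  {T : Type} [NormedAddCommGroup T] [NormedSpace ℝ T]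

variable (I M ι lam T) in
/-- a family of backgrounds over a reference background `G0`; `F0` is the Sobolev frame -/
structure Fam where
  B : Base M ι lam
  F0 : Fr I M ι
  G0 : Geo I M ι lam
  G : T → Geo I M ι lam
  Q : Set T
  S : T → M → ι → ι → ℝ
  Si : T → M → ι → ι → ℝ
  cf : T → M → ι → ι → ι → ℝ
  la : T → M → ι → ℝ
  Om : Set M
  Om' : Set M

namespace Fam
variable (𝔉 : Fam I M ι lam T)

/-- the connection for `G t` with the same `g`-part as the connection `A0` for `G0` -/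
def W0 (m : Md M ι lam) (A0 : m.Cn) (t : T) : m.Cn := fun a x =>
  ∑ b, 𝔉.S t x a b • A0 b x + ∑ b, ∑ k, 𝔉.cf t x a b k • (m.ρ b x * m.ρ k x)
    + 𝔉.la t x a • (m.J * m.p x)

/-- on a closed manifold: `F0 = G0.F`, `SB` from `JS.sb`, `Cb` from `Cb_of_compact` -/
structure OK : Prop where
  B : 𝔉.B.OK I
  G0 : 𝔉.G0.OK 𝔉.B
  G : ∀ t ∈ 𝔉.Q, (𝔉.G t).OK 𝔉.B
  tame : ∃ C, 𝔉.F0.Tame C
  tameG : ∀ t ∈ 𝔉.Q, ∃ C, (𝔉.G t).F.Tame C
  e0 : 𝔉.G0.F.e = 𝔉.F0.e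
  P0 : 𝔉.F0.P = 𝔉.B.P
  co : ∀ a b c d, 𝔉.F0.Cb (𝔉.B.o a b c d)
  cl : 𝔉.F0.Cb 𝔉.B.l
  opn : IsOpen 𝔉.Q
  Om : IsClopen 𝔉.Om
  Om' : IsClopen 𝔉.Om'
  sub : 𝔉.Om' ⊆ 𝔉.Om
  mix : ∀ t ∈ 𝔉.Q, Mix 𝔉.F0.toPre (𝔉.G t).F.toPre fun a b x => 𝔉.S t x a b
  PS : ∀ t ∈ 𝔉.Q, ∀ x a b, ∑ c, 𝔉.B.P a c x * 𝔉.S t x c b = 𝔉.S t x a b
  SP : ∀ t ∈ 𝔉.Q, ∀ x a b, ∑ c, 𝔉.S t x a c * 𝔉.B.P c b x = 𝔉.S t x a b
  PSi : ∀ t ∈ 𝔉.Q, ∀ x a b, ∑ c, 𝔉.B.P a c x * 𝔉.Si t x c b = 𝔉.Si t x a b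
  SiP : ∀ t ∈ 𝔉.Q, ∀ x a b, ∑ c, 𝔉.Si t x a c * 𝔉.B.P c b x = 𝔉.Si t x a b
  SSi : ∀ t ∈ 𝔉.Q, ∀ x a b, ∑ c, 𝔉.S t x a c * 𝔉.Si t x c b = 𝔉.B.P a b x
  SiS : ∀ t ∈ 𝔉.Q, ∀ x a b, ∑ c, 𝔉.Si t x a c * 𝔉.S t x c b = 𝔉.B.P a b x
  sS : ∀ a b, SB 𝔉.F0.toPre 𝔉.Q fun t x => 𝔉.S t x a b
  sSi : ∀ a b, SB 𝔉.F0.toPre 𝔉.Q fun t x => 𝔉.Si t x a b
  scf : ∀ a b k, SB 𝔉.F0.toPre 𝔉.Q fun t x => 𝔉.cf t x a b k
  sla : ∀ a, SB 𝔉.F0.toPre 𝔉.Q fun t x => 𝔉.la t x a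
  sc : ∀ a b k, SB 𝔉.F0.toPre 𝔉.Q fun t => (𝔉.G t).F.c a b k
  sdv : ∀ a, SB 𝔉.F0.toPre 𝔉.Q fun t => (𝔉.G t).F.dv a
  sa : ∀ a, SB 𝔉.F0.toPre 𝔉.Q fun t => (𝔉.G t).a a
  dens : ∃ h : T → M → ℝ, SB 𝔉.F0.toPre 𝔉.Q h ∧ ∀ t ∈ 𝔉.Q, (∀ x, 0 < h t x) ∧
    (𝔉.G t).F.μ = 𝔉.F0.μ.withDensity fun x => ENNReal.ofReal (h t x)
  conn : ∀ (m : Md M ι lam) (A0 : m.Cn), m.OK I 𝔉.B → m.IsConn 𝔉.B 𝔉.G0 A0 →
    ∀ t ∈ 𝔉.Q, m.IsConn 𝔉.B (𝔉.G t) (𝔉.W0 m A0 t)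

end Fam

open Wz78 (g_skw g_p g_J g_ρ g_j g_p') in
/-- adding a `g`-valued one-form -/
theorem isConn_addC {B : Base M ι lam} {G : Geo I M ι lam} {m : Md M ι lam} {W : m.Cn}
    (H : m.OK I B) (h : m.IsConn B G W) {β : M → Fm ι m.A} (hs : ∀ a, Sm I fun x => β x a)
    (hg : ∀ x a, β x a ∈ m.gS x) (hP : ∀ x a, ∑ b, B.P a b x • β x b = β x a) :
    m.IsConn B G (m.addC W β) where
  cc := h.cc.addA (B := fun a x => opL (β x a))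
    ⟨fun a x => (opL.contMDiff.comp (hs a)) x, fun a x => by
      rw [← hP x a, map_sum]; simp only [map_smul]⟩
    (fun a x => by rw [g_p' H (hg x a), g_p (hg x a)]) fun a b x => (g_ρ (hg x a) b).symm
  sk a x v w := by
    simp only [Md.addC, add_apply, inner_add_left, inner_add_right, h.sk a x v w,
      g_skw (hg x a) v w]
    ring
  J a x := by rw [Md.addC, mul_add, add_mul, h.J, g_J (hg x a)]
  j a x s := by
    rw [← h.j a x s, Md.addC, mul_add, add_mul, g_j (hg x a)]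
    abel

/-- a module with a base configuration (`Φ0 = 0` on a closed manifold) -/
structure Ref (𝔉 : Fam I M ι lam T) where
  m : Md M ι lam
  A0 : m.Cn
  Φ0 : M → m.V
  ok : m.OK I 𝔉.B
  conn : m.IsConn 𝔉.B 𝔉.G0 A0
  cp : 𝔉.F0.Cb m.p
  cρ : ∀ a, 𝔉.F0.Cb (m.ρ a)
  cj : 𝔉.F0.Cb m.j
  cA : ∀ a, 𝔉.F0.Cb (A0 a)
  cΦ : 𝔉.F0.Cb Φ0
  pos : ∀ x, 𝔉.Om'.indicator (m.pp 𝔉.B) x (Φ0 x) = Φ0 x
  /-- the moving part of the base connection -/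
  b : T →ₗ[ℝ] (M → Fm ι m.A) := 0
  sb : SB 𝔉.F0.toPre univ fun t => b t := by exact SB.fixed (Sob92.Cb_const 0)
  bP : ∀ t x, idx (fun a c => 𝔉.B.P a c x) (𝔉.Om.indicator m.pg x) (b t x) = b t x := by
    exact fun _ _ => map_zero _

/-- the base connection does not move -/
class Ref.B0 {𝔉 : Fam I M ι lam T} (o : Ref 𝔉) : Prop where
  b0 : o.b = 0

namespace Ref
variable {𝔉 : Fam I M ι lam T} (o : Ref 𝔉)

/-- the bundles cut to the clopen sets -/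
def Pg : M → CL o.m.A o.m.A := 𝔉.Om.indicator o.m.pg
def P1 : M → CL (Fm ι o.m.A) (Fm ι o.m.A) := fun x => idx (fun a b => 𝔉.B.P a b x) (o.Pg x)
def P2 : M → CL (Fm (ι × ι) o.m.A) (Fm (ι × ι) o.m.A) := fun x => idx (𝔉.B.sd x) (o.Pg x)
def Pp : M → CL o.m.V o.m.V := 𝔉.Om'.indicator (o.m.pp 𝔉.B)
def Pm : M → CL o.m.V o.m.V := 𝔉.Om'.indicator (o.m.pm 𝔉.B)

/-- the base connection for `G0` at the parameter `t` -/
def A (t : T) : o.m.Cn := o.m.addC o.A0 (o.b t)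

/-- the connection with coordinates `(t, α)` -/
def W (t : T) (α : M → Fm ι o.m.A) : o.m.Cn :=
  o.m.addC (𝔉.W0 o.m (o.A t) t) fun x => idx (𝔉.S t x) (ContinuousLinearMap.id ℝ o.m.A) (α x)

theorem b_zero [o.B0] (t : T) : o.b t = 0 := by rw [B0.b0]; rfl

theorem A_eq [o.B0] (t : T) : o.A t = o.A0 := by
  funext a x
  simp [A, Md.addC, o.b_zero]

theorem sbA (a : ι) : SB 𝔉.F0.toPre univ fun t => o.A t a :=
  (SB.fixed (o.cA a)).add (o.sb.clm (opL ∘L PiLp.proj 2 (fun _ : ι => o.m.A) a))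

theorem cAt (t : T) (a : ι) : 𝔉.F0.Cb (o.A t a) := (o.sbA a).cb t trivial

theorem b_mem (t : T) (x : M) (a : ι) : o.b t x a ∈ o.m.gS x := by
  rw [← o.bP, Wz78.idx_apply]
  refine Submodule.sum_mem _ fun c _ => Submodule.smul_mem _ _ ?_
  by_cases hx : x ∈ 𝔉.Om
  · rw [indicator_of_mem hx]; exact Wz78.pg_mem x _
  · rw [indicator_of_notMem hx]; exact zero_mem _

theorem b_proj (h : 𝔉.B.OK I) (t : T) (x : M) (a : ι) :
    ∑ c, 𝔉.B.P a c x • o.b t x c = o.b t x a := by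
  rw [← o.bP]
  simp only [Wz78.idx_apply, Finset.smul_sum, smul_smul]
  rw [Finset.sum_comm]
  simp only [← Finset.sum_smul, (h.pr x).idem]

theorem connA (h : 𝔉.B.OK I) (t : T) : o.m.IsConn 𝔉.B 𝔉.G0 (o.A t) :=
  isConn_addC o.ok o.conn (fun a => (PiLp.proj 2 (fun _ : ι => o.m.A) a).contMDiff.comp
    (o.sb.cb t trivial).choose_spec.1) (fun x => o.b_mem t x) fun x => o.b_proj h t x

end Ref

variable (M ι lam) in
/-- perturbations with `m` further invariant real equations (e.g. `1 - ‖z‖²`) -/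
structure PtX (r n m : ℕ) extends Pt M ι lam r n where
  R : Cfg M ι lam r → Fin m → ℝ

/-- admissible up to the condition on `z` -/
structure Adm0 {r : ℕ} (c : Cfg M ι lam r) (B : Base M ι lam) (G : Geo I M ι lam) : Prop where
  ok : c.m.OK I B
  conn : c.m.IsConn B G c.W
  sm : Sm I c.Φ
  pos : ∀ x, c.m.pp B x (c.Φ x) = c.Φ x

/-- equivalence over `O` on one background -/
abbrev EqOn {r : ℕ} (B : Base M ι lam) (F : Fr I M ι) (O : Set M) (c c' : Cfg M ι lam r)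
    (u : M → CL c.m.V c'.m.V) (ζ : Circle) : Prop :=
  CEq F c c' O id (fun x b a => B.P b a x) B.l u ζ

/-- the unperturbed equations as a `PtX` -/
def eq0 (B : Base M ι lam) (G : Geo I M ι lam) (r n m : ℕ) : PtX M ι lam r n m where
  D c := Wz78.dir I G.F.e c.m.ρ c.W c.Φ
  C c x := c.m.p2 B x (c.m.Fg G.F c.W x) - c.m.mu B x (c.Φ x) (c.Φ x)
  S _ := 0
  R _ := 0

/-- LEAF (71): naturality over the clopen set `O` for spinors vanishing off `O'` -/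
def NatOn {r n m : ℕ} (B : Base M ι lam) (G : Geo I M ι lam) (O O' : Set M)
    (τ : PtX M ι lam r n m) : Prop :=
  ∀ (c c' : Cfg M ι lam r) (u : M → CL c.m.V c'.m.V) (ζ : Circle), Adm0 c B G → Adm0 c' B G →
    (∀ x ∉ O', c.Φ x = 0) → (∀ x ∉ O', c'.Φ x = 0) → EqOn B G.F O c c' u ζ →
    (∀ x ∈ O', τ.D c' x = cs c'.m.J ζ (u x (τ.D c x))) ∧
    (∀ x ∈ O, ∀ s, τ.C c' x s = cj (u x) (τ.C c x s)) ∧
    (∀ i, τ.S c' i = (ζ : ℂ) ^ 2 * τ.S c i) ∧ τ.R c' = τ.R c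

/-- naturality of a family -/
def Fam.Nat (𝔉 : Fam I M ι lam T) {r n m : ℕ} (τ : T → PtX M ι lam r n m) : Prop :=
  ∀ t ∈ 𝔉.Q, NatOn 𝔉.B (𝔉.G t) 𝔉.Om 𝔉.Om' (τ t)

/-- the unperturbed equations of the family -/
def Fam.eq0 (𝔉 : Fam I M ι lam T) (r n m : ℕ) (t : T) : PtX M ι lam r n m :=
  Mod61.eq0 𝔉.B (𝔉.G t) r n m

variable [T2Space M] [BorelSpace M]

section hs
variable {V : Type} [NormedAddCommGroup V] [InnerProductSpace ℝ V]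

/-- functions that lie in all Sobolev spaces (on a closed manifold: smooth sections) -/
def Hs (F : Pre I M ι) (p : M → V →L[ℝ] V) : Submodule ℝ (M → V) where
  carrier := {u | ∀ k, 4 ≤ k → ∃ h : F.H k p, F.val k p h = u}
  add_mem' := fun hu hv k hk => by
    obtain ⟨a, rfl⟩ := hu k hk
    obtain ⟨b, rfl⟩ := hv k hk
    exact ⟨a + b, Sob92.val_add a b⟩
  zero_mem' := fun _ _ => ⟨0, Sob92.val_zero⟩
  smul_mem' := fun c _ hu k hk => by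
    obtain ⟨a, rfl⟩ := hu k hk
    exact ⟨c • a, Sob92.val_smul c a⟩

open Classical in
/-- the element of `H k` with value `u` -/
def ofV (F : Pre I M ι) (k : ℕ) (p : M → V →L[ℝ] V) (u : M → V) : F.H k p :=
  if h : ∃ a : F.H k p, F.val k p a = u then h.choose else 0

theorem val_ofV {F : Pre I M ι} {k : ℕ} {p : M → V →L[ℝ] V} {u : M → V} (hu : u ∈ Hs F p)
    (hk : 4 ≤ k) : F.val k p (ofV F k p u) = u := by
  rw [ofV, dif_pos (hu k hk)]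
  exact (hu k hk).choose_spec

end hs

/-- smooth configurations -/
structure Pnt {𝔉 : Fam I M ι lam T} (o : Ref 𝔉) (r : ℕ) where
  α : M → Fm ι o.m.A
  φ : M → o.m.V
  z : EuclideanSpace ℂ (Fin r)
  t : T
  hα : α ∈ Hs 𝔉.F0.toPre o.P1
  hφ : φ ∈ Hs 𝔉.F0.toPre o.Pp
  ht : t ∈ 𝔉.Q

namespace Ref
variable {𝔉 : Fam I M ι lam T} (o : Ref 𝔉) (r n m k : ℕ)

/-- configurations `(α, φ, z, t)` -/
abbrev C : Type :=
  𝔉.F0.H (k + 1) o.P1 × 𝔉.F0.H (k + 1) o.Pp × EuclideanSpace ℂ (Fin r) × T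

/-- equations -/
abbrev Y : Type := 𝔉.F0.H k o.Pm × 𝔉.F0.H k o.P2 × (Fin n → ℂ) × (Fin m → ℝ)

/-- the domain -/
def U : Set (o.C r k) := {v | v.2.2.2 ∈ 𝔉.Q}

/-- inclusion of levels -/
def iC (j : ℕ) : o.C r j →L[ℝ] o.C r k :=
  (𝔉.F0.incl (j + 1) (k + 1) o.P1).prodMap ((𝔉.F0.incl (j + 1) (k + 1) o.Pp).prodMap (.id ℝ _))

/-- inclusion of levels -/
def iY (j : ℕ) : o.Y n m j →L[ℝ] o.Y n m k :=
  (𝔉.F0.incl j k o.Pm).prodMap ((𝔉.F0.incl j k o.P2).prodMap (.id ℝ _))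

end Ref

section leaves
variable {𝔉 : Fam I M ι lam T} {o : Ref 𝔉} {r n m : ℕ}

/-- the configuration of a point -/
def Pnt.cfg (y : Pnt o r) : Cfg M ι lam r := ⟨o.m, o.W y.t y.α, o.Φ0 + y.φ, y.z⟩

/-- the point of the Banach model -/
def Pnt.pt (k : ℕ) (y : Pnt o r) : o.C r k :=
  (ofV 𝔉.F0.toPre (k + 1) o.P1 y.α, ofV 𝔉.F0.toPre (k + 1) o.Pp y.φ, y.z, y.t)

/-- `e` is the value of `τ` at the smooth point `y` -/
structure RepE (τ : T → PtX M ι lam r n m) (y : Pnt o r) {j : ℕ} (e : o.Y n m j) : Prop where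
  D : 𝔉.F0.val j o.Pm e.1 = 𝔉.Om'.indicator ((τ y.t).D y.cfg)
  C : 𝔉.F0.val j o.P2 e.2.1 = 𝔉.Om.indicator ((τ y.t).C y.cfg)
  S : e.2.2.1 = (τ y.t).S y.cfg
  R : e.2.2.2 = (τ y.t).R y.cfg

/-- `f` is a smooth map representing `τ` -/
def RepF (τ : T → PtX M ι lam r n m) {k j : ℕ} (f : o.C r k → o.Y n m j) : Prop :=
  ContDiffOn ℝ ∞ f (o.U r k) ∧ ∀ y : Pnt o r, RepE τ y (f (y.pt k))

variable (o) in
/-- LEAF (62; 79/80 for neck terms): perturbations gain one derivative -/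
def Ref.Sm (τ : T → PtX M ι lam r n m) : Prop :=
  ∀ k, 7 ≤ k → ∃ f : o.C r k → o.Y n m (k + 1), RepF τ f

variable (o) in
/-- LEAF (77) for `e = 𝔉.eq0 r n m`: the map -/
def Ref.Rp (e : T → PtX M ι lam r n m) : Prop :=
  ∀ k, 7 ≤ k → ∃ f : o.C r k → o.Y n m k, RepF e f

variable (o r) in
/-- LEAF (76): the gauge group of level `k`, described by its values `(u, ζ)`.
`Al` = the allowed automorphisms (`True` on a closed manifold). -/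
structure GrpM (k : ℕ) (Al : (M → CL o.m.V o.m.V) → Circle → Prop) where
  G : Type
  L : Type
  H : Type
  [gG : Group G]
  [tG : TopologicalSpace G]
  [cG : IsTopologicalGroup G]
  [aG : MulAction G (o.C r k)]
  [sG : ContinuousSMul G (o.C r k)]
  [nL : NormedAddCommGroup L]
  [sL : NormedSpace ℝ L]
  [cL : CompleteSpace L]
  [nH : NormedAddCommGroup H]
  [sH : NormedSpace ℝ H]
  [cH : CompleteSpace H]
  u : G → M → CL o.m.V o.m.V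
  ζ : G → Circle
  /-- values are unitary automorphisms over `Om` of class `C¹` -/
  c1 : ∀ g, ContMDiffOn I 𝓘(ℝ, CL o.m.V o.m.V) 1 (u g) 𝔉.Om
  uu : ∀ g, ∀ x ∈ 𝔉.Om, trn (u g x) ∘L u g x = o.m.p x ∧ u g x ∘L trn (u g x) = o.m.p x
  cJ : ∀ g, ∀ x ∈ 𝔉.Om, u g x ∘L o.m.J = o.m.J ∘L u g x
  cρ : ∀ g, ∀ x ∈ 𝔉.Om, ∀ a, o.m.ρ a x ∘L u g x = u g x ∘L o.m.ρ a x
  cj : ∀ g, ∀ x ∈ 𝔉.Om, ∀ s, o.m.j x s ∘L u g x = u g x ∘L o.m.j x s
  umul : ∀ g h, ∀ x ∈ 𝔉.Om, u (g * h) x = u g x ∘L u h x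
  ζmul : ∀ g h, ζ (g * h) = ζ g * ζ h
  al : ∀ (g : G) (y y' : Pnt o r), g • y.pt k = y'.pt k → Al (u g) (ζ g)
  /-- the action -/
  aα : ∀ (g : G) (v : o.C r k), ∀ x ∈ 𝔉.Om, ∀ a, 𝔉.F0.D a (u g) x
    + (o.A v.2.2.2 a x + opL (𝔉.F0.val _ _ (g • v).1 x a)) ∘L u g x
    - u g x ∘L (o.A v.2.2.2 a x + opL (𝔉.F0.val _ _ v.1 x a)) = 0
  aφ : ∀ (g : G) (v : o.C r k) (x : M), o.Φ0 x + 𝔉.F0.val _ _ (g • v).2.1 x =
    cs o.m.J (ζ g) (u g x (o.Φ0 x + 𝔉.F0.val _ _ v.2.1 x))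
  az : ∀ (g : G) (v : o.C r k), (g • v).2.2 = (((ζ g : ℂ) ^ 2) • v.2.2.1, v.2.2.2)
  aff : ∀ g : G, ∃ A : o.C r k →L[ℝ] o.C r k, ∀ v, g • v = A v + g • (0 : o.C r k)
  /-- the action on the equations -/
  ρD : G → 𝔉.F0.H k o.Pm →L[ℝ] 𝔉.F0.H k o.Pm
  ρC : G → 𝔉.F0.H k o.P2 →L[ℝ] 𝔉.F0.H k o.P2
  cD : Continuous ρD
  cC : Continuous ρC
  cζ : Continuous ζ
  cu : ∀ x, Continuous fun g => u g x
  vD : ∀ g h x, 𝔉.F0.val _ _ (ρD g h) x = cs o.m.J (ζ g) (u g x (𝔉.F0.val _ _ h x))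
  vC : ∀ g h x s, 𝔉.F0.val _ _ (ρC g h) x s = Eqv71.cj (u g x) (𝔉.F0.val _ _ h x s)
  /-- allowed smooth equivalences are in the group, and they are dense -/
  surj : ∀ (y y' : Pnt o r) (w : M → CL o.m.V o.m.V) (c : Circle), y'.t = y.t → Al w c →
    EqOn 𝔉.B (𝔉.G y.t).F 𝔉.Om y.cfg y'.cfg w c → ∃ g, (∀ x ∈ 𝔉.Om, u g x = w x) ∧ ζ g = c
  dense : ∀ y : Pnt o r, Dense {g : G | ∃ y' : Pnt o r, g • y.pt k = y'.pt k}
  proper : ∀ y y' : Pnt o r, Grp76.PropAt G (y.pt k) (y'.pt k)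

attribute [instance] GrpM.gG GrpM.tG GrpM.cG GrpM.aG GrpM.sG GrpM.nL GrpM.sL GrpM.cL GrpM.nH
  GrpM.sH GrpM.cH

variable {k : ℕ} {Al : (M → CL o.m.V o.m.V) → Circle → Prop}

/-- the stabiliser acts trivially -/
def GrpM.Free (Γ : GrpM o r k Al) (v : o.C r k) : Prop :=
  ∀ g : Γ.G, g • v = v → ∀ w : o.C r k, g • w = w

/-- LEAF (76 + 77) for `e = 𝔉.eq0 r n m`: slice, Fredholm property of index `d` and one step of
elliptic regularity at a free smooth point -/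
def GrpM.Slc (Γ : GrpM o r k Al) (e : T → PtX M ι lam r n m) (d : ℤ) (y : Pnt o r) : Prop :=
  Γ.Free (y.pt k) → ∃ D : Slc61.SliceData Γ.G Γ.L Γ.H (y.pt k), ContDiff ℝ ∞ D.γ ∧
    (∀ U ∈ 𝓝 (0 : Γ.L), D.e '' U ∈ 𝓝 (1 : Γ.G)) ∧
    (∀ x, ∃ s : Γ.L →L[ℝ] CL o.m.V o.m.V, HasStrictFDerivAt (fun ξ => Γ.u (D.e ξ) x) s 0) ∧
    (∃ s : Γ.L →L[ℝ] ℂ, HasStrictFDerivAt (fun ξ => (Γ.ζ (D.e ξ) : ℂ)) s 0) ∧
    (∀ f : o.C r k → o.Y n m k, RepF e f → Fred93.Fr ((fderiv ℝ f (y.pt k)).prod D.σ) d) ∧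
    ∀ᶠ v₀ in 𝓝 (y.pt k), D.γ v₀ = 0 → ∀ j, k ≤ j → ∀ f : o.C r j → o.Y n m j, RepF e f →
      ∀ v : o.C r j, o.iC r k j v = v₀ → f v ∈ range (o.iY n m j (j + 1)) →
        v ∈ range (o.iC r j (j + 1))

end leaves

end Crest.Agent.X212.Mod61
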