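import Crest.Agent.X212.Mod61.Crd
import Crest.Agent.X212.Map77.Fin
import Crest.Agent.X212.Mon62.Inst
import Crest.Agent.X212.Eqv71.Obn

/-! The gauge theory of a closed family. -/

set_option autoImplicit false
set_option linter.unusedSectionVars false
noncomputable section
open scoped Manifold ContDiff Topology InnerProductSpace
open MeasureTheory Set Function Filter

namespace Crest.Agent.X212.Mod61
open An Prm93 Eqv71 Sob92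
open Eq82 (Wt wq)
open Map77 (n0 Aff adj_closed)

variable {E : Type} [NormedAddCommGroup E] [NormedSpace ℝ E] [FiniteDimensional ℝ E]
  [MeasurableSpace E] [BorelSpace E]
  {HM : Type} [TopologicalSpace HM] {I : ModelWithCorners ℝ E HM} [I.Boundaryless]
  {M : Type} [TopologicalSpace M] [ChartedSpace HM M] [IsManifold I ∞ M]
  [MeasurableSpace M] [T2Space M] [BorelSpace M] [SecondCountableTopology M] [CompactSpace M]
  {ι : Type} [Fintype ι] [DecidableEq ι] {lam : Type} [Fintype lam]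
  {T : Type} [NormedAddCommGroup T] [NormedSpace ℝ T] [FiniteDimensional ℝ T]
  {𝔉 : Fam I M ι lam T} {r n m k : ℕ}

theorem PtX.sum_ev {α : Type} (s : Finset α) (f : α → PtX M ι lam r n m) (c : Cfg M ι lam r) :
    (∑ i ∈ s, f i).D c = ∑ i ∈ s, (f i).D c ∧ (∑ i ∈ s, f i).C c = ∑ i ∈ s, (f i).C c ∧
      (∑ i ∈ s, f i).S c = ∑ i ∈ s, (f i).S c ∧ (∑ i ∈ s, f i).R c = ∑ i ∈ s, (f i).R c := by
  induction s using Finset.cons_induction with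
  | empty => exact ⟨rfl, rfl, rfl, rfl⟩
  | cons a s h ih => simp only [Finset.sum_cons, PtX.add_D, PtX.add_C, PtX.add_S, PtX.add_R, ih,
      and_self]

/-- no real rows -/
def toX (τ : T → Pt M ι lam r n) (t : T) : PtX M ι lam r n 1 := ⟨τ t, fun _ _ => 0⟩

variable (M ι lam T r n) in
/-- the row `‖z‖² - 1` -/
def nX (_ : T) : PtX M ι lam r n 1 :=
  ⟨⟨fun _ => 0, fun _ => 0, fun _ => 0⟩, fun c _ => ‖c.z‖ ^ 2 - 1⟩

variable (𝔉) in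
/-- references without spinor which do not move -/
abbrev RefC : Type := {o : Ref 𝔉 // o.Φ0 = 0 ∧ o.b = 0}

instance (a : RefC 𝔉) : a.1.B0 := ⟨a.2.2⟩

variable (𝔉) in
/-- a closed problem -/
structure CD (τ : T → Pt M ι lam r n) (β : T → ℝ) (κ : ℝ) (d : ℤ) : Prop extends 𝔉.Cls where
  hr : r ≠ 0
  sm : ∀ a : RefC 𝔉, a.1.Sm (toX τ)
  nat : ∀ t, PNat 𝔉.B (𝔉.G t) univ (τ t)
  sβ : ContDiff ℝ ∞ β
  kap : ∀ (m : Md M ι lam) t t' W W', m.OK I 𝔉.B → m.IsConn 𝔉.B (𝔉.G t) W →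
    m.IsConn 𝔉.B (𝔉.G t') W' → m.kap 𝔉.B (𝔉.G t).F W = m.kap 𝔉.B (𝔉.G t').F W'
  ind : ∀ (o : Ref 𝔉) (y : Pnt o r), y.cfg.kap 𝔉.B (𝔉.G y.t) = κ →
    n0 y + 2 * r + Module.finrank ℝ T - 2 * n - 2 = d

namespace CD
variable {τ : T → Pt M ι lam r n} {β : T → ℝ} {κ : ℝ} {d : ℤ} (h : CD 𝔉 τ β κ d) (F₀ : Fr I M ι)

/-- the theory -/
@[reducible] def th : Th 𝔉 r n 1 (Wt lam r n F₀) where
  O := RefC 𝔉
  ref a := a.1
  Al _ _ _ _ := True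
  k := 7
  Γ a := Grp76.gmC a.1 h.toOK le_rfl r a.2.1
  e := 𝔉.eq0 r n 1 + (nX M ι lam T r n - toX τ)
  τ w := Mon62.wptX 𝔉 1 (fun _ : Unit => w.1) fun t _ => -β t
  K _ y := ‖y.z‖ = 1 ∧ y.cfg.kap 𝔉.B (𝔉.G y.t) = κ ∧ y.cfg.Φ ≠ 0
  d := d

omit h in
variable (𝔉 τ β) in
/-- the perturbation -/
abbrev pq {F₀ : Fr I M ι} (q : Wt lam r n F₀ →₀ ℝ) (t : T) : Pt M ι lam r n :=
  (τ t).add (wq 𝔉.B (𝔉.G t).F (β t • q))

variable {F₀} (q : Wt lam r n F₀ →₀ ℝ) (t : T) (c : Cfg M ι lam r)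

theorem tot_D (x : M) : ((h.th F₀).tot q t).D c x = c.eD (𝔉.G t) (pq 𝔉 τ β q t) x := by
  simp only [Th.tot, Finsupp.sum, Pi.add_apply, Pi.sub_apply, Finset.sum_apply, PtX.add_D,
    PtX.sub_D, PtX.sum_ev, Pi.smul_apply, PtX.smul_D, Cfg.eD, pq, Pt.add, Eq82.wq_smul, Eq82.sml]
  simp [wq, Finset.smul_sum, Finsupp.sum, Mon62.wptX, wpt, nX, toX, Fam.eq0, eq0, smul_smul,
    mul_comm]
  abel

theorem tot_C (x : M) : ((h.th F₀).tot q t).C c x = c.eC 𝔉.B (𝔉.G t) (pq 𝔉 τ β q t) x := by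
  simp only [Th.tot, Finsupp.sum, Pi.add_apply, Pi.sub_apply, Finset.sum_apply, PtX.add_C,
    PtX.sub_C, PtX.sum_ev, Pi.smul_apply, PtX.smul_C, Cfg.eC, pq, Pt.add, Eq82.wq_smul, Eq82.sml]
  simp [wq, Finset.smul_sum, Finsupp.sum, Mon62.wptX, wpt, nX, toX, Fam.eq0, eq0, smul_smul,
    mul_comm]
  abel

theorem tot_S (i : Fin n) : ((h.th F₀).tot q t).S c i = -(pq 𝔉 τ β q t).S c i := by
  simp only [Th.tot, Finsupp.sum, Pi.add_apply, Pi.sub_apply, Finset.sum_apply, PtX.add_S,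
    PtX.sub_S, PtX.sum_ev, Pi.smul_apply, PtX.smul_S, pq, Pt.add, Eq82.wq_smul, Eq82.sml]
  simp [wq, Finset.mul_sum, Finsupp.sum, Mon62.wptX, wpt, nX, toX, Fam.eq0, eq0, mul_left_comm,
    add_comm]

theorem tot_R : ((h.th F₀).tot q t).R c = fun _ => ‖c.z‖ ^ 2 - 1 := by
  funext i
  simp only [Th.tot, Finsupp.sum, Pi.add_apply, Pi.sub_apply, Finset.sum_apply, PtX.add_R,
    PtX.sub_R, PtX.sum_ev, Pi.smul_apply, PtX.smul_R]
  simp [Mon62.wptX, nX, toX, Fam.eq0, eq0]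

theorem zr_iff {x : (h.th F₀).X} : (h.th F₀).Zr q x ↔
    x.2.cfg.Sol 𝔉.B (𝔉.G x.2.t) (pq 𝔉 τ β q x.2.t) := by
  have a := x.2.ad0 h.toOK
  constructor
  · rintro ⟨h1, h2, h3, h4⟩
    have := congrFun ((h.tot_R q _ _).symm.trans h4) 0
    exact ⟨⟨a.ok, a.conn, a.sm, a.pos, .inr ((pow_eq_one_iff_of_nonneg (norm_nonneg _)
      two_ne_zero).1 (sub_eq_zero.1 this))⟩, fun p => (h.tot_D q _ _ p).symm.trans (h1 p (h.mO' p)),
      fun p => (h.tot_C q _ _ p).symm.trans (h2 p (h.mO p)),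
      fun i => neg_eq_zero.1 ((h.tot_S q _ _ i).symm.trans (congrFun h3 i))⟩
  · intro s
    exact ⟨fun p _ => (h.tot_D q _ _ p).trans (s.D p), fun p _ => (h.tot_C q _ _ p).trans (s.C p),
      funext fun i => (h.tot_S q _ _ i).trans (neg_eq_zero.2 (s.S i)),
      (h.tot_R q _ _).trans (funext fun _ => by simp [s.z.resolve_left h.hr])⟩

theorem sm_nX (o : Ref 𝔉) : o.Sm (nX M ι lam T r n) := fun k _ =>
  ⟨fun v => (0, 0, 0, fun _ => ‖v.2.2.1‖ ^ 2 - 1), (contDiff_const.prodMk (contDiff_const.prodMk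
    (contDiff_const.prodMk (contDiff_pi.2 fun _ => ((contDiff_norm_sq ℂ).comp (by fun_prop)).sub
      contDiff_const)))).contDiffOn, fun y =>
    ⟨val_zero.trans (indicator_zero' _).symm, val_zero.trans (indicator_zero' _).symm, rfl, rfl⟩⟩

theorem sm_τ (a : RefC 𝔉) (w : Wt lam r n F₀) : a.1.Sm ((h.th F₀).τ w) :=
  Mon62.sm_compact h.toOK a.1 (fun _ => tm_cpt _ w.2.1) fun _ => h.sβ.neg.contDiffOn

theorem aff_e (a : RefC 𝔉) : Aff a.1 (fun t => (𝔉.G t).F) r n 1 (h.th F₀).e :=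
  (adj_closed h.toOK).aff_eq0.add h.toOK
    (mem_SmS.1 (sub_mem (mem_SmS.2 (sm_nX a.1)) (mem_SmS.2 (h.sm a))))

theorem aff (a : RefC 𝔉) : Aff a.1 (fun t => (𝔉.G t).F) r n 1 ((h.th F₀).tot q) :=
  (h.aff_e a).tot h.toOK (h.sm_τ a) q

include h in
theorem nat_of {σ : T → PtX M ι lam r n 1} (p : ∀ t, PNat 𝔉.B (𝔉.G t) univ (σ t).toPt)
    (hR : ∀ t c c', ‖c'.z‖ = ‖c.z‖ → (σ t).R c' = (σ t).R c) : 𝔉.Nat σ := fun t ht =>
  natOn_of_pnat h.B (h.hG t) h.Om.2 h.sub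
    (fun _ => ex_of_compact h.B (h.hG t) (h.tameG t ht).choose_spec h.Om) (h.eO ▸ p t)
    fun _ _ _ _ k => hR t _ _ (ceq_norm_z k.e)

include h in
theorem iso_of {o o' : Ref 𝔉} {y : Pnt o r} {y' : Pnt o' r} {w : M → CL o.m.V o'.m.V} {c : Circle}
    (e : y.Eq y' w c) : Cfg.Iso 𝔉.B (𝔉.G y.t).F y.cfg y'.cfg := ⟨w, c, h.eO ▸ e⟩

theorem eqv_iff {x x' : (h.th F₀).X} : (h.th F₀).Eqv x x' ↔
    x'.2.t = x.2.t ∧ Cfg.Iso 𝔉.B (𝔉.G x.2.t).F x.2.cfg x'.2.cfg :=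
  and_congr_right fun _ => ⟨fun ⟨_, _, _, e⟩ => h.iso_of e, fun ⟨w, c, e⟩ =>
    ⟨w, c, trivial, by unfold Pnt.Eq; rw [h.eO]; exact e⟩⟩

include h in
theorem adm {o : Ref 𝔉} {y : Pnt o r} (hz : ‖y.z‖ = 1) : y.cfg.Adm 𝔉.B (𝔉.G y.t) :=
  let a := y.ad0 h.toOK
  ⟨a.ok, a.conn, a.sm, a.pos, .inr hz⟩

variable (F₀) in
theorem ok : (h.th F₀).OK fun _ => True where
  fam := h.toOK
  refl _ := trivial
  symm _ _ _ _ _ _ _ := trivial
  trans _ _ _ _ _ _ _ _ _ _ _ _ _ := trivial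
  hk := le_rfl
  mv _ _ _ _ _ _ _ := mv_B0
  re a := (adj_closed h.toOK).rp (h.aff_e a)
  rτ a w := (h.sm_τ a w).rp h.toOK
  ne a b := (natS _ _ n 1 _).add_mem
    (Fam.Nat.natP h.toOK (fun t _ => natOn_eq0 h.B (h.hG t) h.Om.2 h.sub) _ _ _)
    ((natS _ _ n 1 _).sub_mem (Fam.Nat.natP h.toOK (h.nat_of (fun t => ⟨fun _ _ _ => by
      simp [nX, cs_zero], fun _ _ _ => by simp [nX], fun _ _ => by simp [nX]⟩)
        fun _ _ _ e => by simp only [nX, e]) _ _ _)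
      (Fam.Nat.natP h.toOK (h.nat_of h.nat fun _ _ _ _ => rfl) _ _ _))
  nτ a b w := Fam.Nat.natP h.toOK (h.nat_of (fun t => wpt_nat h.B (h.hG t) isClopen_univ
    Mp86.bumps_of_compact (fun _ => tm_cpt _ w.2.1) _) fun _ _ _ _ => rfl) _ _ _
  K_eqv x x' e i := by
    obtain ⟨ht, e⟩ := h.eqv_iff.1 e
    have hz : ‖x'.2.z‖ = 1 := let ⟨_, _, e⟩ := e; (ceq_norm_z e).trans i.2.1
    have a := h.adm i.2.1
    have a' := ht ▸ h.adm hz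
    refine ⟨hz, ht ▸ (Eq82.iso_kap h.B (h.hG _) a a' e).trans i.2.2.1, fun h0 => i.2.2.2
      (funext fun p => norm_eq_zero.1 ?_)⟩
    rw [← Eq82.iso_norm h.B (h.hG _) a a' e, h0]
    exact norm_zero
  K_open q x _ i _ := by
    obtain ⟨p, hp⟩ := ne_iff.1 i.2.2.2
    have c : Continuous fun v : x.1.1.C r 7 => x.1.1.Φ0 p + 𝔉.F0.val _ _ v.2.1 p :=
      continuous_const.add ((continuous_val_apply p).comp (by fun_prop))
    filter_upwards [c.continuousAt.eventually_ne (x := x.2.pt 7) (y := 0)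
      (by rw [x.2.val_φ (by omega)]; exact hp)] with v hv y e z
    subst e
    rw [y.val_φ (by omega)] at hv
    exact ⟨((h.zr_iff q).1 z).z.resolve_left h.hr, (h.kap _ _ _ _ _ x.1.1.ok (y.ad0 h.toOK).conn
      (x.2.ad0 h.toOK).conn).trans i.2.2.1, fun k => hv (congrFun k p)⟩
  slc q x _ i _ := by
    have := Map77.slc_gmC h.toOK le_rfl x.2 x.1.2.1 (.inr h.hr) (h.aff q x.1)
    rwa [sub_sub, show ((1 : ℕ) : ℤ) + 1 = 2 from rfl, h.ind _ _ i.2.2.1] at this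

theorem in_iff [ConnectedSpace M] {x : (h.th F₀).X} : (h.th F₀).In x ↔
    ‖x.2.z‖ = 1 ∧ x.2.cfg.kap 𝔉.B (𝔉.G x.2.t) = κ ∧ x.2.cfg.Φ ≠ 0 :=
  and_iff_right_of_imp fun k => h.free k.2.2 (norm_ne_zero_iff.1 (k.1 ▸ one_ne_zero))

theorem sol_iff [ConnectedSpace M] {x : (h.th F₀).X} : (h.ok F₀).Q.Sol q x ↔
    x.2.cfg.Sol 𝔉.B (𝔉.G x.2.t) (pq 𝔉 τ β q x.2.t) ∧ x.2.cfg.kap 𝔉.B (𝔉.G x.2.t) = κ ∧
      x.2.cfg.Φ ≠ 0 := by
  rw [(h.ok F₀).sol_iff, h.in_iff, h.zr_iff]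
  exact ⟨fun k => ⟨k.2, k.1.2⟩, fun k => ⟨⟨k.1.z.resolve_left h.hr, k.2⟩, k.1⟩⟩

end CD

end Crest.Agent.X212.Mod61
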