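import Crest.Agent.X212.Slc61.Sat
import Crest.Agent.X212.Fin93.Main
import Crest.Agent.X212.Fred93.Basic

/-! Abstract moduli problems over varying modules: smooth configurations with Banach models.
Data `Prob`, axioms `Prob.Ax`, and the local genericity statements needed by `Fin93`. -/

set_option autoImplicit false
set_option linter.unusedSectionVars false

noncomputable section

open Set Filter Topology Function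
open scoped ContDiff

namespace Crest.Agent.X212.Mod61

open Slc61

/-- A moduli problem with perturbation terms indexed by `W`. -/
structure Prob (W : Type) : Type 1 where
  /-- modules (with a reference connection) -/
  O : Type
  /-- smooth configurations over a module -/
  S : O → Type
  eqv : Setoid (Σ o, S o)
  C : O → Type
  E : O → Type
  L : O → Type
  H : O → Type
  G : O → Type
  [nC : ∀ o, NormedAddCommGroup (C o)]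
  [sC : ∀ o, NormedSpace ℝ (C o)]
  [cC : ∀ o, CompleteSpace (C o)]
  [nE : ∀ o, NormedAddCommGroup (E o)]
  [sE : ∀ o, NormedSpace ℝ (E o)]
  [cE : ∀ o, CompleteSpace (E o)]
  [nL : ∀ o, NormedAddCommGroup (L o)]
  [sL : ∀ o, NormedSpace ℝ (L o)]
  [cL : ∀ o, CompleteSpace (L o)]
  [nH : ∀ o, NormedAddCommGroup (H o)]
  [sH : ∀ o, NormedSpace ℝ (H o)]
  [cH : ∀ o, CompleteSpace (H o)]
  [gG : ∀ o, Group (G o)]
  [aG : ∀ o, MulAction (G o) (C o)]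
  /-- the point of the Banach model -/
  pt : ∀ {o}, S o → C o
  /-- open invariant domain -/
  U : ∀ o, Set (C o)
  F0 : ∀ o, C o → E o
  τ : ∀ o, W → C o → E o
  /-- the stratum (an open condition, e.g. `Φ ≠ 0` on every component, level, parameter range) -/
  In : (Σ o, S o) → Prop
  /-- the index -/
  n : ℤ

attribute [instance] Prob.nC Prob.sC Prob.cC Prob.nE Prob.sE Prob.cE Prob.nL Prob.sL Prob.cL
  Prob.nH Prob.sH Prob.cH Prob.gG Prob.aG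

namespace Prob

variable {W : Type} (Q : Prob W)

/-- all smooth configurations -/
abbrev X : Type := Σ o, Q.S o

/-- the perturbed map -/
def F (o : Q.O) (q : W →₀ ℝ) (v : Q.C o) : Q.E o := Q.F0 o v + q.sum fun w c => c • Q.τ o w v

def Sol (q : W →₀ ℝ) (x : Q.X) : Prop := Q.In x ∧ Q.F x.1 q (Q.pt x.2) = 0

def Reg (q : W →₀ ℝ) (x : Q.X) : Prop := Surjective (fderiv ℝ (Q.F x.1 q) (Q.pt x.2))

def OntoAt (o : Q.O) (q : W →₀ ℝ) (v : Q.C o) (J : Finset W) : Prop :=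
  ∀ f, ∃ (u : Q.C o) (c : J → ℝ), fderiv ℝ (Q.F o q) v u + ∑ w : J, c w • Q.τ o w v = f

/-- the universal linearisation with the terms in `J` is onto -/
def Onto (q : W →₀ ℝ) (x : Q.X) (J : Finset W) : Prop := Q.OntoAt x.1 q (Q.pt x.2) J

/-- configurations equivalent to one over the module of `x₀` whose point lies in `N` -/
def tube (x₀ : Q.X) (N : Set (Q.C x₀.1)) : Set Q.X :=
  {x | ∃ y : Q.S x₀.1, Q.pt y ∈ N ∧ Q.eqv x ⟨x₀.1, y⟩}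

/-- configurations equivalent to one near `x₀` -/
def Near (x₀ : Q.X) : Filter Q.X := (𝓝 (Q.pt x₀.2)).lift' (Q.tube x₀)

/-- `T` intertwines the two problems near `v` through `ρ`. -/
def Tw {o o' : Q.O} (T : Q.C o → Q.C o') (v : Q.C o) : Prop :=
  ∃ (A : Q.C o →L[ℝ] Q.C o') (ρ : Q.E o ≃L[ℝ] Q.E o'), HasFDerivAt T A v ∧ Surjective A ∧
    ∀ᶠ u in 𝓝 v, Q.F0 o' (T u) = ρ (Q.F0 o u) ∧ ∀ w, Q.τ o' w (T u) = ρ (Q.τ o w u)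

/-- The axioms, for the perturbations `q` in `Adm`. -/
structure Ax (Adm : (W →₀ ℝ) → Prop) : Prop where
  isOpen : ∀ o, IsOpen (Q.U o)
  inv : ∀ o, Inv (Q.G o) (Q.U o)
  sm0 : ∀ o, ContDiffOn ℝ ∞ (Q.F0 o) (Q.U o)
  smτ : ∀ o w, ContDiffOn ℝ ∞ (Q.τ o w) (Q.U o)
  mem : ∀ x, Q.In x → Q.pt x.2 ∈ Q.U x.1
  in_eqv : ∀ x y, Q.eqv x y → Q.In x → Q.In y
  cont : ∀ o, ContinuousConstSMul (Q.G o) (Q.C o)
  act : ∀ o (g : Q.G o), ∀ v ∈ Q.U o, Q.Tw (fun u => g • u) v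
  orb : ∀ o (y y' : Q.S o), Q.In ⟨o, y⟩ → Q.In ⟨o, y'⟩ →
    (Q.eqv ⟨o, y⟩ ⟨o, y'⟩ ↔ ∃ g : Q.G o, g • Q.pt y = Q.pt y')
  tr : ∀ x x' : Q.X, Q.In x → Q.eqv x x' → ∃ T : Q.C x.1 → Q.C x'.1, T (Q.pt x.2) = Q.pt x'.2 ∧
    Q.Tw T (Q.pt x.2) ∧
    ∀ y : Q.S x.1, ∃ y' : Q.S x'.1, Q.pt y' = T (Q.pt y) ∧ Q.eqv ⟨x.1, y⟩ ⟨x'.1, y'⟩
  slc : ∀ q x, Adm q → Q.Sol q x →
    ∃ D : SliceData (Q.G x.1) (Q.L x.1) (Q.H x.1) (Q.pt x.2), ContDiff ℝ ∞ D.γ ∧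
      Fred93.Fr ((fderiv ℝ (Q.F x.1 q) (Q.pt x.2)).prod D.σ) Q.n ∧
      ∀ᶠ v in 𝓝 (Q.pt x.2), Q.F x.1 q v = 0 → D.γ v = 0 →
        ∃ y : Q.S x.1, Q.pt y = v ∧ Q.In ⟨x.1, y⟩
  cl : ∀ o, ClosedOrb (Q.G o) (sat (Q.G o) (Q.pt '' {y | Q.In ⟨o, y⟩}))

theorem tube_mono (x₀ : Q.X) : Monotone (Q.tube x₀) := by
  rintro N N' h x ⟨y, h1, h2⟩
  exact ⟨y, h h1, h2⟩

theorem mem_near {x₀ : Q.X} {A : Set Q.X} :
    A ∈ Q.Near x₀ ↔ ∃ N ∈ 𝓝 (Q.pt x₀.2), Q.tube x₀ N ⊆ A :=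
  mem_lift'_sets (Q.tube_mono x₀)

theorem tube_mem {x₀ : Q.X} {N : Set (Q.C x₀.1)} (h : N ∈ 𝓝 (Q.pt x₀.2)) :
    Q.tube x₀ N ∈ Q.Near x₀ := mem_lift' h

/-- The form in which compactness theorems prove convergence. -/
theorem tendsto_near {ι : Type*} {l : Filter ι} {u : ι → Q.X} {x₀ : Q.X} :
    Tendsto u l (Q.Near x₀) ↔ ∀ N ∈ 𝓝 (Q.pt x₀.2), ∀ᶠ i in l,
      ∃ y : Q.S x₀.1, Q.pt y ∈ N ∧ Q.eqv (u i) ⟨x₀.1, y⟩ :=
  tendsto_lift'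

theorem tendsto_near_of {ι : Type*} {l : Filter ι} {u : ι → Q.X} {x₀ : Q.X} (y : ι → Q.S x₀.1)
    (h1 : Tendsto (fun i => Q.pt (y i)) l (𝓝 (Q.pt x₀.2)))
    (h2 : ∀ᶠ i in l, Q.eqv (u i) ⟨x₀.1, y i⟩) : Tendsto u l (Q.Near x₀) :=
  Q.tendsto_near.2 fun _ hN => ((h1.eventually hN).and h2).mono fun i hi => ⟨y i, hi⟩

theorem F_add (o : Q.O) (q q' : W →₀ ℝ) (v : Q.C o) :
    Q.F o (q + q') v = Q.F o q v + q'.sum fun w c => c • Q.τ o w v := by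
  rw [F, F, Finsupp.sum_add_index' (h := fun w c => c • Q.τ o w v) (fun _ => zero_smul _ _)
    (fun _ _ _ => add_smul _ _ _), add_assoc]

/-- the universal map of the stage `J` over `q` -/
def Ψ (o : Q.O) (q : W →₀ ℝ) (J : Finset W) (z : Q.C o × (J → ℝ)) : Q.E o :=
  Q.F o q z.1 + ∑ w : J, z.2 w • Q.τ o w z.1

theorem Ψ_eq (o : Q.O) (q : W →₀ ℝ) (J : Finset W) (v : Q.C o) (c : J → ℝ) :
    Q.Ψ o q J (v, c) = Q.F o (q + Fin93.ext0 J c) v := by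
  rw [F_add, Fin93.ext0_sum, Ψ]

theorem Tw.F {o o' : Q.O} {T : Q.C o → Q.C o'} {v : Q.C o} (h : Q.Tw T v) :
    ∃ (A : Q.C o →L[ℝ] Q.C o') (ρ : Q.E o ≃L[ℝ] Q.E o'), HasFDerivAt T A v ∧ Surjective A ∧
      (∀ q, ∀ᶠ u in 𝓝 v, Q.F o' q (T u) = ρ (Q.F o q u)) ∧
      ∀ w, Q.τ o' w (T v) = ρ (Q.τ o w v) := by
  obtain ⟨A, ρ, h1, h2, h3⟩ := h
  refine ⟨A, ρ, h1, h2, fun q => h3.mono fun u hu => ?_, h3.self_of_nhds.2⟩
  simp only [Prob.F, hu.1, hu.2, map_add, Finsupp.sum, map_sum, map_smul]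

namespace Ax

variable {Q} {Adm : (W →₀ ℝ) → Prop} (h : Q.Ax Adm)
include h

theorem smF (o : Q.O) (q : W →₀ ℝ) : ContDiffOn ℝ ∞ (Q.F o q) (Q.U o) :=
  (h.sm0 o).add (ContDiffOn.sum fun w _ => (h.smτ o w).const_smul (q w))

theorem smΨ (o : Q.O) (q : W →₀ ℝ) (J : Finset W) :
    ContDiffOn ℝ ∞ (Q.Ψ o q J) (Q.U o ×ˢ univ) :=
  ((h.smF o q).comp contDiffOn_fst fun _ hq => hq.1).add (ContDiffOn.sum fun w _ =>
    (((contDiff_apply ℝ ℝ w).comp contDiff_snd).contDiffOn).smul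
      ((h.smτ o w).comp contDiffOn_fst fun _ hq => hq.1))

theorem strictF {o : Q.O} (q : W →₀ ℝ) {v : Q.C o} (hv : v ∈ Q.U o) :
    HasStrictFDerivAt (Q.F o q) (fderiv ℝ (Q.F o q) v) v :=
  ((h.smF o q).contDiffAt ((h.isOpen o).mem_nhds hv)).hasStrictFDerivAt (by simp)

theorem diffΨ {o : Q.O} (q : W →₀ ℝ) (J : Finset W) {v : Q.C o} (hv : v ∈ Q.U o) (c : J → ℝ) :
    DifferentiableAt ℝ (Q.Ψ o q J) (v, c) :=
  ((h.smΨ o q J).contDiffAt (((h.isOpen o).prod isOpen_univ).mem_nhds ⟨hv, mem_univ _⟩)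
    ).differentiableAt (by simp)

theorem dE_Ψ {o : Q.O} (q : W →₀ ℝ) (J : Finset W) {v : Q.C o} (hv : v ∈ Q.U o) (c : J → ℝ) :
    Sard93.dE (Q.Ψ o q J) (v, c) = fderiv ℝ (Q.F o (q + Fin93.ext0 J c)) v := by
  rw [Sard93.dE_eq_fderiv (h.diffΨ q J hv c)]
  simp only [Q.Ψ_eq]

theorem fderiv_Ψ {o : Q.O} (q : W →₀ ℝ) (J : Finset W) {v : Q.C o} (hv : v ∈ Q.U o)
    (c : J → ℝ) (u : Q.C o) (c' : J → ℝ) : fderiv ℝ (Q.Ψ o q J) (v, c) (u, c') =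
      fderiv ℝ (Q.F o (q + Fin93.ext0 J c)) v u + ∑ w : J, c' w • Q.τ o w v := by
  have h1 : ((u, c') : Q.C o × (J → ℝ)) = (u, 0) + (0, c') := by simp
  rw [h1, map_add, ← Sard93.dE_apply, h.dE_Ψ q J hv]
  congr 1
  let B : (J → ℝ) →L[ℝ] Q.E o :=
    ∑ w : J, (ContinuousLinearMap.proj (R := ℝ) (φ := fun _ : J => ℝ) w).smulRight (Q.τ o w v)
  have hB : ∀ d, B d = ∑ w : J, d w • Q.τ o w v := fun d => by
    simp [B]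
  have h2 : HasFDerivAt (fun d : J → ℝ => Q.Ψ o q J (v, d)) B c := by
    have : (fun d : J → ℝ => Q.Ψ o q J (v, d)) = fun d => Q.F o q v + B d := by
      funext d
      rw [hB, Ψ]
    rw [this]
    exact B.hasFDerivAt.const_add _
  have h3 := (h.diffΨ q J hv c).hasFDerivAt.comp c (hasFDerivAt_prodMk_right v c)
  rw [← hB, ← h3.unique h2]
  rfl

theorem surj_Ψ {o : Q.O} (q : W →₀ ℝ) (J : Finset W) {v : Q.C o} (hv : v ∈ Q.U o) (c : J → ℝ) :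
    Surjective (fderiv ℝ (Q.Ψ o q J) (v, c)) ↔ Q.OntoAt o (q + Fin93.ext0 J c) v J := by
  refine forall_congr' fun f => ⟨?_, ?_⟩
  · rintro ⟨⟨u, c'⟩, rfl⟩
    exact ⟨u, c', (h.fderiv_Ψ q J hv c u c').symm⟩
  · rintro ⟨u, c', rfl⟩
    exact ⟨(u, c'), h.fderiv_Ψ q J hv c u c'⟩

/-- transport of the derivative along an intertwiner -/
theorem tw_deriv {o o' : Q.O} {T : Q.C o → Q.C o'} {v : Q.C o} (hT : Q.Tw T v) (hv : v ∈ Q.U o)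
    (hv' : T v ∈ Q.U o') : ∃ (A : Q.C o →L[ℝ] Q.C o') (ρ : Q.E o ≃L[ℝ] Q.E o'), Surjective A ∧
      (∀ q u, fderiv ℝ (Q.F o' q) (T v) (A u) = ρ (fderiv ℝ (Q.F o q) v u)) ∧
      (∀ q, Q.F o' q (T v) = ρ (Q.F o q v)) ∧ ∀ w, Q.τ o' w (T v) = ρ (Q.τ o w v) := by
  obtain ⟨A, ρ, h1, h2, h3, h4⟩ := hT.F
  refine ⟨A, ρ, h2, fun q u => ?_, fun q => (h3 q).self_of_nhds, h4⟩
  have h5 := (h.strictF q hv').hasFDerivAt.comp v h1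
  have h6 : HasFDerivAt (Q.F o' q ∘ T) ((ρ : Q.E o →L[ℝ] Q.E o').comp (fderiv ℝ (Q.F o q) v)) v :=
    ((ρ : Q.E o →L[ℝ] Q.E o').hasFDerivAt.comp v (h.strictF q hv).hasFDerivAt
      ).congr_of_eventuallyEq (h3 q)
  exact congrArg (fun B : Q.C o →L[ℝ] Q.E o' => B u) (h5.unique h6)

theorem tw_onto {o o' : Q.O} {T : Q.C o → Q.C o'} {v : Q.C o} (hT : Q.Tw T v) (hv : v ∈ Q.U o)
    (hv' : T v ∈ Q.U o') {q : W →₀ ℝ} {J : Finset W} (ho : Q.OntoAt o' q (T v) J) :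
    Q.OntoAt o q v J := by
  obtain ⟨A, ρ, h1, h2, -, h4⟩ := h.tw_deriv hT hv hv'
  intro f
  obtain ⟨u, c, hu⟩ := ho (ρ f)
  obtain ⟨u, rfl⟩ := h1 u
  refine ⟨u, c, ρ.injective ?_⟩
  rw [← hu, h2]
  simp only [map_add, map_sum, map_smul, h4]

theorem tw_surj {o o' : Q.O} {T : Q.C o → Q.C o'} {v : Q.C o} (hT : Q.Tw T v) (hv : v ∈ Q.U o)
    (hv' : T v ∈ Q.U o') {q : W →₀ ℝ} (ho : Surjective (fderiv ℝ (Q.F o' q) (T v))) :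
    Surjective (fderiv ℝ (Q.F o q) v) := by
  obtain ⟨A, ρ, h1, h2, -, -⟩ := h.tw_deriv hT hv hv'
  intro f
  obtain ⟨u, hu⟩ := ho (ρ f)
  obtain ⟨u, rfl⟩ := h1 u
  exact ⟨u, ρ.injective (by rw [← hu, h2])⟩

theorem F_smul {o : Q.O} (q : W →₀ ℝ) (g : Q.G o) {v : Q.C o} (hv : v ∈ Q.U o)
    (h0 : Q.F o q v = 0) : Q.F o q (g • v) = 0 := by
  obtain ⟨A, ρ, -, -, h3, -⟩ := h.tw_deriv (h.act o g v hv) hv (h.inv o g v hv)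
  rw [h3, h0, map_zero]

theorem sol_eqv {q : W →₀ ℝ} {x y : Q.X} (e : Q.eqv x y) (hx : Q.Sol q x) : Q.Sol q y := by
  obtain ⟨T, h1, h2, -⟩ := h.tr x y hx.1 e
  have hy := h.in_eqv x y e hx.1
  obtain ⟨A, ρ, -, -, h3, -⟩ := h.tw_deriv h2 (h.mem x hx.1) (h1 ▸ h.mem y hy)
  exact ⟨hy, by rw [← h1, h3, hx.2, map_zero]⟩

theorem reg_eqv {q : W →₀ ℝ} {x y : Q.X} (e : Q.eqv x y) (hx : Q.In x) (hy : Q.Reg q y) :
    Q.Reg q x := by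
  obtain ⟨T, h1, h2, -⟩ := h.tr x y hx e
  exact h.tw_surj h2 (h.mem x hx) (h1 ▸ h.mem y (h.in_eqv x y e hx)) (h1 ▸ hy)

theorem onto_eqv {q : W →₀ ℝ} {x y : Q.X} {J : Finset W} (e : Q.eqv x y) (hx : Q.In x)
    (hy : Q.Onto q y J) : Q.Onto q x J := by
  obtain ⟨T, h1, h2, -⟩ := h.tr x y hx e
  exact h.tw_onto h2 (h.mem x hx) (h1 ▸ h.mem y (h.in_eqv x y e hx)) (h1 ▸ hy)

omit h in
theorem onto_mono {q : W →₀ ℝ} {x : Q.X} {J J' : Finset W} (hJ : J ≤ J') (ho : Q.Onto q x J) :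
    Q.Onto q x J' := by
  intro f
  obtain ⟨u, c, rfl⟩ := ho f
  refine ⟨u, fun w => Fin93.ext0 J c w, ?_⟩
  rw [← Fin93.ext0_sum J' _ fun w => Q.τ x.1 w (Q.pt x.2),
    ← Fin93.ext0_sum J _ fun w => Q.τ x.1 w (Q.pt x.2),
    Fin93.ext0_restrict ((Fin93.ext0_support J c).trans hJ)]

theorem contAt_fderiv_Ψ {o : Q.O} (q : W →₀ ℝ) (J : Finset W) {v : Q.C o} (hv : v ∈ Q.U o)
    (c : J → ℝ) : ContinuousAt (fderiv ℝ (Q.Ψ o q J)) (v, c) :=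
  ((h.smΨ o q J).contDiffAt (((h.isOpen o).prod isOpen_univ).mem_nhds ⟨hv, mem_univ _⟩)
    ).continuousAt_fderiv (by simp)

/-- `Onto` is open at fixed `q`. -/
theorem onto_open {q : W →₀ ℝ} {x₀ : Q.X} {J : Finset W} (hx : Q.In x₀) (ho : Q.Onto q x₀ J) :
    ∀ᶠ x in Q.Near x₀, Q.In x → Q.Onto q x J := by
  have e0 : q + Fin93.ext0 J 0 = q := by
    ext w
    by_cases hw : w ∈ J
    · simpa using Fin93.ext0_mem (0 : J → ℝ) ⟨w, hw⟩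
    · simpa using Fin93.ext0_not_mem (0 : J → ℝ) hw
  have h1 : Surjective (fderiv ℝ (Q.Ψ x₀.1 q J) (Q.pt x₀.2, 0)) :=
    (h.surj_Ψ q J (h.mem x₀ hx) 0).2 (by rw [e0]; exact ho)
  have h2 : ContinuousAt (fun v => fderiv ℝ (Q.Ψ x₀.1 q J) (v, 0)) (Q.pt x₀.2) :=
    ContinuousAt.comp (f := fun v => (v, (0 : J → ℝ))) (h.contAt_fderiv_Ψ q J (h.mem x₀ hx) 0)
      (by fun_prop)
  filter_upwards [Q.tube_mem (h2.eventually (Sard93.isOpen_surj.mem_nhds h1))] with x hx' hin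
  obtain ⟨y, h3, h4⟩ := hx'
  refine h.onto_eqv h4 hin ?_
  have h5 := (h.surj_Ψ q J (h.mem _ (h.in_eqv _ _ h4 hin)) 0).1 h3
  rwa [e0] at h5

/-- regularity is open -/
theorem reg_open {q : W →₀ ℝ} {J : Finset W} {p₀ : J → ℝ} {x₀ : Q.X} (hx : Q.In x₀)
    (hr : Q.Reg (q + Fin93.ext0 J p₀) x₀) :
    ∀ᶠ z in 𝓝 p₀ ×ˢ Q.Near x₀, Q.In z.2 → Q.Reg (q + Fin93.ext0 J z.1) z.2 := by
  have h1 : Surjective (Sard93.dE (Q.Ψ x₀.1 q J) (Q.pt x₀.2, p₀)) := by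
    rw [h.dE_Ψ q J (h.mem x₀ hx)]
    exact hr
  have h2 : ContinuousAt (Sard93.dE (Q.Ψ x₀.1 q J)) (Q.pt x₀.2, p₀) :=
    (h.contAt_fderiv_Ψ q J (h.mem x₀ hx) p₀).clm_comp continuousAt_const
  obtain ⟨N, hN, N', hN', hsub⟩ :=
    mem_nhds_prod_iff.1 (h2.eventually (Sard93.isOpen_surj.mem_nhds h1))
  filter_upwards [prod_mem_prod hN' (Q.tube_mem hN)] with z hz hin
  obtain ⟨y, h3, h4⟩ := hz.2
  refine h.reg_eqv h4 hin ?_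
  have h5 : Surjective (Sard93.dE (Q.Ψ x₀.1 q J) (Q.pt y, z.1)) := hsub (mk_mem_prod h3 hz.1)
  rwa [h.dE_Ψ q J (h.mem _ (h.in_eqv _ _ h4 hin))] at h5

/-- local Sard -/
theorem loc {q : W →₀ ℝ} {J : Finset W} {p₀ : J → ℝ} {x₀ : Q.X} (ha : Adm (q + Fin93.ext0 J p₀))
    (hx : Q.Sol (q + Fin93.ext0 J p₀) x₀) (ho : Q.Onto (q + Fin93.ext0 J p₀) x₀ J) :
    ∃ A ∈ 𝓝 p₀ ×ˢ Q.Near x₀, ∀ᶠ p in residual (J → ℝ), ∀ x, (p, x) ∈ A →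
      Q.Sol (q + Fin93.ext0 J p) x → Q.Reg (q + Fin93.ext0 J p) x := by
  obtain ⟨D, h1, h2, -⟩ := h.slc _ x₀ ha hx
  have hU := h.mem x₀ hx.1
  obtain ⟨N, hN, hres⟩ := generic_loc (G := Q.G x₀.1) ((h.isOpen x₀.1).prod isOpen_univ)
    (h.smΨ x₀.1 q J) (Zu := {z | z.1 ∈ Q.U x₀.1 ∧ Q.Ψ x₀.1 q J z = 0})
    (fun z hz => ⟨hz.1, mem_univ _⟩) (fun z hz => hz.2)
    (fun g v p hz => ⟨h.inv _ g v hz.1, by
      have h3 := hz.2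
      rw [Q.Ψ_eq] at h3 ⊢
      exact h.F_smul _ g hz.1 h3⟩)
    (fun g v p hz hs => by
      rw [h.dE_Ψ q J (h.inv _ g v hz.1)] at hs
      rw [h.dE_Ψ q J hz.1]
      exact h.tw_surj (h.act _ g v hz.1) hz.1 (h.inv _ g v hz.1) hs)
    (z := (Q.pt x₀.2, p₀)) ⟨hU, by rw [Q.Ψ_eq]; exact hx.2⟩ D h1
    (by rw [h.dE_Ψ q J hU]; exact h2.1) ((h.surj_Ψ q J hU p₀).2 ho)
  obtain ⟨N1, hN1, N2, hN2, hsub⟩ := mem_nhds_prod_iff.1 hN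
  refine ⟨_, prod_mem_prod hN2 (Q.tube_mem hN1), ?_⟩
  filter_upwards [hres] with p hp x hxA hs
  obtain ⟨y, h3, h4⟩ := hxA.2
  have h5 := h.sol_eqv h4 hs
  have h6 := hp (Q.pt y) (hsub (mk_mem_prod h3 hxA.1)) ⟨h.mem _ h5.1, by
    rw [Q.Ψ_eq]; exact h5.2⟩
  rw [h.dE_Ψ q J (h.mem _ h5.1)] at h6
  exact h.reg_eqv h4 hs.1 h6

end Ax

end Prob

end Crest.Agent.X212.Mod61
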