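import Crest.Agent.X212.Mod61.Free
import Crest.Agent.X212.Mod61.Prob

/-! The moduli problem `Prob` of a gauge theory `Th` and its axioms. -/

set_option autoImplicit false
set_option linter.unusedSectionVars false
noncomputable section
open scoped Manifold ContDiff Topology InnerProductSpace
open MeasureTheory Set Function Filter

namespace Crest.Agent.X212.Mod61
open An Prm93 Eqv71 Sob92

variable {E : Type} [NormedAddCommGroup E] [NormedSpace ℝ E] [FiniteDimensional ℝ E]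
  [MeasurableSpace E] [BorelSpace E]
  {HM : Type} [TopologicalSpace HM] {I : ModelWithCorners ℝ E HM} [I.Boundaryless]
  {M : Type} [TopologicalSpace M] [ChartedSpace HM M] [IsManifold I ∞ M]
  [MeasurableSpace M] [T2Space M] [BorelSpace M] [SecondCountableTopology M]
  {ι : Type} [Fintype ι] {lam : Type} [Fintype lam]
  {T : Type} [NormedAddCommGroup T] [NormedSpace ℝ T]
  {𝔉 : Fam I M ι lam T} {o o' : Ref 𝔉} {r n m k j : ℕ} {W : Type}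

theorem cs_add' {κ κ' : Type} [Fintype κ] [Fintype κ'] (J : En κ') (c : ℂ) (w : CL (Eu κ) (Eu κ'))
    (u v : Eu κ) : cs J c (w u) + cs J c (w v) = cs J c (w (u + v)) := by
  simp only [map_add, cs, smul_add]
  abel

theorem cs_smul' {κ κ' : Type} [Fintype κ] [Fintype κ'] (J : En κ') (c : ℂ) (w : CL (Eu κ) (Eu κ'))
    (s : ℝ) (u : Eu κ) : s • cs J c (w u) = cs J c (w (s • u)) := by
  simp only [map_smul, cs, smul_add, smul_comm s]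

variable (o o' n m) in
/-- natural families form a submodule -/
def natS (Al : (M → CL o.m.V o'.m.V) → Circle → Prop) :
    Submodule ℝ (T → PtX M ι lam r n m) where
  carrier := {τ | NatP o o' Al τ}
  add_mem' := fun {τ σ} a b y y' w c ht al e => by
    obtain ⟨a1, a2, a3, a4⟩ := a y y' w c ht al e
    obtain ⟨b1, b2, b3, b4⟩ := b y y' w c ht al e
    refine ⟨fun x hx => (congrArg₂ (· + ·) (a1 x hx) (b1 x hx)).trans (cs_add' _ _ _ _ _),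
      fun x hx s => (congrArg₂ (· + ·) (a2 x hx s) (b2 x hx s)).trans (map_add _ _ _).symm,
      fun i => (congrArg₂ (· + ·) (a3 i) (b3 i)).trans (mul_add _ _ _).symm,
      congrArg₂ (· + ·) a4 b4⟩
  zero_mem' := fun y y' w c _ _ _ => ⟨fun x _ => by
      have := cs_smul' o'.m.J c (w x) 0 0
      rw [zero_smul, zero_smul] at this
      exact this, fun x _ s => (map_zero (cj (w x))).symm, fun i => (mul_zero _).symm, rfl⟩
  smul_mem' := fun s τ a y y' w c ht al e => by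
    obtain ⟨a1, a2, a3, a4⟩ := a y y' w c ht al e
    exact ⟨fun x hx => (congrArg (s • ·) (a1 x hx)).trans (cs_smul' _ _ _ _ _),
      fun x hx i => (congrArg (s • ·) (a2 x hx i)).trans (map_smul _ _ _).symm,
      fun i => (congrArg (s • ·) (a3 i)).trans (mul_smul_comm _ _ _).symm, congrArg (s • ·) a4⟩

theorem mem_natS {Al : (M → CL o.m.V o'.m.V) → Circle → Prop} {τ : T → PtX M ι lam r n m} :
    τ ∈ natS o o' n m Al ↔ NatP o o' Al τ := Iff.rfl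

theorem NatP.smul_par {Al : (M → CL o.m.V o'.m.V) → Circle → Prop} {τ : T → PtX M ι lam r n m}
    (a : NatP o o' Al τ) (g : T → ℝ) : NatP o o' Al fun t => g t • τ t :=
  fun y y' w c ht al e => by
    have := (natS o o' n m Al).smul_mem (g y.t) a y y' w c ht al e
    simpa only [Pi.smul_apply, ht] using this

theorem NatP.mono {Al Al' : (M → CL o.m.V o'.m.V) → Circle → Prop} {τ : T → PtX M ι lam r n m}
    (a : NatP o o' Al τ) (k : ∀ w c, Al' w c → Al w c) : NatP o o' Al' τ :=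
  fun y y' w c ht al e => a y y' w c ht (k _ _ al) e

theorem iC_self (v : o.C r k) : o.iC r k k v = v := by
  rw [iC_apply, incl_self, incl_self]

theorem iC_iC {i : ℕ} (h1 : k ≤ j) (h2 : j ≤ i) (v : o.C r i) :
    o.iC r k j (o.iC r j i v) = o.iC r k i v := by
  obtain ⟨e1, e2, e3⟩ := snd_snd (iC_apply (k := j) v)
  rw [iC_apply, iC_apply (k := k) v, e1, e2, e3, incl_incl (by omega) (by omega),
    incl_incl (by omega) (by omega)]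

open Classical in
variable (o k) in
/-- the representing map -/
def Ref.rp (τ : T → PtX M ι lam r n m) : o.C r k → o.Y n m k :=
  if h : ∃ f : o.C r k → o.Y n m k, RepF τ f then h.choose else 0

theorem Ref.Rp.rep {τ : T → PtX M ι lam r n m} (a : o.Rp τ) (hk : 7 ≤ k) : RepF τ (o.rp k τ) := by
  rw [Ref.rp, dif_pos (a k hk)]
  exact (a k hk).choose_spec

/-- elliptic regularity: zeros in the slice are smooth points -/
theorem exists_pt_of_boot (h : 𝔉.OK) (hk : 7 ≤ k) {e : T → PtX M ι lam r n m} (he : o.Rp e)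
    {f : o.C r k → o.Y n m k} (hf : RepF e f) {v₀ : o.C r k} (hU : v₀ ∈ o.U r k) (h0 : f v₀ = 0)
    (hb : ∀ j, k ≤ j → ∀ f : o.C r j → o.Y n m j, RepF e f → ∀ v : o.C r j, o.iC r k j v = v₀ →
      f v ∈ range (o.iY n m j (j + 1)) → v ∈ range (o.iC r j (j + 1))) :
    ∃ y : Pnt o r, y.pt k = v₀ := by
  refine exists_pt h (by omega) hU fun j hj => ?_
  induction j, hj using Nat.le_induction with
  | base => exact ⟨v₀, iC_self v₀⟩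
  | succ j hj ih =>
    obtain ⟨v, hv⟩ := ih
    have hg := he.rep (hk.trans hj)
    have h1 := hf.level h (by omega) (by omega) hj hj hg (iC_U.1 (hv ▸ hU))
    rw [hv, h0] at h1
    have h2 : o.rp j e v = 0 := iY_inj hj (by rw [h1, map_zero])
    obtain ⟨v', hv'⟩ := hb j hj _ hg v hv ⟨0, by rw [h2, map_zero]⟩
    exact ⟨v', by rw [← hv, ← hv', iC_iC hj j.le_succ]⟩

variable (𝔉 r n m W) in
/-- A gauge theory: modules, allowed equivalences, groups, the equation `e + ∑ q w • τ w`,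
the stratum `K` and the index. -/
structure Th : Type 1 where
  O : Type
  ref : O → Ref 𝔉
  Al : ∀ a b, (M → CL (ref a).m.V (ref b).m.V) → Circle → Prop
  k : ℕ
  Γ : ∀ a, GrpM (ref a) r k (Al a a)
  e : T → PtX M ι lam r n m
  τ : W → T → PtX M ι lam r n m
  K : ∀ a, Pnt (ref a) r → Prop
  d : ℤ

namespace Th
variable (Θ : Th 𝔉 r n m W)

/-- all smooth points -/
abbrev X : Type := Σ a, Pnt (Θ.ref a) r

/-- the equation -/
def tot (q : W →₀ ℝ) : T → PtX M ι lam r n m := Θ.e + q.sum fun w c => c • Θ.τ w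

/-- the map of the Banach model -/
def F (a : Θ.O) (q : W →₀ ℝ) (v : (Θ.ref a).C r Θ.k) : (Θ.ref a).Y n m Θ.k :=
  (Θ.ref a).rp Θ.k Θ.e v + q.sum fun w c => c • (Θ.ref a).rp Θ.k (Θ.τ w) v

/-- equivalence -/
def Eqv (x x' : Θ.X) : Prop := x'.2.t = x.2.t ∧ ∃ w c, Θ.Al x.1 x'.1 w c ∧ x.2.Eq x'.2 w c

/-- `x` solves the equation -/
def Zr (q : W →₀ ℝ) (x : Θ.X) : Prop := (Θ.tot q x.2.t).Zr x.2.cfg 𝔉.Om 𝔉.Om'

/-- the stratum -/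
def In (x : Θ.X) : Prop := x.2.Free (Θ.Al x.1 x.1) ∧ Θ.K x.1 x.2

theorem tot_mem (S : Submodule ℝ (T → PtX M ι lam r n m)) (h1 : Θ.e ∈ S) (h2 : ∀ w, Θ.τ w ∈ S)
    (q : W →₀ ℝ) : Θ.tot q ∈ S :=
  S.add_mem h1 (S.sum_mem fun w _ => S.smul_mem _ (h2 w))

/-- the allowed equivalences form a groupoid -/
structure Gpd : Prop where
  fam : 𝔉.OK
  refl : ∀ a, Θ.Al a a (Θ.ref a).m.p 1
  symm : ∀ (x x' : Θ.X) w c, x'.2.t = x.2.t → x.2.Eq x'.2 w c → Θ.Al x.1 x'.1 w c →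
    Θ.Al x'.1 x.1 (fun p => trn (w p)) c⁻¹
  trans : ∀ (x x' x'' : Θ.X) w c w' c', x'.2.t = x.2.t → x.2.Eq x'.2 w c → x''.2.t = x'.2.t →
    x'.2.Eq x''.2 w' c' → Θ.Al x.1 x'.1 w c → Θ.Al x'.1 x''.1 w' c' →
    Θ.Al x.1 x''.1 (fun p => w' p ∘L w p) (c' * c)

/-- the hypotheses -/
structure OK (Adm : (W →₀ ℝ) → Prop) : Prop extends Θ.Gpd where
  hk : 7 ≤ Θ.k
  /-- `mv_B0` if the base connections do not move -/
  mv : ∀ (x x' : Θ.X) w c, x'.2.t = x.2.t → x.2.Eq x'.2 w c → Θ.Al x.1 x'.1 w c →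
    Mv (Θ.ref x.1) (Θ.ref x'.1) w
  re : ∀ a, (Θ.ref a).Rp Θ.e
  rτ : ∀ a w, (Θ.ref a).Rp (Θ.τ w)
  ne : ∀ a b, NatP (Θ.ref a) (Θ.ref b) (Θ.Al a b) Θ.e
  nτ : ∀ a b w, NatP (Θ.ref a) (Θ.ref b) (Θ.Al a b) (Θ.τ w)
  K_eqv : ∀ x x', Θ.Eqv x x' → Θ.In x → Θ.K x'.1 x'.2
  K_open : ∀ q x, Adm q → Θ.In x → Θ.Zr q x → ∀ᶠ v in 𝓝 (x.2.pt Θ.k),
    ∀ y : Pnt (Θ.ref x.1) r, y.pt Θ.k = v → Θ.Zr q ⟨x.1, y⟩ → Θ.K x.1 y
  slc : ∀ q x, Adm q → Θ.In x → Θ.Zr q x → (Θ.Γ x.1).Slc (Θ.tot q) Θ.d x.2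

variable {Θ}

theorem Gpd.equiv (g : Θ.Gpd) : Equivalence Θ.Eqv where
  refl x := ⟨rfl, _, _, g.refl x.1, x.2.eq_refl g.fam⟩
  symm := fun ⟨ht, w, c, al, e⟩ => ⟨ht.symm, _, _, g.symm _ _ w c ht e al, e.symm g.fam ht⟩
  trans := fun ⟨ht, w, c, al, e⟩ ⟨ht', w', c', al', e'⟩ =>
    ⟨ht'.trans ht, _, _, g.trans _ _ _ w c w' c' ht e ht' e' al al', e.trans g.fam ht e' ht'⟩

theorem Gpd.free (g : Θ.Gpd) {x x' : Θ.X} (e : Θ.Eqv x x') (f : x.2.Free (Θ.Al x.1 x.1)) :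
    x'.2.Free (Θ.Al x'.1 x'.1) := fun w' c' al' e' => by
  obtain ⟨ht, w, c, al, e⟩ := e
  have e1 := e.trans g.fam ht e' rfl
  have a1 := g.trans x x' x' w c w' c' ht e rfl e' al al'
  have e2 := e.symm g.fam ht
  have a2 := g.symm x x' w c ht e al
  exact Triv.conj g.fam (e.mi g.fam ht) (e'.mi g.fam rfl)
    (f _ _ (g.trans x x' x _ _ _ _ ht e1 ht.symm e2 a1 a2) (e1.trans g.fam ht e2 ht.symm))

variable [CompleteSpace T]

/-- the moduli problem -/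
def prob (g : Θ.Gpd) : Prob W where
  O := Θ.O
  S a := Pnt (Θ.ref a) r
  eqv := ⟨Θ.Eqv, g.equiv⟩
  C a := (Θ.ref a).C r Θ.k
  E a := (Θ.ref a).Y n m Θ.k
  L a := (Θ.Γ a).L
  H a := (Θ.Γ a).H
  G a := (Θ.Γ a).G
  pt y := y.pt Θ.k
  U a := (Θ.ref a).U r Θ.k
  F0 a := (Θ.ref a).rp Θ.k Θ.e
  τ a w := (Θ.ref a).rp Θ.k (Θ.τ w)
  In := Θ.In
  n := Θ.d

namespace OK
variable {Adm : (W →₀ ℝ) → Prop} (h : Θ.OK Adm)

/-- the moduli problem -/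
abbrev Q : Prob W := prob h.toGpd

theorem F_eq (a : Θ.O) (q : W →₀ ℝ) : h.Q.F a q = Θ.F a q := rfl

include h

theorem k3 : 3 ≤ Θ.k := h.hk.trans' (by omega)

theorem k4 : 4 ≤ Θ.k := h.hk.trans' (by omega)

theorem rp_tot (a : Θ.O) (q : W →₀ ℝ) : (Θ.ref a).Rp (Θ.tot q) :=
  mem_RpS.1 (Θ.tot_mem _ (mem_RpS.2 (h.re a)) (fun w => mem_RpS.2 (h.rτ a w)) q)

theorem nat_tot (a b : Θ.O) (q : W →₀ ℝ) : NatP (Θ.ref a) (Θ.ref b) (Θ.Al a b) (Θ.tot q) :=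
  Θ.tot_mem (natS _ _ n m _) (h.ne a b) (h.nτ a b) q

theorem rep0 (a : Θ.O) : RepF Θ.e ((Θ.ref a).rp Θ.k Θ.e) := (h.re a).rep h.hk

theorem repτ (a : Θ.O) (w : W) : RepF (Θ.τ w) ((Θ.ref a).rp Θ.k (Θ.τ w)) := (h.rτ a w).rep h.hk

/-- the map of the problem represents the equation -/
theorem repF (a : Θ.O) (q : W →₀ ℝ) : RepF (Θ.tot q) (Θ.F a q) := by
  have h1 := (repS (Θ.ref a) r n m Θ.k Θ.k).sum_mem (t := q.support)
    (f := fun w => q w • (Θ.τ w, (Θ.ref a).rp Θ.k (Θ.τ w)))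
    fun w _ => Submodule.smul_mem _ _ (h.repτ a w)
  have h2 := (repS (Θ.ref a) r n m Θ.k Θ.k).add_mem (x := (Θ.e, (Θ.ref a).rp Θ.k Θ.e)) (h.rep0 a) h1
  have h3 : ((Θ.e, (Θ.ref a).rp Θ.k Θ.e) + ∑ w ∈ q.support, q w • (Θ.τ w, (Θ.ref a).rp Θ.k (Θ.τ w)))
      = (Θ.tot q, Θ.F a q) := by
    refine Prod.ext ?_ (funext fun v => ?_)
    · simp only [Prod.fst_add, Prod.fst_sum, Prod.smul_fst, tot, Finsupp.sum]
    · simp only [Prod.snd_add, Prod.snd_sum, Prod.smul_snd, Pi.add_apply, Finset.sum_apply,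
        Pi.smul_apply]
      rfl
  rwa [h3] at h2

theorem zr_iff (q : W →₀ ℝ) (x : Θ.X) : Θ.F x.1 q (x.2.pt Θ.k) = 0 ↔ Θ.Zr q x :=
  ((h.repF x.1 q).2 x.2).zero_iff h.fam h.k4

theorem sol_iff (q : W →₀ ℝ) (x : Θ.X) : h.Q.Sol q x ↔ Θ.In x ∧ Θ.Zr q x :=
  and_congr_right fun _ => h.zr_iff q x

theorem in_eqv {x x' : Θ.X} (e : Θ.Eqv x x') (i : Θ.In x) : Θ.In x' :=
  ⟨h.toGpd.free e i.1, h.K_eqv x x' e i⟩

theorem eqv_iff (a : Θ.O) (y y' : Pnt (Θ.ref a) r) :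
    Θ.Eqv ⟨a, y⟩ ⟨a, y'⟩ ↔ ∃ g : (Θ.Γ a).G, g • y.pt Θ.k = y'.pt Θ.k := by
  refine ⟨fun ⟨ht, w, c, al, e⟩ => ?_, fun ⟨g, e⟩ => ⟨(Θ.Γ a).t_eq e, _, _, (Θ.Γ a).al g y y' e,
    (Θ.Γ a).eq_of_smul h.fam h.k3 e⟩⟩
  obtain ⟨g, h1, h2⟩ := (Θ.Γ a).surj y y' w c ht al e
  exact ⟨g, (Θ.Γ a).smul_of_eq h.fam h.k3 e ht h1 h2⟩

theorem act (a : Θ.O) (g : (Θ.Γ a).G) (v : (Θ.ref a).C r Θ.k) (hv : v ∈ (Θ.ref a).U r Θ.k) :
    h.Q.Tw (o := a) (o' := a) (fun u : (Θ.ref a).C r Θ.k => g • u) v := by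
  obtain ⟨A, -, hA⟩ := (Θ.Γ a).actC h.fam h.k3 g
  refine ⟨A, (Θ.Γ a).eqY h.fam n m h.k4 g, ?_, fun u : (Θ.ref a).C r Θ.k =>
    ⟨(g⁻¹ • (g • (0 : (Θ.ref a).C r Θ.k) + u) : (Θ.ref a).C r Θ.k), ?_⟩, ?_⟩
  · have : (fun u : (Θ.ref a).C r Θ.k => g • u) = fun u => g • (0 : (Θ.ref a).C r Θ.k) + A u :=
      funext fun u => by rw [hA u 0, sub_zero]
    exact this ▸ A.hasFDerivAt.const_add _
  · have := hA (g⁻¹ • (g • (0 : (Θ.ref a).C r Θ.k) + u)) 0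
    rw [smul_inv_smul, sub_zero] at this
    exact (add_left_cancel this).symm
  · filter_upwards [(isOpen_U h.fam).mem_nhds hv] with u hu
    exact ⟨(Θ.Γ a).equivar h.fam h.k4 (h.ne a a) (h.rep0 a) g hu,
      fun w => (Θ.Γ a).equivar h.fam h.k4 (h.nτ a a w) (h.repτ a w) g hu⟩

/-- transport along an equivalence: the affine map -/
theorem tr_of {x x' : Θ.X} {w : M → CL (Θ.ref x.1).m.V (Θ.ref x'.1).m.V} {c : Circle}
    (ht : x'.2.t = x.2.t) (al : Θ.Al x.1 x'.1 w c) (e : x.2.Eq x'.2 w c) :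
    ∃ A : (Θ.ref x.1).C r Θ.k →L[ℝ] (Θ.ref x'.1).C r Θ.k, ActC A w c ∧ Surjective A ∧
      ∀ v ∈ (Θ.ref x.1).U r Θ.k, h.Q.Tw (o := x.1) (o' := x'.1)
        (fun u : (Θ.ref x.1).C r Θ.k => x'.2.pt Θ.k + A (u - x.2.pt Θ.k)) v := by
  have mv := h.mv x x' w c ht e al
  obtain ⟨A, a⟩ := (e.mi h.fam ht).act (r := r) h.fam mv h.k3 c
  have hs := a.surj h.fam (e.mi h.fam ht) mv h.k3
  refine ⟨A, a, hs, fun v hv => ⟨A, (e.mi h.fam ht).eqY h.fam n m h.k4 c, ?_, hs, ?_⟩⟩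
  · exact ((A.hasFDerivAt.comp v ((hasFDerivAt_id v).sub_const _)).const_add _
      ).congr_fderiv (ContinuousLinearMap.comp_id _)
  · filter_upwards [(isOpen_U h.fam).mem_nhds hv] with u hu
    exact ⟨e.equivar h.fam h.k4 ht mv a al (h.ne _ _) (h.rep0 _) (h.rep0 _) hu,
      fun i => e.equivar h.fam h.k4 ht mv a al (h.nτ _ _ i) (h.repτ _ i) (h.repτ _ i) hu⟩

/-- the slice with all its properties -/
theorem slc_of {q : W →₀ ℝ} {x : Θ.X} (ha : Adm q) (hx : h.Q.Sol q x) :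
    ∃ D : Slc61.SliceData (Θ.Γ x.1).G (Θ.Γ x.1).L (Θ.Γ x.1).H (x.2.pt Θ.k), ContDiff ℝ ∞ D.γ ∧
      (∀ U ∈ 𝓝 (0 : (Θ.Γ x.1).L), D.e '' U ∈ 𝓝 (1 : (Θ.Γ x.1).G)) ∧
      (∀ p, ∃ s : (Θ.Γ x.1).L →L[ℝ] CL (Θ.ref x.1).m.V (Θ.ref x.1).m.V,
        HasStrictFDerivAt (fun ξ => (Θ.Γ x.1).u (D.e ξ) p) s 0) ∧
      (∃ s : (Θ.Γ x.1).L →L[ℝ] ℂ, HasStrictFDerivAt (fun ξ => ((Θ.Γ x.1).ζ (D.e ξ) : ℂ)) s 0) ∧
      Fred93.Fr ((fderiv ℝ (Θ.F x.1 q) (x.2.pt Θ.k)).prod D.σ) Θ.d ∧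
      ∀ᶠ v in 𝓝 (x.2.pt Θ.k), Θ.F x.1 q v = 0 → D.γ v = 0 →
        ∃ y : Pnt (Θ.ref x.1) r, y.pt Θ.k = v ∧ Θ.In ⟨x.1, y⟩ := by
  obtain ⟨i, z⟩ := (h.sol_iff q x).1 hx
  have hf := ((Θ.Γ x.1).free_iff h.fam h.k3).2 i.1
  obtain ⟨D, h1, h2, h3, h4, h5, h6⟩ := h.slc q x ha i z hf
  refine ⟨D, h1, h2, h3, h4, h5 _ (h.repF x.1 q), ?_⟩
  filter_upwards [h6, free_eventually D ((Θ.Γ x.1).proper x.2 x.2) hf h2, h.K_open q x ha i z,
    (isOpen_U h.fam).mem_nhds x.2.mem_U] with v a1 a2 a3 a4 e0 g0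
  obtain ⟨y, rfl⟩ := exists_pt_of_boot h.fam h.hk (h.rp_tot x.1 q) (h.repF x.1 q) a4 e0 (a1 g0)
  exact ⟨y, rfl, ((Θ.Γ x.1).free_iff h.fam h.k3).1 a2, a3 y rfl ((h.zr_iff q ⟨x.1, y⟩).1 e0)⟩

/-- **the axioms of `Prob`** -/
theorem ax : h.Q.Ax Adm where
  isOpen _ := isOpen_U h.fam
  inv a := (Θ.Γ a).inv_U
  sm0 a := (h.rep0 a).1
  smτ a w := (h.repτ a w).1
  mem x _ := x.2.mem_U
  in_eqv _ _ := h.in_eqv
  cont a := inferInstanceAs (ContinuousConstSMul (Θ.Γ a).G ((Θ.ref a).C r Θ.k))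
  act := h.act
  orb a y y' _ _ := h.eqv_iff a y y'
  tr := fun x x' _ ⟨ht, w, c, al, e⟩ => by
    obtain ⟨A, a, -, hA⟩ := h.tr_of ht al e
    refine ⟨_, ?_, hA _ x.2.mem_U, fun y => ?_⟩
    · change x'.2.pt Θ.k + A (x.2.pt Θ.k - x.2.pt Θ.k) = x'.2.pt Θ.k
      rw [sub_self, map_zero, add_zero]
    · obtain ⟨y', h1, h2, h3⟩ := e.tr h.fam ht (h.mv x x' w c ht e al) y
      exact ⟨y', h3 _ h.k3 A a, h1, w, c, al, h2⟩
  slc q x ha hx := by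
    obtain ⟨D, h1, -, -, -, h2, h3⟩ := h.slc_of ha hx
    exact ⟨D, h1, h2, h3⟩
  cl a := Grp76.closedOrb_sat (G := (Θ.Γ a).G) (Z := range fun y : Pnt (Θ.ref a) r => y.pt Θ.k)
    (by
      rintro _ ⟨y, rfl⟩ _ ⟨y', rfl⟩
      exact (Θ.Γ a).proper y y')
    (by
      rintro v ⟨g, y, -, e⟩
      exact ⟨g⁻¹, _, ⟨y, rfl⟩, inv_smul_eq_iff.2 e⟩)

end OK

end Th

end Crest.Agent.X212.Mod61
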