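import Crest.Agent.X212.Mod61.Cls

/-! Closed families: regularity of a solution in terms of smooth variations. -/

set_option autoImplicit false
set_option linter.unusedSectionVars false
noncomputable section
open scoped Manifold ContDiff Topology InnerProductSpace
open MeasureTheory Set Function Filter

namespace Crest.Agent.X212.Mod61
open An Prm93 Eqv71 Sob92 Fred93 Map77 Grp76
open Eq82 (Wt var)

theorem surj_iff_ker {X Y H L : Type} [NormedAddCommGroup X] [NormedSpace ℝ X]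
    [NormedAddCommGroup Y] [NormedSpace ℝ Y] [NormedAddCommGroup H] [NormedSpace ℝ H]
    [NormedAddCommGroup L] [NormedSpace ℝ L] {A : X →L[ℝ] Y} {σ : X →L[ℝ] H} {d : L →L[ℝ] X}
    (h0 : ∀ ξ, A (d ξ) = 0) (hb : Bijective (σ.comp d)) (hF : Fr (A.prod σ) 0) :
    (Surjective A → ∀ v, A v = 0 → v ∈ range d) ∧
      ((∀ v, A v = 0 → σ v = 0 → v ∈ range d) → Surjective A) := by
  refine ⟨fun s v hv => ?_, fun k y => ?_⟩
  · obtain ⟨ξ, e⟩ := hb.2 (σ v)
    refine ⟨ξ, hF.inj_of_surj (fun p => ?_) (Prod.ext ((h0 ξ).trans hv.symm) e)⟩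
    obtain ⟨x, hx⟩ := s p.1
    obtain ⟨η, e⟩ := hb.2 (p.2 - σ x)
    exact ⟨x + d η, Prod.ext (by simp [h0, hx]) (by simpa using eq_sub_iff_add_eq'.1 e)⟩
  · obtain ⟨x, hx⟩ := hF.surj_of_inj ((injective_iff_map_eq_zero _).2 fun v hv => by
      obtain ⟨ξ, rfl⟩ := k v (congrArg Prod.fst hv) (congrArg Prod.snd hv)
      rw [hb.1 ((congrArg Prod.snd hv).trans (map_zero (σ.comp d)).symm), map_zero]) (y, 0)
    exact ⟨x, congrArg Prod.fst hx⟩

theorem idx_idx' {ι V : Type} [Fintype ι] [NormedAddCommGroup V] [InnerProductSpace ℝ V]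
    {A B C : ι → ι → ℝ} (h : ∀ a b, ∑ c, A a c * B c b = C a b) (v : Fm ι V) (a : ι) :
    ∑ b, A a b • idx B (.id ℝ V) v b = ∑ c, C a c • v c := by
  simp only [Eqv71.idx_apply, ContinuousLinearMap.id_apply, Finset.smul_sum, smul_smul]
  rw [Finset.sum_comm]
  simp only [← Finset.sum_smul, h]

theorem kill_d {G C L H Y : Type} [Group G] [NormedAddCommGroup C] [NormedSpace ℝ C]
    [MulAction G C] [NormedAddCommGroup L] [NormedSpace ℝ L] [NormedAddCommGroup H]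
    [NormedSpace ℝ H] [NormedAddCommGroup Y] [NormedSpace ℝ Y] {x : C}
    (D : Slc61.SliceData G L H x) {f : C → Y} {f' : C →L[ℝ] Y} (hf : HasFDerivAt f f' x)
    (k : ∀ g : G, f (g • x) = f x) (ξ : L) : f' (D.d ξ) = 0 := by
  have a := HasFDerivAt.comp (f := fun ξ : L => (ξ, x)) 0 D.act.hasFDerivAt
    ((hasFDerivAt_id 0).prodMk (hasFDerivAt_const x 0))
  have a1 := HasFDerivAt.comp 0 (g := f) (by simpa [D.e_zero] using hf) a
  simpa using DFunLike.congr_fun (a1.unique ((hasFDerivAt_const (f x) 0).congr_of_eventuallyEq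
    (.of_forall fun ξ => k _))) ξ

variable {E : Type} [NormedAddCommGroup E] [NormedSpace ℝ E] [FiniteDimensional ℝ E]
  [MeasurableSpace E] [BorelSpace E]
  {HM : Type} [TopologicalSpace HM] {I : ModelWithCorners ℝ E HM} [I.Boundaryless]
  {M : Type} [TopologicalSpace M] [ChartedSpace HM M] [IsManifold I ∞ M]
  [MeasurableSpace M] [T2Space M] [BorelSpace M] [SecondCountableTopology M]
  {ι : Type} [Fintype ι] {lam : Type} [Fintype lam]
  {T : Type} [NormedAddCommGroup T] [NormedSpace ℝ T]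
  {𝔉 : Fam I M ι lam T} {o : Ref 𝔉} {r n m k j : ℕ} {e : T → PtX M ι lam r n m}

theorem RepF.hasF (h : 𝔉.OK) {f : o.C r k → o.Y n m j} (hf : RepF e f) (y : Pnt o r) :
    HasFDerivAt f (fderiv ℝ f (y.pt k)) (y.pt k) :=
  ((hf.1.contDiffAt ((isOpen_U h).mem_nhds y.mem_U)).differentiableAt (by simp)).hasFDerivAt

/-- the linearisations of different levels -/
theorem RepF.lin_level (h : 𝔉.OK) (hk : 4 ≤ k) (hj : k ≤ j) {f : o.C r k → o.Y n m k}
    (hf : RepF e f) {g : o.C r j → o.Y n m j} (hg : RepF e g) (y : Pnt o r) (v : o.C r j) :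
    fderiv ℝ f (y.pt k) (o.iC r k j v) = o.iY n m k j (fderiv ℝ g (y.pt j) v) := by
  have h1 := HasFDerivAt.comp (y.pt j) (y.iC_pt h (by omega) hj ▸ hf.hasF h y :
    HasFDerivAt f _ (o.iC r k j (y.pt j))) (o.iC r k j).hasFDerivAt
  have h2 := (o.iY n m k j).hasFDerivAt.comp _ (hg.hasF h y)
  have := DFunLike.congr_fun (h1.unique (h2.congr_of_eventuallyEq
    (mem_of_superset ((isOpen_U h).mem_nhds y.mem_U) fun u hu =>
      (hf.level h (by omega) hk hj hj hg hu).symm))) v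
  rwa [ContinuousLinearMap.comp_apply, y.iC_pt h (by omega) hj] at this

section boot
variable {Fs : T → Fr I M ι} (A : Adj 𝔉 Fs)
include A

theorem lin_f0 (hk : 6 ≤ k) (y : Pnt o r) {v : o.C r k} (hv : v.2.2.2 = 0) :
    fderiv ℝ (f0 o Fs r n m k) (y.pt k) v =
      jY o n m k ((bd o).LL 𝔉.F0.toPre (Fs y.t) k (uy y) (sC o r k y.t v)) := by
  have e0 : ∀ z, jC o r k (0, 0, z) = 0 := fun z => by rw [jC_apply, map_zero, map_zero, add_zero]
  have e1 : v = sC' o r k y.t (sC o r k y.t v) + (0, 0, v.2.2) := sC_inj A.toOK y.ht (by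
    rw [map_add, sC_sC' A.toOK y.ht, sC, ContinuousLinearMap.comp_apply _ _ (0, 0, _), e0, map_zero,
      add_zero]) (add_z _ _ (sC'_z _ _)).symm
  have h1 := (((A.sm_f0 (n := n) (m := m)).contDiffAt ((isOpen_U A.toOK).mem_nhds
    (y.mem_U (k := k)))).differentiableAt (by simp)).hasFDerivAt.hasLineDerivAt (0, 0, v.2.2)
  have h2 : fderiv ℝ (f0 o Fs r n m k) (y.pt k) (0, 0, v.2.2) = 0 :=
    HasDerivAt.unique h1 ((hasDerivAt_const 0 (f0 o Fs r n m k (y.pt k))).congr_of_eventuallyEq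
      (.of_forall fun s => by
        have : (y.pt k + s • ((0, 0, v.2.2) : o.C r k)).2.2.2 = (y.pt k).2.2.2 := by simp [hv]
        simp only [f0, hC, this, map_add, map_smul, e0, smul_zero, add_zero]))
  conv_lhs => rw [e1, map_add, h2, add_zero, A.fderiv_f0 hk]

/-- the kernel of the gauge fixed linearisation is smooth -/
theorem lin_boot (he : Aff o Fs r n m e) (hk : 7 ≤ k) (y : Pnt o r) {f : o.C r k → o.Y n m k}
    (hf : RepF e f) {v : o.C r k} (ht : v.2.2.2 = 0) (h1 : fderiv ℝ f (y.pt k) v = 0)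
    (h2 : sig Fs k y v = 0) (hj : k ≤ j) : v ∈ range (o.iC r k j) := by
  induction j, hj using Nat.le_induction with
  | base => exact ⟨v, iC_self v⟩
  | succ j hj ih =>
    obtain ⟨u, rfl⟩ := ih
    obtain ⟨g, g1, g2⟩ := he j (hk.trans hj)
    have H := A.hy o y.ht
    have U := (isOpen_U A.toOK).mem_nhds (y.mem_U (k := j))
    have c : HasFDerivAt (fun v => f0 o Fs r n m j v + o.iY n m j (j + 1) (g v)) _ _ :=
      ((A.sm_f0.contDiffAt U).differentiableAt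
      (by simp)).hasFDerivAt.add ((o.iY n m j (j + 1)).hasFDerivAt.comp _
        ((g1.contDiffAt U).differentiableAt (by simp)).hasFDerivAt)
    rw [hf.lin_level A.toOK (by omega) hj (A.repF g1 g2)] at h1
    have e1 := iY_inj hj (h1.trans (map_zero _).symm)
    rw [HasFDerivAt.fderiv c, _root_.add_apply, lin_f0 A (by omega) y (iC_t u ▸ ht),
      add_eq_zero_iff_eq_neg] at e1
    have e2 := congrArg (sY o n m j) e1
    rw [sY_jY, ContinuousLinearMap.comp_apply, ← map_neg, ← incl_sY j.le_succ] at e2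
    have e3 : row Fs j y y.t u = 0 := Ell97.incl_inj 𝔉.F0 hj _ (by
      rw [A.incl_row y y.ht hj, map_zero, row_apply, ut_self]; exact h2)
    rw [row_apply, ut_self] at e3
    obtain ⟨w, rfl⟩ := A.mem_iC y.ht j.le_succ (H.reg_pair (H.nc_row (cb_uy A.toOK y))
      (H.nc_lin (cb_uy A.toOK y)) rfl (H.cliff_mix _ _) j.le_succ ⟨0, (map_zero _).trans e3.symm⟩
      ⟨_, e2.symm⟩)
    exact ⟨w, (iC_iC hj j.le_succ w).symm⟩

end boot

/-- the form of a tangent vector in the frame of `t` -/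
abbrev Pnt.fm (y' : Pnt o r) (t : T) (x : M) : Fm ι o.m.A := idx (𝔉.S t x) (.id ℝ _) (y'.α x)

/-- the line through `y` in the direction `y'` -/
def Pnt.ln (y y' : Pnt o r) (s : ℝ) : Pnt o r :=
  ⟨y.α + s • y'.α, y.φ + s • y'.φ, y.z + s • y'.z, y.t, add_mem y.hα (Submodule.smul_mem _ _ y'.hα),
    add_mem y.hφ (Submodule.smul_mem _ _ y'.hφ), y.ht⟩

theorem Pnt.pt_ln (h : 𝔉.OK) (hk : 3 ≤ k) (y : Pnt o r) {y' : Pnt o r} (ht : y'.t = 0) (s : ℝ) :
    y.pt k + s • y'.pt k = (y.ln y' s).pt k :=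
  C_ext h hk (by simp only [Prod.fst_add, Prod.smul_fst, val_add, val_smul, Pnt.val_α _ hk]; rfl)
    (by simp only [Prod.snd_add, Prod.smul_snd, Prod.fst_add, Prod.smul_fst, val_add, val_smul,
      Pnt.val_φ _ hk]; rfl) (by simp [Pnt.pt, Pnt.ln, ht])

theorem Pnt.cfg_ln (y y' : Pnt o r) (s : ℝ) :
    (y.ln y' s).cfg = var y.cfg (y'.fm y.t) y'.φ y'.z s := by
  simp only [Pnt.cfg, var, Pnt.ln]
  congr 1
  · funext a x
    refine _root_.Eq.trans ?_ (congrArg (fun η => o.W y.t y.α a x + opL (s • η))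
      (Eqv71.idx_apply _ _ (y'.α x) a)).symm
    simp only [W_apply, Pi.add_apply, Pi.smul_apply, PiLp.add_apply, PiLp.smul_apply, map_add,
      map_smul, map_sum, smul_add, Finset.sum_add_distrib, add_assoc, Finset.smul_sum, smul_comm s,
      ContinuousLinearMap.id_apply]
  · exact (add_assoc _ _ _).symm

theorem der_iff {X V : Type} [NormedAddCommGroup X] [NormedSpace ℝ X] [NormedAddCommGroup V]
    [NormedSpace ℝ V] {g : ℝ → X} {a : X} (hg : HasDerivAt g a 0) (l : X →L[ℝ] V) {u : ℝ → V}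
    (e : ∀ s, l (g s) = u s) : l a = 0 ↔ HasDerivAt u 0 0 := by
  have := l.hasFDerivAt.comp_hasDerivAt 0 hg
  rw [show l ∘ g = u from funext e] at this
  exact ⟨fun k => k ▸ this, this.unique⟩

variable [CompactSpace M]

/-- the linearisation along smooth variations -/
theorem lin_iff (h : 𝔉.Cls) (hk : 4 ≤ k) {f : o.C r k → o.Y n m k} (hf : RepF e f) (y : Pnt o r)
    {y' : Pnt o r} (ht : y'.t = 0) : fderiv ℝ f (y.pt k) (y'.pt k) = 0 ↔
      (∀ x, HasDerivAt (F := o.m.V)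
        (fun s => (e y.t).D (var y.cfg (y'.fm y.t) y'.φ y'.z s) x) 0 0) ∧
      (∀ x a, HasDerivAt (F := o.m.A)
        (fun s => (e y.t).C (var y.cfg (y'.fm y.t) y'.φ y'.z s) x a) 0 0) ∧
      (∀ i, HasDerivAt (fun s => (e y.t).S (var y.cfg (y'.fm y.t) y'.φ y'.z s) i) 0 0) ∧
      ∀ i, HasDerivAt (fun s => (e y.t).R (var y.cfg (y'.fm y.t) y'.φ y'.z s) i) 0 0 := by
  have d : HasDerivAt _ _ _ := (hf.hasF h.toOK y).hasLineDerivAt (y'.pt k)
  simp only [y.pt_ln h.toOK (by omega : 3 ≤ k) ht] at d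
  have c := fun s => y.cfg_ln y' s
  simp only [Pnt.cfg, var, Cfg.mk.injEq, heq_eq_eq, true_and] at c
  have k1 := fun x => der_iff d (𝔉.F0.ev k o.Pm x ∘L .fst ℝ _ _) fun s =>
    (congrFun (hf.2 (y.ln y' s)).D x).trans ((indicator_of_mem (h.mO' x) _).trans
      (congrArg₂ (γ := o.m.V) (fun W Φ => (e y.t).D ⟨o.m, W, Φ, y.z + s • y'.z⟩ x) (c s).1
        (c s).2.1))
  have k2 := fun x a => der_iff d (Grp76.pj _ a ∘L 𝔉.F0.ev k o.P2 x ∘L .fst ℝ _ _ ∘L .snd ℝ _ _) fun s =>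
    congrArg (· a) ((congrFun (hf.2 (y.ln y' s)).C x).trans ((indicator_of_mem (h.mO x) _).trans
      (congrArg₂ (γ := Fm _ o.m.A) (fun W Φ => (e y.t).C ⟨o.m, W, Φ, y.z + s • y'.z⟩ x) (c s).1
        (c s).2.1)))
  have k3 := fun i => der_iff d (.proj (φ := fun _ : Fin n => ℂ) i ∘L .fst ℝ _ _ ∘L .snd ℝ _ _ ∘L
      .snd ℝ _ _) fun s =>
    congrFun ((hf.2 (y.ln y' s)).S.trans (congrArg _ (y.cfg_ln y' s))) i
  have k4 := fun i => der_iff d (.proj (φ := fun _ : Fin m => ℝ) i ∘L .snd ℝ _ _ ∘L .snd ℝ _ _ ∘L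
      .snd ℝ _ _) fun s =>
    congrFun ((hf.2 (y.ln y' s)).R.trans (congrArg _ (y.cfg_ln y' s))) i
  exact ⟨fun z => ⟨fun x => (k1 x).1 (by rw [z, map_zero]), fun x a => (k2 x a).1
    (by rw [z, map_zero]), fun i => (k3 i).1 (by rw [z, map_zero]),
    fun i => (k4 i).1 (by rw [z, map_zero])⟩, fun z => Y_ext h.toOK hk
      ((funext fun x => (k1 x).2 (z.1 x)).trans val_zero.symm)
      ((funext fun x => PiLp.ext fun a => (k2 x a).2 (z.2.1 x a)).trans val_zero.symm)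
      (Prod.ext (funext fun i => (k3 i).2 (z.2.2.1 i)) (funext fun i => (k4 i).2 (z.2.2.2 i)))⟩

variable [o.B0] (h : 𝔉.Cls) (hk : 7 ≤ k) (h0 : o.Φ0 = 0) (y : Pnt o r)

theorem fm_d (ξ : 𝔉.F0.H (k + 2) o.Pg) (x : M) (a : ι) :
    idx (𝔉.S y.t x) (.id ℝ _) (𝔉.F0.val _ _ ((gaM o h.toOK hk r).d (y.pt k) ξ).1 x) a =
      -Wz78.nab I (𝔉.G y.t).F.e (o.m.adW y.cfg.W) a (𝔉.F0.val _ _ ξ) x := by
  simp only [Eqv71.idx_apply, ContinuousLinearMap.id_apply, (isD_ga h.toOK hk y).a, Md.adW, Pnt.cfg,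
    adc_W h.toOK y (mem_g o (val_proj h.sup (by omega : 4 ≤ k + 2) ξ x)), Wz78.nab, smul_neg,
    smul_add, Finset.sum_add_distrib, neg_add, Finset.sum_neg_distrib]
  rw [← Pre.D_def, (h.mix _ y.ht).D]
  rfl

/-- the infinitesimal action in terms of smooth sections -/
theorem mem_d_iff {y' : Pnt o r} (ht : y'.t = 0) :
    y'.pt k ∈ range ((gxM o h.toOK hk r h0).d (y.pt k)) ↔ ∃ (ξ : M → o.m.A) (θ : ℝ), Sm I ξ ∧
      (∀ x, ξ x ∈ o.m.gS x) ∧
      (∀ x a, y'.fm y.t x a = -Wz78.nab I (𝔉.G y.t).F.e (o.m.adW y.cfg.W) a ξ x) ∧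
      (∀ x, y'.φ x = opL (ξ x) (y.cfg.Φ x) + θ • o.m.J (y.cfg.Φ x)) ∧
      y'.z = ((2 * θ : ℝ) * Complex.I) • y.z := by
  have D := isD_ga h.toOK hk y
  have H := hy1 o h.toOK hk
  have v1 : ∀ q, ((gxM o h.toOK hk r h0).d (y.pt k) q).1 =
      ((gaM o h.toOK hk r).d (y.pt k) q.1).1 := fun q => by
    rw [GX.d_apply, Prod.fst_add, Prod.smul_fst, H.J_1, smul_zero, add_zero]; rfl
  have v2 : ∀ q x, 𝔉.F0.val _ _ ((gxM o h.toOK hk r h0).d (y.pt k) q).2.1 x =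
      opL (𝔉.F0.val _ _ q.1 x) (y.cfg.Φ x) + q.2 • o.m.J (y.cfg.Φ x) := fun q x => by
    rw [GX.d_apply, Prod.snd_add, Prod.fst_add, Prod.smul_snd, Prod.smul_fst, val_add, val_smul,
      Pi.add_apply, Pi.smul_apply, H.J_2, H.val_crS_J]
    refine congrArg₂ (· + ·) (D.s _ x) (congrArg (fun v => q.2 • o.m.J v) ?_)
    simp [Pnt.cfg, h0, y.val_φ (by omega : 3 ≤ k)]
  have v3 : ∀ q, ((gxM o h.toOK hk r h0).d (y.pt k) q).2.2 =
      ((((2 * q.2 : ℝ) : ℂ) * Complex.I) • y.z, 0) := fun q => by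
    rw [GX.d_apply, Prod.snd_add, Prod.snd_add, Prod.smul_snd, Prod.smul_snd, H.J_z]
    refine (congrArg (· + _) (D.z q.1)).trans ((zero_add _).trans (Prod.ext ?_ (smul_zero _)))
    change q.2 • ((2 : ℕ) : ℝ) • Complex.I • y.z = _
    rw [smul_smul, mul_smul ((_ : ℝ) : ℂ), Complex.coe_smul, mul_comm, Nat.cast_ofNat]
  constructor
  · rintro ⟨q, e⟩
    have e1 := congrArg (fun v => 𝔉.F0.val _ _ v.1) e
    have e2 := congrArg (fun v => 𝔉.F0.val _ _ v.2.1) e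
    simp only [y'.val_α (by omega : 3 ≤ k), y'.val_φ (by omega : 3 ≤ k), v1] at e1 e2
    refine ⟨𝔉.F0.val _ _ q.1, q.2, sm_of_lin (F := 𝔉.F0.toPre) ((contMDiff_val (n := 1) h.sup
      (by omega) q.1).mdifferentiable one_ne_zero)
      (A := fun a x => -adc (o.A y.t a x + opL (y.α x a))) (B := fun a x => -y'.α x a)
      (fun a => (Wz78.adcL.contMDiff.comp ((Cb.sm (o.cAt y.t a)).add
        ((opL ∘L Grp76.pj _ a).contMDiff.comp (Cb.sm (y.cα h.toOK))))).neg)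
      (fun a => ((Grp76.pj _ a).contMDiff.comp (Cb.sm (y'.cα h.toOK))).neg) fun a x => ?_,
      fun x => mem_g o (val_proj h.sup (by omega) _ x), fun x a => ?_, fun x => ?_, ?_⟩
    · rw [← e1, D.a, neg_neg, Wz78.nab, _root_.neg_apply, Pre.D_def]; abel
    · rw [← fm_d h hk, e1]
    · rw [← e2, v2]
    · exact (congrArg (·.2.2.1) e).symm.trans (congrArg Prod.fst (v3 q))
  · rintro ⟨ξ, θ, s, g, e1, e2, e3⟩
    have e := val_ofV (hs_of h.toOK s fun x => Pg_of (h.mO x) (g x)) (by omega : 4 ≤ k + 2)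
    refine ⟨(ofV _ (k + 2) o.Pg ξ, θ), C_ext h.toOK (by omega) (funext fun x => ?_)
      (funext fun x => by rw [v2, e, y'.val_φ (by omega), e2]) (by rw [v3, ← e3, ← ht]; rfl)⟩
    have i : ∀ η, o.P1 x η = η → idx (𝔉.Si y.t x) (.id ℝ _) (idx (𝔉.S y.t x) (.id ℝ _) η) = η :=
      fun η hη => PiLp.ext fun a => (Eqv71.idx_apply _ _ _ a).trans
        ((idx_idx' (h.SiS _ y.ht x) η a).trans (idx_sum hη a))
    rw [v1, y'.val_α (by omega), ← i _ (y'.pα h.toOK x), ← i _ (val_proj h.sup (by omega) _ x)]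
    exact congrArg _ (PiLp.ext fun a => by rw [fm_d h hk, e, e1])

/-- in index zero a free zero is regular iff the kernel consists of infinitesimal automorphisms -/
theorem surj_iff [FiniteDimensional ℝ T] (hr : r ≠ 0) (he : Aff o (fun t => (𝔉.G t).F) r n m e)
    (hn : NatP o o (fun _ _ => True) e) {f : o.C r k → o.Y n m k} (hf : RepF e f)
    (fr : y.Free fun _ _ => True) (z : f (y.pt k) = 0) (hd : n0 y + 2 * r - 2 * n - m - 1 = 0) :
    Surjective ((fderiv ℝ f (y.pt k)).prod (tC o r k)) ↔ ∀ y' : Pnt o r, y'.t = 0 →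
      fderiv ℝ f (y.pt k) (y'.pt k) = 0 →
        y'.pt k ∈ range ((gxM o h.toOK hk r h0).d (y.pt k)) := by
  have := FiniteDimensional.complete ℝ T
  have A := adj_closed h.toOK
  have F := ((gmC o h.toOK hk r h0).free_iff h.toOK (by omega)).2 fr
  obtain ⟨l, D, -, e1, e2, -⟩ := gmC_slice o h.toOK hk r h0 (.inr hr) F
    ((gmC o h.toOK hk r h0).proper y y) (sig _ k y)
    (A.sig_bij (by omega) (isD_ga h.toOK hk y) (gmC_inj o h.toOK hk r h0 F))
  have b := D.bij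
  have a := kill_d D ((hf.hasF h.toOK y).prodMk (tC o r k).hasFDerivAt) fun g => Prod.ext
    (((gmC o h.toOK hk r h0).equivar h.toOK (by omega) hn hf _ y.mem_U).trans
      (by rw [z, map_zero])) (congrArg Prod.snd ((gmC o h.toOK hk r h0).az g _) :)
  rw [e2] at a
  rw [e1, e2] at b
  have k := surj_iff_ker (A := (fderiv ℝ f (y.pt k)).prod (tC o r k)) a b ((((((A.fred he hk y (fr_n0 h.toOK y k) hf).prod
      l).prod (tC o r k)).conj (.refl ℝ _) (((ContinuousLinearEquiv.prodAssoc ℝ _ _ _).prodCongr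
        (.refl ℝ T)).trans ((ContinuousLinearEquiv.prodAssoc ℝ _ _ _).trans
          (((ContinuousLinearEquiv.refl ℝ _).prodCongr (.prodComm ℝ _ _)).trans
            (ContinuousLinearEquiv.prodAssoc ℝ _ _ _).symm)))).congr fun _ => rfl).cast (by
      rw [Module.finrank_self]; push_cast; omega))
  refine ⟨fun s y' ht hy => k.1 s _ (Prod.ext hy ht), fun s => k.2 fun v h1 h2 => ?_⟩
  obtain ⟨y', rfl⟩ := exists_pt h.toOK (by omega) (v := v) (h.mQ _) fun j => lin_boot A he hk y hf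
    (congrArg Prod.snd h1) (congrArg Prod.fst h1) (congrArg Prod.fst h2)
  exact s y' (congrArg Prod.snd h1) (congrArg Prod.fst h1)

theorem der_nrm_iff (z w : EuclideanSpace ℂ (Fin r)) :
    HasDerivAt (fun s : ℝ => ‖z + s • w‖ ^ 2 - 1) 0 0 ↔ (⟪z, w⟫_ℂ).re = 0 := by
  have : HasDerivAt (fun s : ℝ => ‖z + s • w‖ ^ 2 - 1) (2 * (⟪z, w⟫_ℂ).re) 0 := by
    have e : ∀ s : ℝ, ‖z + s • w‖ ^ 2 - 1 =
        ‖z‖ ^ 2 + s * (2 * (⟪z, w⟫_ℂ).re) + s ^ 2 * ‖w‖ ^ 2 - 1 := fun s => by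
      rw [norm_add_sq (𝕜 := ℂ), norm_smul, mul_pow, Real.norm_eq_abs, sq_abs, ← Complex.coe_smul,
        inner_smul_right]
      simp; ring
    simp only [e]
    simpa using ((((hasDerivAt_id' (0 : ℝ)).mul_const (2 * (⟪z, w⟫_ℂ).re)).const_add (‖z‖ ^ 2)).add
      (((hasDerivAt_id' (0 : ℝ)).pow 2).mul_const (‖w‖ ^ 2))).sub_const 1
  exact ⟨fun k => by simpa using this.unique k, fun k => by simpa [k] using this⟩

include h0 in
theorem rig_iff {e : T → PtX M ι lam r n 1} {f : o.C r k → o.Y n 1 k} (hf : RepF e f)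
    {τ : Pt M ι lam r n} (eD : ∀ c x, (e y.t).D c x = c.eD (𝔉.G y.t) τ x)
    (eC : ∀ c x, (e y.t).C c x = c.eC 𝔉.B (𝔉.G y.t) τ x) (eS : ∀ c i, (e y.t).S c i = -τ.S c i)
    (eR : ∀ c, (e y.t).R c = fun _ => ‖c.z‖ ^ 2 - 1) :
    (∀ y' : Pnt o r, y'.t = 0 → fderiv ℝ f (y.pt k) (y'.pt k) = 0 →
      y'.pt k ∈ range ((gxM o h.toOK hk r h0).d (y.pt k))) ↔ Eq82.Rig 𝔉.B (𝔉.G y.t) τ y.cfg := by
  have l := fun (y' : Pnt o r) ht => lin_iff h (by omega : 4 ≤ k) hf y (y' := y') ht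
  simp only [eD, eC, eS, eR] at l
  refine ⟨fun k α φ w s1 p1 s2 p2 hw d1 d2 d3 => ?_, fun k y' ht hy => ?_⟩
  · let y' : Pnt o r := ⟨_, φ, w, 0, h.hs_Si y.t s1 p1, hs_of h.toOK s2 fun x => by
      rw [h.Pp_eq]; exact p2 x, h.mQ 0⟩
    have e : y'.fm y.t = α := funext fun x => PiLp.ext fun a => (Eqv71.idx_apply _ _ _ a).trans
      ((idx_idx' (h.SSi _ y.ht x) (α x) a).trans ((Spn45.p1_iff.1 (p1 x)).2 a))
    have := (mem_d_iff h hk h0 y rfl).1 (k y' rfl ((l y' rfl).2 (e.symm ▸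
      ⟨d1, d2, fun i => neg_zero (G := ℂ) ▸ (d3 i).fun_neg, fun _ => (der_nrm_iff _ _).2 hw⟩)))
    rwa [e] at this
  · obtain ⟨d1, d2, d3, d4⟩ := (l y' ht).1 hy
    refine (mem_d_iff h hk h0 y ht).2 (k _ _ _ ((Cb.sm (Std94.Kl.idx
      (K := Std94.cbK 𝔉.F0.toPre) (fun a b => (h.sS a b).cb _ y.ht) (Cb_const _))).clm_apply
        (Cb.sm (y'.cα h.toOK))) (fun x => Spn45.p1_iff.2 ⟨fun a => ?_, fun a => ?_⟩)
      (Cb.sm (y'.cφ h.toOK)) (fun x => ind_fix (y'.pφ h.toOK x)) ((der_nrm_iff _ _).1 (d4 0)) d1 d2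
      fun i => by simpa using (d3 i).fun_neg)
    · rw [Eqv71.idx_apply]
      exact Submodule.sum_mem _ fun b _ => Submodule.smul_mem _ _ (idx_mem (y'.pα h.toOK x) b)
    · exact (idx_idx' (h.PS _ y.ht x) (y'.α x) a).trans
        (Eqv71.idx_apply _ (.id ℝ _) (y'.α x) a).symm

omit [o.B0] in
theorem CD.rig [DecidableEq ι] [FiniteDimensional ℝ T] {τ : T → Pt M ι lam r n}
    {β : T → ℝ} {κ : ℝ} {d : ℤ} (h : CD 𝔉 τ β κ d) {F₀ : An.Fr I M ι}
    (hd : d = Module.finrank ℝ T) {q : Wt lam r n F₀ →₀ ℝ} {x : (h.th F₀).X}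
    (hx : (h.ok F₀).Q.Sol q x) :
    Surjective ((fderiv ℝ ((h.th F₀).F x.1 q) (x.2.pt 7)).prod (tC x.1.1 r 7)) ↔
      Eq82.Rig 𝔉.B (𝔉.G x.2.t) (CD.pq 𝔉 τ β q x.2.t) x.2.cfg := by
  have f := (h.ok F₀).repF x.1 q
  have i := h.ind _ x.2 hx.1.2.2.1
  exact (surj_iff h.toCls le_rfl x.1.2.1 x.2 h.hr (h.aff q _) ((h.ok F₀).nat_tot _ _ q) f hx.1.1
    hx.2 (by push_cast; omega)).trans (rig_iff h.toCls le_rfl x.1.2.1 x.2 f (h.tot_D q _)
      (h.tot_C q _) (h.tot_S q _) (h.tot_R q _))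

end Crest.Agent.X212.Mod61
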