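import Crest.Agent.X212.Mod61.Den
import Crest.Agent.X212.Mod61.Rig
import Crest.Agent.X212.Idg99.Num
import Crest.Agent.X212.Map77.Num

/-! The Banach models of closed families: the leaf `Eq82.MdsL`. -/

set_option autoImplicit false
set_option linter.unusedSectionVars false
noncomputable section
open scoped Manifold ContDiff Topology InnerProductSpace
open MeasureTheory Set Function Filter

namespace Crest.Agent.X212.Mod61
open An Prm93 Eqv71 Sob92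
open Eq82 (Wt wq Mdl Bk Pa WW pq SmP Mds MdsL sml)
open Line51 (Ln)

variable {E : Type} [NormedAddCommGroup E] [NormedSpace ℝ E] [FiniteDimensional ℝ E]
  [MeasurableSpace E] [BorelSpace E]
  {HM : Type} [TopologicalSpace HM] {I : ModelWithCorners ℝ E HM} [I.Boundaryless]
  {M : Type} [TopologicalSpace M] [ChartedSpace HM M] [IsManifold I ∞ M]
  [MeasurableSpace M] [T2Space M] [BorelSpace M] [SecondCountableTopology M] [CompactSpace M]
  {ι : Type} [Fintype ι] [DecidableEq ι] {lam : Type} [Fintype lam]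
  {T : Type} [NormedAddCommGroup T] [NormedSpace ℝ T] [FiniteDimensional ℝ T]
  {𝔉 : Fam I M ι lam T} {r n : ℕ}

/-- **the Banach model of a closed problem** -/
def CD.mdl [ConnectedSpace M] {τ : T → Pt M ι lam r n} {β : T → ℝ} {κ : ℝ} {d : ℤ}
    (h : CD 𝔉 τ β κ d) (F₀ : Fr I M ι) : Mdl 𝔉.B 𝔉.G F₀ τ β κ d where
  Q := (h.ok F₀).Q
  tc a := Map77.tC a.1 r 7
  cf x := x.2.cfg
  ax := (h.ok F₀).ax
  hn := rfl
  adm _ i := h.adm i.2.1
  tc_g a g v _ := ((h.th F₀).Γ a).t_smul g v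
  tc_sj _ t := ⟨(0, 0, 0, t), rfl⟩
  van := fun (a : RefC 𝔉) w v hv h0 => by
    obtain ⟨f, hf⟩ := Ref.Sm.rp h.toOK (Mon62.sm_compact (m := 1) h.toOK a.1
      (fun _ : Unit => tm_cpt _ w.2.1) (w := fun _ _ => -1) fun _ => contDiffOn_const) 7 le_rfl
    have := hf.smul_par h.sβ.contDiffOn
    rw [show (fun t => β t • Mon62.wptX 𝔉 1 (fun _ : Unit => w.1) (fun _ _ => -1) t) =
      (h.th F₀).τ w from funext fun t => PtX.eqv.injective (funext fun c => by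
        refine Prod.ext (funext fun x => ?_) (Prod.ext (funext fun x => ?_)
          (Prod.ext (funext fun x => ?_) (funext fun x => ?_))) <;>
        simp [PtX.eqv, Mon62.wptX, wpt])] at this
    exact (((h.ok F₀).repτ a w).eqOn h.toOK (h.ok F₀).k3 (h.ok F₀).k4 this hv).trans
      ((congrArg (· • f v) h0).trans (zero_smul _ _))
  sol q _ := h.sol_iff q
  eqv _ _ _ e := (h.eqv_iff.1 e).imp_left Eq.symm
  eqv' _ _ _ _ _ ht e := h.eqv_iff.2 ⟨ht.symm, e⟩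
  surj q t c s hk h0 := by
    obtain ⟨x, rfl, -, rfl⟩ := h.exists_x (F₀ := F₀) (Eq82.adm0 s.toAdm)
    exact ⟨x, (h.sol_iff q).2 ⟨s, hk, h0⟩, rfl, rfl⟩
  near _ _ _ _ _ := h.near
  obs a x _ := (h.obs a x).mono_left inf_le_left
  dens _ _ := h.onto
  rig hd _ _ := h.rig hd

section cst
variable (T' : Type) [NormedAddCommGroup T'] [NormedSpace ℝ T']

/-- the constant family with the value at `t` -/
def Fam.at (𝔉 : Fam I M ι lam T) (t : T) : Fam I M ι lam T' :=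
  ⟨𝔉.B, 𝔉.F0, 𝔉.G0, fun _ => 𝔉.G t, univ, fun _ => 𝔉.S t, fun _ => 𝔉.Si t, fun _ => 𝔉.cf t,
    fun _ => 𝔉.la t, 𝔉.Om, 𝔉.Om'⟩

theorem Fam.Cls.at (h : 𝔉.Cls) (t : T) : (𝔉.at T' t).Cls :=
  have ht := h.mQ t
  let ⟨g, g1, g2⟩ := h.dens
  ⟨⟨h.B, h.G0, fun _ _ => h.G t ht, h.tame, fun _ _ => h.tameG t ht, h.e0, h.P0, h.co, h.cl,
    isOpen_univ, h.Om, h.Om', h.sub, fun _ _ => h.mix t ht, fun _ _ => h.PS t ht,
    fun _ _ => h.SP t ht, fun _ _ => h.PSi t ht, fun _ _ => h.SiP t ht, fun _ _ => h.SSi t ht,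
    fun _ _ => h.SiS t ht, fun a b => .fixed ((h.sS a b).cb t ht),
    fun a b => .fixed ((h.sSi a b).cb t ht), fun a b k => .fixed ((h.scf a b k).cb t ht),
    fun a => .fixed ((h.sla a).cb t ht), fun a b k => .fixed ((h.sc a b k).cb t ht),
    fun a => .fixed ((h.sdv a).cb t ht), fun a => .fixed ((h.sa a).cb t ht),
    ⟨fun _ => g t, .fixed (g1.cb t ht), fun _ _ => g2 t ht⟩, fun m A H C _ _ => h.conn m A H C t ht⟩,
    rfl, h.eO, h.eO'⟩

theorem sm_at (h : 𝔉.Cls) {m : ℕ} {τ : T → PtX M ι lam r n m} (s : ∀ a : RefC 𝔉, a.1.Sm τ) (t : T)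
    (a : RefC (𝔉.at T' t)) : a.1.Sm fun _ => τ t := fun k hk => by
  obtain ⟨⟨m, A0, Φ0, a1, a2, a3, a4, a5, a6, a7, a8, b, sb, bP⟩, h0, hb⟩ := a
  obtain rfl : b = 0 := hb
  let o : Ref 𝔉 :=
    { m := m, A0 := A0, Φ0 := Φ0, ok := a1, conn := a2, cp := a3, cρ := a4, cj := a5, cA := a6
      cΦ := a7, pos := a8 }
  obtain ⟨f, f1, f2⟩ := s ⟨o, h0, rfl⟩ k hk
  exact ⟨fun v => f (v.1, v.2.1, v.2.2.1, t), f1.comp (by fun_prop) fun _ _ => h.mQ t, fun y =>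
    let b := f2 ⟨y.α, y.φ, y.z, t, y.hα, y.hφ, h.mQ t⟩; ⟨b.D, b.C, b.S, b.R⟩⟩

end cst

theorem toX_add (τ σ : T → Pt M ι lam r n) : toX (fun t => (τ t).add (σ t)) = toX τ + toX σ :=
  funext fun _ => PtX.eqv.injective (funext fun _ =>
    Prod.ext rfl (Prod.ext rfl (Prod.ext rfl (add_zero _).symm)))

theorem sm_sml {o : Ref 𝔉} {τ : T → Pt M ι lam r n} (s : o.Sm (toX τ)) {g : T → ℝ}
    (hg : ContDiff ℝ ∞ g) : o.Sm (toX fun t => sml (g t) (τ t)) := fun k hk =>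
  let ⟨_, hf⟩ := s k hk
  let b := hf.smul_par hg.contDiffOn
  ⟨_, b.1, fun y => ⟨(b.2 y).D, (b.2 y).C, (b.2 y).S, (b.2 y).R.trans (smul_zero _)⟩⟩

theorem sm_wq (h : 𝔉.OK) (o : Ref 𝔉) [o.B0] {F₀ : Fr I M ι} {p : T → Wt lam r n F₀ →₀ ℝ}
    (hp : SmP p) : o.Sm (toX fun t => wq 𝔉.B (𝔉.G t).F (p t)) := by
  obtain ⟨⟨J, hJ⟩, s⟩ := hp
  have e : ∀ t, wq 𝔉.B (𝔉.G t).F (p t) = wpt 𝔉.B (𝔉.G t).F (fun j : J => j.1.1) fun j => p t j :=
    fun t => by
      refine Eq82.pt_ext (fun c x => ?_) (fun c x => ?_) fun c x => ?_ <;>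
        simp only [wq, wpt] <;> rw [Finsupp.sum_of_support_subset _ (hJ t) _ (by simp)] <;>
        exact (Finset.sum_coe_sort J _).symm
  simp only [e]
  exact Mon62.sm_compact (m := 1) h o (fun j : J => tm_cpt _ j.1.2.1) fun j => (s j).contDiffOn

variable {κ : Type} [Fintype κ] [DecidableEq κ] {X : Bk I M ι} {L : Ln E M κ} (hL : L.On I univ)
include hL

/-- the level depends on the module only -/
theorem kap_eq {F : Fr I M ι} (hF : X.Pos F) {m : Md M ι (κ ⊕ κ)} (H : m.OK I (X.B L)) {W : m.Cn}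
    (C : m.IsConn (X.B L) (L.geo F) W) : 128 * Real.pi ^ 2 * m.kap (X.B L) F W =
      4 * Num57.cw I (Num57.vol X.F X.o) (Num57.f0 E m.pg) := by
  have k := Abel74.okF hF
  have hB := Abel74.B_ok X hL
  have hG := Abel74.G_ok hL hF
  have s := Idg99.sub_pg hB hG H C
  rw [← Num57.cw_ori k.ori X.ok.ori hF.ori,
    ← Num57.integral_cwd F k.h4 k.isv k.sm k.vo' s.con s.sm s.par, Md.kap, ← integral_const_mul]
  exact integral_congr_ae (.of_forall fun x => (Idg99.cwd_pg hB hG H C x).symm)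

theorem mdl_of [ConnectedSpace M] {𝔉 : Fam I M ι (κ ⊕ κ) T} (h : 𝔉.Cls) {F : T → Fr I M ι}
    (hB : 𝔉.B = X.B L) (hG : 𝔉.G = fun t => L.geo (F t)) (pos : ∀ t, X.Pos (F t)) (hr : 0 < r)
    {τ : T → Pt M ι (κ ⊕ κ) r n} (sm : ∀ a : RefC 𝔉, a.1.Sm (toX τ))
    (nat : ∀ t, PNat (X.B L) (L.geo (F t)) univ (τ t)) {β : T → ℝ} (sβ : ContDiff ℝ ∞ β) {k : ℝ}
    {d : ℤ} (hd : (d : ℝ) = 6 * k + X.d0 L + 2 * r + Module.finrank ℝ T - 2 * n - 2) :
    Nonempty (Mdl (X.B L) (fun t => L.geo (F t)) X.F τ β k d) := by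
  rw [← hB, ← hG]
  refine ⟨CD.mdl ⟨h, hr.ne', sm, by rwa [hB, hG], sβ, ?_, fun o y hk => ?_⟩ _⟩
  · rw [hB, hG]
    exact fun m t t' W W' H C C' => mul_left_cancel₀ (by positivity)
      ((kap_eq hL (pos t) H C).trans (kap_eq hL (pos t') H C').symm)
  · have e : ∀ g p q, g = o.m.pg → p = o.m.pp 𝔉.B → q = o.m.pm 𝔉.B → (⟨𝔉.B.P, 𝔉.B.o, o.m.ρ, g,
        fun x => idx (fun a b => 𝔉.B.P a b x) (g x), fun x => idx (𝔉.B.sd x) (g x), p, q⟩ :
          Map77.Bd M ι (Fin o.m.N)) = Idg99.bdU o.m 𝔉.B := by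
      rintro _ _ _ rfl rfl rfl
      rfl
    have e1 : Map77.bd o = _ := e _ _ _ (funext fun x => indicator_of_mem (h.mO x) _)
      (funext fun x => indicator_of_mem (h.mO' x) _) (funext fun x => indicator_of_mem (h.mO' x) _)
    have H := o.ok
    have C : o.m.IsConn 𝔉.B (𝔉.G y.t) y.cfg.W := (y.ad0 h.toOK).conn
    have hk : o.m.kap 𝔉.B (𝔉.G y.t).F y.cfg.W = k := hk
    rw [← Int.cast_inj (α := ℝ), Map77.n0_ind, e1]
    rw [hB] at H
    rw [hB, hG] at C hk ⊢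
    push_cast
    rw [hd, ← hk]
    exact congrArg (· + _ + _ - _ - _)
      (Idg99.ind_d0 hL (pos y.t) H C (Cb.sm (Map77.cb_uy h.toOK y)))

/-- **Banach models for natural perturbations that gain a derivative** -/
theorem mds_of [ConnectedSpace M] (P : Pa X L) (hr : 0 < r) {τ : ℝ → Pt M ι (κ ⊕ κ) r n}
    (sm : ∀ a : RefC P.𝔉, a.1.Sm (toX τ))
    (nat : ∀ t, PNat (X.B L) (L.geo (P.F t)) univ (τ t)) : Mds P τ := by
  have h : P.𝔉.Cls := ⟨P.ok, P.Q, P.Om, P.Om'⟩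
  have s : ∀ {p : ℝ → WW X κ r n →₀ ℝ}, SmP p → ∀ a : RefC P.𝔉,
      a.1.Sm (toX fun t => pq X L (P.F t) (τ t) (p t)) := fun hp a => by
    have := sm_wq h.toOK a.1 hp
    simp only [P.B, P.G] at this
    rw [toX_add]
    exact mem_SmS.1 (add_mem (mem_SmS.2 (sm a)) (mem_SmS.2 this))
  have q := fun t q => (nat t).add (wq_nat (Abel74.B_ok X hL) (Abel74.G_ok hL (P.pos t))
    (F₀ := X.F) q)
  exact ⟨fun p β k d hp hβ hd => mdl_of hL h P.B (funext P.G) P.pos hr (s hp) (fun t => q t _) hβ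
      (by rw [hd, Module.finrank_self]; push_cast; ring),
    fun t p k d hd => mdl_of hL (h.at (Fin 0 → ℝ) t) P.B (funext fun _ => P.G t) (fun _ => P.pos t) hr
      (sm_at _ h (s (p := fun _ => p) ⟨⟨_, fun _ => subset_rfl⟩, fun _ => contDiff_const⟩) t)
      (fun _ => q t _) contDiff_const (by simp [hd])⟩

/-- the straight path to zero (the field `th` of `Eq82.Dat`) -/
theorem mds_sml [ConnectedSpace M] (P : Pa X L) (hr : 0 < r) {τ : Pt M ι (κ ⊕ κ) r n}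
    (sm : ∀ a : RefC P.𝔉, a.1.Sm (toX fun _ => τ))
    (nat : ∀ t, PNat (X.B L) (L.geo (P.F t)) univ τ) : Mds P fun t => sml (1 - t) τ :=
  mds_of hL P hr (fun a => sm_sml (sm a) (contDiff_const.sub contDiff_id))
    fun t => sml_nat (nat t) _

variable (X) in
/-- **the leaf `MdsL`** -/
theorem mdsL [ConnectedSpace M] : MdsL X L := fun P D w hD hw r n hr =>
  mds_of hL P hr (fun a => by
    have := Mon62.sm_compact (m := 1) P.ok a.1 (Tm := D.tm _ r n) (fun k => tm_cpt (F₀ := X.F) _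
      (t := D.tm _ r n k) (hD k)) fun k => (contDiff_pi.1 hw k).contDiffOn
    unfold Mon62.wptX at this
    simp only [P.B, P.G] at this
    exact this) fun t => ed_nat (Abel74.B_ok X hL) (Abel74.G_ok hL (P.pos t)) hD _

end Crest.Agent.X212.Mod61
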