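import Crest.Agent.X212.Mod61.Hs

/-! Equivalences of smooth points: the equation in the Sobolev frame, regularity, the groupoid,
transport of the Banach models, and the dictionary with the group `GrpM`. -/

set_option autoImplicit false
set_option linter.unusedSectionVars false
noncomputable section
open scoped Manifold ContDiff Topology InnerProductSpace
open MeasureTheory Set Function Filter

namespace Crest.Agent.X212.Mod61
open An Prm93 Eqv71 Sob92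
open Wz78 (SA g_skw g_p g_J g_ρ g_j g_p' mem_g pg_mem pg_of_mem opL_inj)
open Grp76 (tp pj Cb_tp)

variable {E : Type} [NormedAddCommGroup E] [NormedSpace ℝ E] [FiniteDimensional ℝ E]
  [MeasurableSpace E] [BorelSpace E]
  {HM : Type} [TopologicalSpace HM] {I : ModelWithCorners ℝ E HM} [I.Boundaryless]
  {M : Type} [TopologicalSpace M] [ChartedSpace HM M] [IsManifold I ∞ M]
  [MeasurableSpace M] [T2Space M] [BorelSpace M] [SecondCountableTopology M]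
  {ι : Type} [Fintype ι] {lam : Type} [Fintype lam]
  {T : Type} [NormedAddCommGroup T] [NormedSpace ℝ T]
  {𝔉 : Fam I M ι lam T} (h : 𝔉.OK) {o o' o'' : Ref 𝔉} {r n m k j : ℕ} {x : M}

/-- pointwise isomorphism of the modules -/
abbrev MX (o o' : Ref 𝔉) (x : M) (u : CL o.m.V o'.m.V) : Prop :=
  ME o.m x o'.m x (fun b a => 𝔉.B.P b a x) (𝔉.B.l x) u

/-- equivalence of smooth points -/
abbrev Pnt.Eq (y : Pnt o r) (y' : Pnt o' r) (w : M → CL o.m.V o'.m.V) (c : Circle) : Prop :=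
  EqOn 𝔉.B (𝔉.G y.t).F 𝔉.Om y.cfg y'.cfg w c

/-- the covariant derivative of `u` in the Sobolev frame -/
def th (o o' : Ref 𝔉) (t : T) (α : M → Fm ι o.m.A) (α' : M → Fm ι o'.m.A) (u : M → CL o.m.V o'.m.V)
    (a : ι) (x : M) : CL o.m.V o'.m.V :=
  𝔉.F0.D a u x + (o'.A t a x + opL (α' x a)) ∘L u x - u x ∘L (o.A t a x + opL (α x a))

theorem MX.ρ' {u : CL o.m.V o'.m.V} (e : MX o o' x u) (b : ι) :
    o'.m.ρ b x ∘L u = u ∘L o.m.ρ b x := by rw [e.ρ, (o.ok.cl x).proj]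

theorem MX.j' {u : CL o.m.V o'.m.V} (e : MX o o' x u) (s : Eu lam) :
    o'.m.j x s ∘L u = u ∘L o.m.j x s := by rw [← e.j, o'.ok.jl]

theorem mx_of {u : CL o.m.V o'.m.V} (h1 : trn u ∘L u = o.m.p x) (h2 : u ∘L trn u = o'.m.p x)
    (h3 : u ∘L o.m.J = o'.m.J ∘L u) (h4 : ∀ b, o'.m.ρ b x ∘L u = u ∘L o.m.ρ b x)
    (h5 : ∀ s, o'.m.j x s ∘L u = u ∘L o.m.j x s) : MX o o' x u :=
  ⟨h1, h2, h3, fun b => by rw [h4, (o.ok.cl x).proj], fun s => by rw [← h5, o'.ok.jl]⟩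

theorem MX.norm_le {u : CL o.m.V o'.m.V} (e : MX o o' x u) : ‖u‖ ≤ 1 :=
  u.opNorm_le_bound zero_le_one fun a => by
    rw [one_mul]
    exact norm_le_of_proj e.inner (fun a => by
      rw [o.ok.psym, ← mul_apply_eq_comp, o.ok.pidem]) a

/-- `u ξ = (cj u ξ) u` -/
theorem MX.cj_comp {u : CL o.m.V o'.m.V} (e : MX o o' x u) {ξ : o.m.A} (hξ : ξ ∈ o.m.gS x) :
    opL (cj u ξ) ∘L u = u ∘L opL ξ := by
  rw [opL_cj, ContinuousLinearMap.comp_assoc, ContinuousLinearMap.comp_assoc, e.uu]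
  exact congrArg (u ∘L ·) (g_p' o.ok hξ)

theorem MX.cancel {u : CL o.m.V o'.m.V} (e : MX o o' x u) {ξ η : o'.m.A} (hξ : ξ ∈ o'.m.gS x)
    (hη : η ∈ o'.m.gS x) (k : opL ξ ∘L u = opL η ∘L u) : ξ = η := by
  have := congrArg (· ∘L trn u) k
  simp only [ContinuousLinearMap.comp_assoc, e.uu'] at this
  exact opL_inj ((g_p' o'.ok hξ).symm.trans (this.trans (g_p' o'.ok hη)))

include h

theorem MX.symm' {u : CL o.m.V o'.m.V} (e : MX o o' x u) : MX o' o x (trn u) := by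
  have := e.symm (BE.refl h.B x) o.ok o'.ok
  rw [trn_of_sym (h.B.lsym x)] at this
  exact mx_of this.uu this.uu' this.J (fun b => by
    rw [this.ρ]; simp only [fun a => (h.B.pr x).symm a b, (o'.ok.cl x).proj]) fun s => by
      rw [← this.j, o.ok.jl]

theorem th_W {t : T} (ht : t ∈ 𝔉.Q) (α : M → Fm ι o.m.A) (α' : M → Fm ι o'.m.A)
    {u : M → CL o.m.V o'.m.V} (e : MX o o' x (u x)) (a : ι) :
    (𝔉.G t).F.D a u x + o'.W t α' a x ∘L u x - u x ∘L o.W t α a x =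
      ∑ b, 𝔉.S t x a b • th o o' t α α' u b x := by
  have h1 : ∀ b k, (o'.m.ρ b x * o'.m.ρ k x) ∘L u x = u x ∘L (o.m.ρ b x * o.m.ρ k x) :=
    fun b k => by
    rw [ContinuousLinearMap.mul_def, ContinuousLinearMap.mul_def, ContinuousLinearMap.comp_assoc,
      e.ρ', ← ContinuousLinearMap.comp_assoc, e.ρ', ContinuousLinearMap.comp_assoc]
  have h2 : (o'.m.J * o'.m.p x) ∘L u x = u x ∘L (o.m.J * o.m.p x) := by
    rw [o.ok.Jp, ContinuousLinearMap.mul_def, ContinuousLinearMap.mul_def,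
      ContinuousLinearMap.comp_assoc, e.pu o.ok, ← ContinuousLinearMap.comp_assoc, e.up o.ok, e.J]
  rw [(h.mix t ht).D]
  simp only [W_apply, Fam.W0, th, ContinuousLinearMap.add_comp, ContinuousLinearMap.comp_add,
    ContinuousLinearMap.finsetSum_comp, ContinuousLinearMap.comp_finsetSum,
    ContinuousLinearMap.smul_comp, ContinuousLinearMap.comp_smul, h1, h2, smul_add, smul_sub,
    Finset.sum_add_distrib, Finset.sum_sub_distrib]
  abel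

theorem th_proj {t : T} {α : M → Fm ι o.m.A} {α' : M → Fm ι o'.m.A} (u : M → CL o.m.V o'.m.V)
    (hα : o.P1 x (α x) = α x) (hα' : o'.P1 x (α' x) = α' x) (a : ι) :
    ∑ b, 𝔉.B.P a b x • th o o' t α α' u b x = th o o' t α α' u a x := by
  have h1 : ∑ b, 𝔉.B.P a b x • 𝔉.F0.D b u x = 𝔉.F0.D a u x :=
    h.P0 ▸ (Wz78.frm 𝔉.F0).projD a u x
  have h2 : ∀ {o : Ref 𝔉} {α : M → Fm ι o.m.A}, o.P1 x (α x) = α x →
      ∑ b, 𝔉.B.P a b x • (o.A t b x + opL (α x b)) = o.A t a x + opL (α x a) := fun {o α} hα => by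
    rw [← idx_sum hα a, ← (o.connA h.B t).cc.proj a x]
    simp only [smul_add, Finset.sum_add_distrib, map_sum, map_smul]
  rw [th, ← h1, ← h2 hα, ← h2 hα']
  simp only [th, smul_add, smul_sub, Finset.sum_add_distrib, Finset.sum_sub_distrib,
    ContinuousLinearMap.add_comp, ContinuousLinearMap.comp_add,
    ContinuousLinearMap.finsetSum_comp, ContinuousLinearMap.comp_finsetSum,
    ContinuousLinearMap.smul_comp, ContinuousLinearMap.comp_smul]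

/-- being parallel does not depend on the parameter -/
theorem par_iff {y : Pnt o r} {y' : Pnt o' r} (e : y'.t = y.t) {u : M → CL o.m.V o'.m.V}
    (hu : ∀ x ∈ 𝔉.Om, MX o o' x (u x)) :
    Par (𝔉.G y.t).F y.cfg.W y'.cfg.W 𝔉.Om id (fun x b a => 𝔉.B.P b a x) u ↔
      ∀ x ∈ 𝔉.Om, ∀ a, th o o' y.t y.α y'.α u a x = 0 := by
  have h1 : ∀ x ∈ 𝔉.Om, ∀ a, (𝔉.G y.t).F.D a u x +
      (∑ b, 𝔉.B.P b a x • o'.W y'.t y'.α b x) ∘L u x - u x ∘L o.W y.t y.α a x =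
        ∑ b, 𝔉.S y.t x a b • th o o' y.t y.α y'.α u b x := fun x hx a => by
    have h2 : ∑ b, 𝔉.B.P a b x • o'.W y'.t y'.α b x = o'.W y'.t y'.α a x :=
      (y'.ad0 h).conn.cc.proj a x
    simp only [fun b => (h.B.pr x).symm b a]
    rw [h2, ← th_W h y.ht _ _ (hu x hx), e]
  refine ⟨fun k x hx a => ?_, fun k x hx a => ?_⟩
  · have h3 : ∀ c, ∑ b, 𝔉.S y.t x c b • th o o' y.t y.α y'.α u b x = 0 := fun c =>
      (h1 x hx c).symm.trans (k x hx c)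
    rw [← th_proj h u (y.pα h x) (y'.pα h x)]
    simp only [← h.SiS y.t y.ht, Finset.sum_smul, mul_smul]
    rw [Finset.sum_comm]
    simp only [← Finset.smul_sum, h3, smul_zero, Finset.sum_const_zero]
  · have h3 := h1 x hx a
    simp only [k x hx, smul_zero, Finset.sum_const_zero] at h3
    exact h3

/-- parallel isomorphisms are bounded with all derivatives -/
theorem cb_of_th {t : T} {y : Pnt o r} {y' : Pnt o' r} {u : M → CL o.m.V o'.m.V}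
    (hs : ContMDiffOn I 𝓘(ℝ, CL o.m.V o'.m.V) 1 u 𝔉.Om) (hu : ∀ x ∈ 𝔉.Om, MX o o' x (u x))
    (e : ∀ x ∈ 𝔉.Om, ∀ a, th o o' t y.α y'.α u a x = 0) : 𝔉.F0.Cb (𝔉.Om.indicator u) := by
  have h1 : ∀ {o : Ref 𝔉} (y : Pnt o r) a, 𝔉.F0.Cb fun x => o.A t a x + opL (y.α x a) :=
    fun {o} y a => Cb_add (o.cAt t a) (Cb_clm (opL ∘L pj o.m.A a) (y.cα h))
  refine cb_ind_of_ode (L := fun a x =>
    (ContinuousLinearMap.compL ℝ o.m.V o.m.V o'.m.V).flip (o.A t a x + opL (y.α x a)) -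
      ContinuousLinearMap.compL ℝ o.m.V o'.m.V o'.m.V (o'.A t a x + opL (y'.α x a))) h.Om hs
    (fun x hx a => ?_) (fun a => Cb_sub (Cb_clm _ (h1 y a)) (Cb_clm _ (h1 y' a)))
    fun x hx => (hu x hx).norm_le
  exact eq_sub_of_add_eq (sub_eq_zero.1 (e x hx a))

/-- a bounded isomorphism of the modules over `Om` -/
structure MI (o o' : Ref 𝔉) (w : M → CL o.m.V o'.m.V) : Prop where
  me : ∀ x ∈ 𝔉.Om, MX o o' x (w x)
  cb : 𝔉.F0.Cb (𝔉.Om.indicator w)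

theorem MI.symm {w : M → CL o.m.V o'.m.V} (e : MI o o' w) : MI o' o fun x => trn (w x) :=
  ⟨fun x hx => (e.me x hx).symm' h, by
    have : (𝔉.Om.indicator fun x => trn (w x)) = fun x => trnL (𝔉.Om.indicator w x) :=
      funext fun x => by by_cases hx : x ∈ 𝔉.Om <;> simp [hx]; rfl
    rw [this]; exact Cb_clm _ e.cb⟩

theorem MI.meq {w : M → CL o.m.V o'.m.V} (e : MI o o' w) :
    MEq I o.m o'.m 𝔉.Om id (fun x b a => 𝔉.B.P b a x) 𝔉.B.l w :=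
  ⟨fun x hx => ((Cb.sm e.cb x).congr_of_eventuallyEq (ind_ev h.Om.2 hx w).symm).contMDiffWithinAt,
    fun x hx => (e.me x hx).uu, fun x hx => (e.me x hx).uu', fun x hx => (e.me x hx).J,
    fun x hx => (e.me x hx).ρ, fun x hx => (e.me x hx).j⟩

variable {y : Pnt o r} {y' : Pnt o' r} {y'' : Pnt o'' r} {w : M → CL o.m.V o'.m.V}
  {w' : M → CL o'.m.V o''.m.V} {c c' : Circle}

theorem Pnt.Eq.th (e : y.Eq y' w c) (ht : y'.t = y.t) :
    ∀ x ∈ 𝔉.Om, ∀ a, th o o' y.t y.α y'.α w a x = 0 :=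
  (par_iff h ht fun _ hx => me_of_meq e.m hx).1 e.W

theorem Pnt.Eq.mi (e : y.Eq y' w c) (ht : y'.t = y.t) : MI o o' w :=
  ⟨fun _ hx => me_of_meq e.m hx,
    cb_of_th h (e.m.su.of_le (by simp)) (fun _ hx => me_of_meq e.m hx) (e.th h ht)⟩

theorem Pnt.Eq.Φ' (e : y.Eq y' w c) (x : M) :
    o'.Φ0 x + y'.φ x = cs o'.m.J c (w x (o.Φ0 x + y.φ x)) := by
  by_cases hx : x ∈ 𝔉.Om
  · exact e.Φ x hx
  · have h1 : o.Φ0 x + y.φ x = 0 := y.off h x fun k => hx (h.sub k)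
    have h2 : o'.Φ0 x + y'.φ x = 0 := y'.off h x fun k => hx (h.sub k)
    simp [h1, h2, cs]

theorem Pnt.eq_refl (y : Pnt o r) : y.Eq y o.m.p 1 :=
  ceq_refl h.B (h.G _ y.ht) (y.ad0 h) h.Om.2

theorem Pnt.Eq.symm (e : y.Eq y' w c) (ht : y'.t = y.t) : y'.Eq y (fun x => trn (w x)) c⁻¹ := by
  have := ceq_symm_id h.B (h.G _ y.ht) h.Om.2 (y.ad0 h) (ht ▸ y'.ad0 h) e
  rwa [← ht] at this

theorem Pnt.Eq.trans (e : y.Eq y' w c) (ht : y'.t = y.t) (e' : y'.Eq y'' w' c')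
    (ht' : y''.t = y'.t) : y.Eq y'' (fun x => w' x ∘L w x) (c' * c) :=
  ceq_trans_id h.B (h.G _ y.ht) h.Om.2 (y.ad0 h) (ht ▸ y'.ad0 h) (ht ▸ ht' ▸ y''.ad0 h) e
    (ht ▸ e')

omit h in
theorem Pnt.Eq.congr (e : y.Eq y' w c) (hO : IsOpen 𝔉.Om) {w₁ : M → CL o.m.V o'.m.V}
    (k : ∀ x ∈ 𝔉.Om, w₁ x = w x) : y.Eq y' w₁ c :=
  ⟨⟨e.m.su.congr k, fun x hx => k x hx ▸ e.m.uu x hx, fun x hx => k x hx ▸ e.m.uu' x hx,
    fun x hx => k x hx ▸ e.m.J x hx, fun x hx => k x hx ▸ e.m.ρ x hx,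
    fun x hx => k x hx ▸ e.m.j x hx⟩, fun x hx a => by
      have h1 : (𝔉.G y.t).F.D a w₁ x = (𝔉.G y.t).F.D a w x :=
        dv_congr (mem_of_superset (hO.mem_nhds hx) k)
      have h2 : (𝔉.G y.t).F.D a w x + (∑ b, 𝔉.B.P b a x • o'.W y'.t y'.α b x) ∘L w x -
        w x ∘L o.W y.t y.α a x = 0 := e.W x hx a
      rw [← k x hx, ← h1] at h2
      exact h2, fun x hx => k x hx ▸ e.Φ x hx, e.z⟩

/-- the equivalence from its components -/
theorem eq_of_th (e : MI o o' w) (ht : y'.t = y.t)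
    (h1 : ∀ x ∈ 𝔉.Om, ∀ a, th o o' y.t y.α y'.α w a x = 0)
    (h2 : ∀ x ∈ 𝔉.Om, o'.Φ0 x + y'.φ x = cs o'.m.J c (w x (o.Φ0 x + y.φ x)))
    (h3 : y'.z = ((c : ℂ) ^ 2) • y.z) : y.Eq y' w c :=
  ⟨e.meq h, (par_iff h ht e.me).2 h1, h2, h3⟩

namespace GrpM
variable {Al : (M → CL o.m.V o.m.V) → Circle → Prop} (Γ : GrpM o r k Al) {g : Γ.G}
  {y y' : Pnt o r} {w : M → CL o.m.V o.m.V}

omit h in
theorem mx (g : Γ.G) (hx : x ∈ 𝔉.Om) : MX o o x (Γ.u g x) :=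
  mx_of (Γ.uu g x hx).1 (Γ.uu g x hx).2 (Γ.cJ g x hx) (Γ.cρ g x hx) (Γ.cj g x hx)

omit h in
theorem u_one (hx : x ∈ 𝔉.Om) : Γ.u 1 x = o.m.p x := by
  have h1 := Γ.umul 1 1 x hx
  rw [one_mul] at h1
  rw [← (Γ.uu 1 x hx).1]
  conv_rhs => rw [show trn (Γ.u 1 x) ∘L Γ.u 1 x = trn (Γ.u 1 x) ∘L (Γ.u 1 x ∘L Γ.u 1 x) by
    rw [← h1], ← ContinuousLinearMap.comp_assoc, (Γ.uu 1 x hx).1, (Γ.mx 1 hx).pu o.ok]

omit h in
theorem ζ_one : Γ.ζ 1 = 1 := by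
  have h1 := Γ.ζmul 1 1
  rw [one_mul] at h1
  exact left_eq_mul.1 h1

omit h in
theorem t_smul (g : Γ.G) (v : o.C r k) : (g • v).2.2.2 = v.2.2.2 := by rw [Γ.az]

omit h in
theorem inv_U : Slc61.Inv Γ.G (o.U r k) := fun g v hv => by
  rwa [Ref.U, mem_ofPred_eq, Γ.t_smul]

omit h in
theorem t_eq (e : g • y.pt k = y'.pt k) : y'.t = y.t :=
  (congrArg (·.2.2.2) e).symm.trans (Γ.t_smul g _)

/-- an element of the group between smooth points is a smooth equivalence -/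
theorem eq_of_smul (hk : 3 ≤ k) (e : g • y.pt k = y'.pt k) : y.Eq y' (Γ.u g) (Γ.ζ g) := by
  have h1 : ∀ x ∈ 𝔉.Om, ∀ a, th o o y.t y.α y'.α (Γ.u g) a x = 0 := fun x hx a => by
    have := Γ.aα g (y.pt k) x hx a
    rwa [e, y.val_α hk, y'.val_α hk] at this
  refine eq_of_th h ⟨fun _ => Γ.mx g, cb_of_th h (Γ.c1 g) (fun _ => Γ.mx g) h1⟩ (Γ.t_eq e) h1
    (fun x _ => ?_) ((congrArg (·.2.2.1) e).symm.trans (congrArg Prod.fst (Γ.az g _)))
  have := Γ.aφ g (y.pt k) x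
  rwa [e, y.val_φ hk, y'.val_φ hk] at this

theorem smul_of_eq (hk : 3 ≤ k) (e : y.Eq y' w c) (ht : y'.t = y.t)
    (hu : ∀ x ∈ 𝔉.Om, Γ.u g x = w x) (hζ : Γ.ζ g = c) : g • y.pt k = y'.pt k := by
  have e1 := e.congr h.Om.2 hu
  refine C_ext h hk (funext fun x => ?_) (funext fun x => ?_) ?_
  · have h1 := val_proj h.sup (k := k + 1) (by omega) (g • y.pt k).1 x
    rw [y'.val_α hk]
    by_cases hx : x ∈ 𝔉.Om
    · ext1 a
      refine (Γ.mx g hx).cancel (idx_mem h1 a) (idx_mem (y'.pα h x) a) ?_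
      have h2 := Γ.aα g (y.pt k) x hx a
      rw [show (y.pt k).2.2.2 = y.t from rfl, y.val_α hk, ← e1.th h ht x hx a, th, sub_left_inj, add_right_inj,
        ContinuousLinearMap.add_comp, ContinuousLinearMap.add_comp, add_right_inj] at h2
      exact h2
    · rw [idx_off h1 hx, idx_off (y'.pα h x) hx]
  · have h2 := Γ.aφ g (y.pt k) x
    rw [y.val_φ hk, hζ, ← e1.Φ' h x, add_right_inj] at h2
    rw [y'.val_φ hk, h2]
  · rw [Γ.az, hζ]
    exact Prod.ext e.z.symm ht.symm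

end GrpM

end Crest.Agent.X212.Mod61
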