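import Crest.Agent.X212.Mod61.Cls
import Crest.Agent.X212.Wrd81.Pw
import Crest.Agent.X212.Eq82.Wcv

/-! Closed families: density, observables, convergence. -/

set_option autoImplicit false
set_option linter.unusedSectionVars false
noncomputable section
open scoped Manifold ContDiff Topology InnerProductSpace
open MeasureTheory Set Function Filter

namespace Crest.Agent.X212.Mod61
open An Prm93 Eqv71 Sob92 Wrd81
open Eq82 (Wt wq Vz Uc Ob ob SLim)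

variable {E : Type} [NormedAddCommGroup E] [NormedSpace ℝ E] [FiniteDimensional ℝ E]
  [MeasurableSpace E] [BorelSpace E]
  {HM : Type} [TopologicalSpace HM] {I : ModelWithCorners ℝ E HM} [I.Boundaryless]
  {M : Type} [TopologicalSpace M] [ChartedSpace HM M] [IsManifold I ∞ M]
  [MeasurableSpace M] [T2Space M] [BorelSpace M] [SecondCountableTopology M] [CompactSpace M]
  {ι : Type} [Fintype ι] [DecidableEq ι] {lam : Type} [Fintype lam]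
  {T : Type} [NormedAddCommGroup T] [NormedSpace ℝ T] [FiniteDimensional ℝ T]
  {𝔉 : Fam I M ι lam T} {r n m k : ℕ}

section ob
variable (h : 𝔉.OK) {o : Ref 𝔉} [o.B0] (y₀ : Pnt o r)
include h

theorem uc_val {V : Type} [NormedAddCommGroup V] [InnerProductSpace ℝ V] [CompleteSpace V]
    {p : M → V →L[ℝ] V} {f : o.C r 7 → 𝔉.F0.H 8 p} (hf : ContinuousOn f (o.U r 7)) :
    Uc (comap (Pnt.pt 7) (𝓝 (y₀.pt 7))) (fun y : Pnt o r => 𝔉.F0.val 8 p (f (y.pt 7)))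
      (𝔉.F0.val 8 p (f (y₀.pt 7))) :=
  ⟨fun _ => continuous_val h.sup (by omega) _, continuous_val h.sup (by omega) _,
    tendstoUniformly_val h.sup (by omega)
      ((hf.continuousAt ((isOpen_U h).mem_nhds y₀.mem_U)).tendsto.comp tendsto_comap)⟩

theorem uc_aw {ξ : AW M} (hξ : ξ.OK 𝔉.F0) : Uc (comap (Pnt.pt 7) (𝓝 (y₀.pt 7)))
    (fun y : Pnt o r => y.cfg.aw (𝔉.G y.t).F ξ) (y₀.cfg.aw (𝔉.G y₀.t).F ξ) := by
  have H := (((Mon62.hy_compact h o).cfOK (k := 7) (hk := by omega) le_rfl y₀).aw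
    (Mon62.Dm.awU fun _ => hξ)).pure_compact (ε' := True) (by omega)
  obtain ⟨f, f1, f2⟩ := Mon62.out_dm (h := h) (hk := show 3 ≤ 7 by omega) (y₀ := y₀) (j := 8)
    (by omega) (q := fun _ => .id ℝ o.m.A)
    (w := (Mon62.cf h (show 3 ≤ 7 by omega) y₀).aw ξ ()) (Cb_const _) (fun _ _ => rfl) H
  have e : ∀ y : Pnt o r, y.cfg.aw (𝔉.G y.t).F ξ = _ := fun y => funext fun x => (f2 y x).symm
  simp only [e]
  exact uc_val h y₀ f1.continuousOn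

theorem uc_Φ : Uc (comap (Pnt.pt 7) (𝓝 (y₀.pt 7))) (fun y : Pnt o r => o.Φ0 + y.φ)
    (o.Φ0 + y₀.φ) := by
  have := uc_val h y₀ (f := fun v => v.2.1) (by fun_prop)
  simp only [Pnt.val_φ _ (show 3 ≤ 7 by omega)] at this
  have c := (Cb.sm o.cΦ).continuous
  exact ⟨fun y => c.add (this.1 y), c.add this.2.1,
    (Metric.tendstoUniformly_iff.2 fun ε hε => (Metric.tendstoUniformly_iff.1 this.2.2 ε hε).mono
      fun y hy x => by simpa using hy x)⟩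

theorem uc_int {V : Type} [NormedAddCommGroup V] [InnerProductSpace ℝ V]
    {u v : Pnt o r → M → V} (hu : Uc (comap (Pnt.pt 7) (𝓝 (y₀.pt 7))) u (u y₀))
    (hv : Uc (comap (Pnt.pt 7) (𝓝 (y₀.pt 7))) v (v y₀)) :
    Tendsto (fun y => ∫ x, ⟪u y x, v y x⟫_ℝ ∂(𝔉.G y.t).F.μ) (comap (Pnt.pt 7) (𝓝 (y₀.pt 7)))
      (𝓝 (∫ x, ⟪u y₀ x, v y₀ x⟫_ℝ ∂(𝔉.G y₀.t).F.μ)) := by
  obtain ⟨g, g1, g2⟩ := h.dens
  have c : ∀ y : Pnt o r, Continuous (g y.t) := fun y => (Cb.sm (g1.cb _ y.ht)).continuous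
  have e : ∀ (y : Pnt o r) (f : M → ℝ), ∫ x, f x ∂(𝔉.G y.t).F.μ = ∫ x, g y.t x * f x ∂𝔉.F0.μ :=
    fun y f => by
      rw [(g2 _ y.ht).2, integral_withDensity_eq_integral_toReal_smul
        (c y).measurable.ennreal_ofReal (.of_forall fun _ => ENNReal.ofReal_lt_top)]
      simp only [fun x => ENNReal.toReal_ofReal ((g2 _ y.ht).1 x).le, smul_eq_mul]
  let cm := fun {W : Type} [TopologicalSpace W] {a : Pnt o r → M → W} (k : ∀ y, Continuous (a y))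
    (y : Pnt o r) => (⟨a y, k y⟩ : C(M, W))
  have t0 : Tendsto (fun y : Pnt o r => y.t) (comap (Pnt.pt 7) (𝓝 (y₀.pt 7))) (𝓝 y₀.t) :=
    ((Map77.tC o r 7).continuous.tendsto _).comp tendsto_comap
  have : (comap (Pnt.pt 7) (𝓝 (y₀.pt 7))).NeBot :=
    comap_neBot fun _ hs => ⟨y₀, mem_of_mem_nhds hs⟩
  have t1 : Tendsto (cm c) _ (𝓝 (cm c y₀)) := ContinuousMap.tendsto_iff_tendstoUniformly.2
    (Metric.tendstoUniformly_iff.2 fun ε hε => ((sb_cv h.opn y₀.ht t0 g1).unif isOpen_univ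
      isCompact_univ subset_rfl hε).mono fun i hi x => by
        simpa [dist_eq_norm', cm] using hi x trivial)
  have t2 : ∀ {u : Pnt o r → M → V} (hu : Uc (comap (Pnt.pt 7) (𝓝 (y₀.pt 7))) u (u y₀)),
      Tendsto (cm hu.1) (comap (Pnt.pt 7) (𝓝 (y₀.pt 7))) (𝓝 (cm hu.1 y₀)) :=
    fun hu => ContinuousMap.tendsto_iff_tendstoUniformly.2 hu.2.2
  have k := continuousOn_integral_of_compact_support (μ := 𝔉.F0.μ) (s := univ)
    (f := fun (p : C(M, ℝ) × C(M, V) × C(M, V)) x => p.1 x * ⟪p.2.1 x, p.2.2 x⟫_ℝ) isCompact_univ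
    (Continuous.continuousOn (by unfold uncurry; fun_prop)) fun _ _ _ h => (h trivial).elim
  simp only [e]
  exact ((continuousOn_univ.1 k).tendsto _).comp (t1.prodMk_nhds ((t2 hu).prodMk_nhds (t2 hv)))

theorem tendsto_ob {F₀ : Fr I M ι} (a : Ob F₀) : Tendsto (fun y : Pnt o r => ob (𝔉.G y.t).F y.cfg a)
    (comap (Pnt.pt 7) (𝓝 (y₀.pt 7))) (𝓝 (ob (𝔉.G y₀.t).F y₀.cfg a)) := by
  rcases a with _ | a
  · have := uc_int h y₀ (uc_Φ h y₀) (uc_Φ h y₀)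
    simp only [real_inner_self_eq_norm_sq] at this
    exact this
  · exact uc_int h y₀ (uc_aw h y₀ (aw_cpt _ a.1.2)) (uc_aw h y₀ (aw_cpt _ a.2.2))

end ob

theorem der_nrm {z : EuclideanSpace ℂ (Fin r)} (hz : ‖z‖ = 1) (ρ : Fin 1 → ℝ) :
    HasDerivAt (fun (s : ℝ) (_ : Fin 1) => ‖z + s • (ρ 0 / 2) • z‖ ^ 2 - 1) ρ 0 := by
  refine hasDerivAt_pi.2 fun i => ?_
  have e : ∀ s : ℝ, ‖z + s • (ρ 0 / 2) • z‖ ^ 2 - 1 = (1 + s * (ρ 0 / 2)) ^ 2 - 1 := fun s => by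
    rw [smul_smul, ← one_smul ℝ z, smul_smul, ← add_smul, norm_smul, hz, mul_one, mul_one,
      Real.norm_eq_abs, sq_abs]
  simp only [e, Subsingleton.elim i 0]
  convert ((((hasDerivAt_id' (0 : ℝ)).mul_const (ρ 0 / 2)).const_add 1).pow 2).sub_const 1 using 1
  simp
  ring

theorem dn_univ [ConnectedSpace M] (h : 𝔉.OK) {o : Ref 𝔉} [o.B0] {y : Pnt o r} (h0 : y.cfg.Φ ≠ 0)
    {j : Fin r} (hj : y.z j ≠ 0) {N : Submodule ℝ (o.Y n m k)}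
    (av : ∀ w : Tm M lam r n, TmIn I univ w → Vz w → Av N y w) : Dn univ N := by
  obtain ⟨x₀, hx₀⟩ := ne_iff.1 h0
  have p := pc h y isClopen_univ isOpen_univ (by simp)
  obtain ⟨π, sp⟩ := p.exists_sp
  have n0 := sp.ne_zero (fun _ _ => ⟨x₀, by simp, hx₀⟩) isClopen_univ
  refine ⟨fun u a _ c => Ap.mono ?_ (sp.ap_D (P := fun w : Tm M lam r n => Vz w ∧
      y.cfg.tC 𝔉.B (𝔉.G y.t).F w = 0 ∧ y.cfg.tS (𝔉.G y.t).F w = 0) p n0 (d := .z j) trivial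
      hj (fun _ => ⟨trivial, rfl, rfl⟩) (fun _ _ => ⟨trivial, rfl, rfl⟩) a.1 a.2.1 (by simp) c),
    fun u a _ c => Ap.mono ?_ (sp.ap_C (P := fun w : Tm M lam r n => Vz w ∧
      y.cfg.tD 𝔉.B (𝔉.G y.t).F w = 0 ∧ y.cfg.tS (𝔉.G y.t).F w = 0) p n0 (d := .z j) trivial
      hj (fun _ _ _ _ _ => ⟨⟨_, _, rfl⟩, rfl, rfl⟩) (fun _ _ _ _ _ => ⟨trivial, rfl, rfl⟩) a.1 a.2.1
      (by simp) c)⟩
  · rintro _ ⟨w, t1, ⟨t2, t3, t4⟩, rfl⟩
    have := av w t1 t2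
    rw [Av, t3, t4] at this
    exact ⟨Mon62.pm_tD h y _ w, this⟩
  · rintro _ ⟨w, t1, ⟨t2, t3, t4⟩, rfl⟩
    have := av w t1 t2
    rw [Av, t3, t4] at this
    exact ⟨Mon62.p2_tC h y _ w, this⟩

namespace CD
variable {τ : T → Pt M ι lam r n} {β : T → ℝ} {κ : ℝ} {d : ℤ} (h : CD 𝔉 τ β κ d) {F₀ : Fr I M ι}

theorem obs (a : Ob F₀) (x₀ : (h.th F₀).X) :
    Tendsto (fun x : (h.th F₀).X => ob (𝔉.G x.2.t).F x.2.cfg a) ((h.ok F₀).Q.Near x₀)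
      (𝓝 (ob (𝔉.G x₀.2.t).F x₀.2.cfg a)) := fun V hV => by
  obtain ⟨N, hN, k⟩ := mem_comap.1 (tendsto_ob h.toOK x₀.2 a hV)
  refine mem_map.2 (mem_of_superset ((h.ok F₀).Q.tube_mem hN) ?_)
  rintro x ⟨y, h1, h2⟩
  obtain ⟨ht, e⟩ := h.eqv_iff.1 h2
  have : ob (𝔉.G y.t).F y.cfg a ∈ V := k h1
  change ob (𝔉.G x.2.t).F x.2.cfg a ∈ V
  rwa [ob_iso h.B (h.hG _) (x.2.ad0 h.toOK) (ht ▸ y.ad0 h.toOK) e, ← ht]

theorem exists_x {t : T} {c : Cfg M ι lam r} (a : Adm0 c 𝔉.B (𝔉.G t)) :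
    ∃ x : (h.th F₀).X, x.2.t = t ∧ x.2.α = 0 ∧ x.2.cfg = c :=
  let ⟨o, y, h1, h2, k⟩ := h.exists_ref a
  ⟨⟨⟨o, h1, h2⟩, y⟩, k⟩

theorem near {α : Type} {l : Filter α} {u : α → (h.th F₀).X} {x₀ : (h.th F₀).X}
    {c₀ : Cfg M ι lam r} (hu : ∀ᶠ i in l, (h.th F₀).In (u i)) (i₀ : (h.th F₀).In x₀)
    (a : c₀.Adm 𝔉.B (𝔉.G x₀.2.t)) (e : Cfg.Iso 𝔉.B (𝔉.G x₀.2.t).F c₀ x₀.2.cfg)
    (ht : Tendsto (fun i => (u i).2.t) l (𝓝 x₀.2.t))
    (s : SLim 𝔉.B l (fun i => 𝔉.G (u i).2.t) (fun i => (u i).2.cfg) c₀) :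
    Tendsto u l ((h.ok F₀).Q.Near x₀) := by
  classical
  rcases l.eq_or_neBot with rfl | _
  · exact tendsto_bot
  obtain ⟨x₁, h1, h2, rfl⟩ := h.exists_x (F₀ := F₀) (Eq82.adm0 a)
  obtain ⟨W, Φ, z, s1, s2, s3, s4⟩ := s
  have e1 : (h.th F₀).Eqv x₁ x₀ := h.eqv_iff.2 ⟨h1.symm, h1 ▸ e⟩
  have i₁ := (h.ok F₀).in_eqv ((h.ok F₀).toGpd.equiv.symm e1) i₀
  refine Tendsto.mono_right ?_ ((h.ok F₀).ax.near_le i₁ e1)
  have k : ∀ i, ∃ y : Pnt x₁.1.1 r, Cfg.Adm ⟨x₁.1.1.m, W i, Φ i, z i⟩ 𝔉.B (𝔉.G (u i).2.t) → _ :=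
    fun i => (em _).elim (fun b => (h.exists_crd x₁.1.2.1 (Eq82.adm0 b)).imp fun _ k _ => k)
      fun b => ⟨x₁.2, fun b' => (b b').elim⟩
  choose y hy using k
  have hy := s1.mono fun i b => hy i b.1
  refine (h.ok F₀).Q.tendsto_near_of (x₀ := x₁) y (h.tendsto_crd (h.ok F₀).k3 h2 (W := W)
    ((h1 ▸ ht).congr' (hy.mono fun i b => b.1.symm)) (s4.congr' (hy.mono fun i b => b.2.2.1.symm))
    (s3.congr' isOpen_univ (hy.mono fun i b x _ => congrFun b.2.1 x) fun x _ => by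
      simp [Pnt.cfg, x₁.1.2.1]) s2 (hy.mono fun i b => b.1 ▸ b.2.2.2.1)) ?_
  filter_upwards [hu, s1, hy] with i b1 b2 b3
  have b4 := b3.1 ▸ h.adm (y := y i) (b3.2.2.1 ▸ b2.1.z.resolve_left h.hr)
  exact h.eqv_iff.2 ⟨b3.1, Eq82.iso_trans h.B (h.hG _) (h.adm b1.2.1) b2.1 b4 b2.2
    (Eq82.iso_symm h.B (h.hG _) b4 b2.1 b3.2.2.2.2)⟩

theorem onto [ConnectedSpace M] {q : Wt lam r n F₀ →₀ ℝ} {x : (h.th F₀).X}
    (hx : (h.ok F₀).Q.Sol q x) (hβ : β x.2.t ≠ 0) : ∃ J, (h.ok F₀).Q.Onto q x J := by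
  obtain ⟨s, -, h0⟩ := (h.sol_iff q).1 hx
  have hz : ‖x.2.z‖ = 1 := s.z.resolve_left h.hr
  obtain ⟨j, hj⟩ : ∃ j, x.2.z j ≠ 0 := by
    by_contra! k
    simp [show x.2.z = 0 from PiLp.ext k] at hz
  refine (h.ok F₀).onto trivial hx fun N hN hA hT => ?_
  have av : ∀ w : Tm M lam r n, TmIn I univ w → Vz w → Av N x.2 w := fun w h1 h2 =>
    Val.of_rep (hT ⟨w, h1.ok F₀, h2⟩) (neg_ne_zero.2 hβ)
      (fun _ _ => by simp [Mon62.wptX, wpt, -neg_smul]; rfl)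
      (fun _ _ => by simp [Mon62.wptX, wpt, -neg_smul]; rfl)
      (funext fun _ => by simp [Mon62.wptX, wpt]) (funext fun _ => by simp [Mon62.wptX])
  refine Dn.top h.toOK (dn_univ h.toOK h0 hj av) hN (h.ok F₀).k4
    (rows_cz hj fun i w => av _ trivial trivial) fun ρ => ⟨_, hA (0, 0, (ρ 0 / 2) • x.2.z, 0),
      row_z h.toOK (show 6 ≤ 7 by omega) ((h.ok F₀).repF x.1 q) (φ := fun z _ => ‖z‖ ^ 2 - 1)
        (fun y => h.tot_R q _ _) (der_nrm hz ρ)⟩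

end CD

end Crest.Agent.X212.Mod61
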