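import Crest.Agent.X212.Mod61.Tr

/-! Free points: a model free definition, equivalent to `GrpM.Free`, invariant and open. -/

set_option autoImplicit false
set_option linter.unusedSectionVars false
noncomputable section
open scoped Manifold ContDiff Topology InnerProductSpace
open MeasureTheory Set Function Filter

namespace Crest.Agent.X212.Mod61
open An Prm93 Eqv71 Sob92

/-- freeness modulo elements acting trivially is an open condition -/
theorem free_eventually {G : Type*} [Group G] [TopologicalSpace G] [IsTopologicalGroup G]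
    {C L H : Type*} [NormedAddCommGroup C] [NormedSpace ℝ C] [CompleteSpace C] [MulAction G C]
    [ContinuousSMul G C] [NormedAddCommGroup L] [NormedSpace ℝ L] [CompleteSpace L]
    [NormedAddCommGroup H] [NormedSpace ℝ H] [CompleteSpace H] {x₀ : C}
    (D : Slc61.SliceData G L H x₀) (hp : Grp76.PropAt G x₀ x₀)
    (hs : ∀ k : G, k • x₀ = x₀ → ∀ x : C, k • x = x) (hl : ∀ U ∈ 𝓝 (0 : L), D.e '' U ∈ 𝓝 (1 : G)) :
    ∀ᶠ v in 𝓝 x₀, ∀ g : G, g • v = v → ∀ x : C, g • x = x := by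
  let A : (L × C) ≃L[ℝ] (H × C) := ContinuousLinearEquiv.ofBijective D.th'
    (LinearMap.ker_eq_bot.2 D.th'_bij.1) (LinearMap.range_eq_top.2 D.th'_bij.2)
  have hA : HasStrictFDerivAt (fun q : L × C => (D.γ (D.e q.1 • q.2), q.2))
      (A : L × C →L[ℝ] H × C) (0, x₀) := D.hasStrict_th
  obtain ⟨U, hU, W, hW, hUW⟩ := mem_nhds_prod_iff.1
    ((hA.toOpenPartialHomeomorph _).open_source.mem_nhds hA.mem_toOpenPartialHomeomorph_source)
  by_contra hcon
  obtain ⟨x, hx, hx'⟩ := exists_seq_forall_of_frequently (not_eventually.1 hcon)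
  push Not at hx'
  choose g hg hne using hx'
  obtain ⟨φ, k, hφ, hk⟩ := hp x g hx (by simpa only [hg] using hx)
  have h0 : Tendsto (fun n => x (φ n)) atTop (𝓝 x₀) := hx.comp hφ.tendsto_atTop
  have h2 : k • x₀ = x₀ := tendsto_nhds_unique (hk.smul h0) (by simpa only [comp, hg] using h0)
  have h3 : Tendsto (fun n => g (φ n) * k⁻¹) atTop (𝓝 1) := by simpa using hk.mul_const k⁻¹
  obtain ⟨n, ⟨ξ, hξ, he⟩, hn⟩ := ((h3.eventually (hl U hU)).and (h0.eventually hW)).exists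
  have h4 : D.e ξ • x (φ n) = D.e 0 • x (φ n) := by
    rw [he, mul_smul, inv_smul_eq_iff.2 (hs k h2 _).symm, hg, D.e_zero, one_smul]
  have h5 := (hA.toOpenPartialHomeomorph _).injOn (hUW (mk_mem_prod hξ hn))
    (hUW (mk_mem_prod (mem_of_mem_nhds hU) hn)) (Prod.ext (congrArg D.γ h4) rfl)
  obtain ⟨y, hy⟩ := hne (φ n)
  rw [show ξ = 0 from (Prod.ext_iff.1 h5).1, D.e_zero, eq_mul_inv_iff_mul_eq, one_mul] at he
  exact hy (he ▸ hs k h2 y)

variable {E : Type} [NormedAddCommGroup E] [NormedSpace ℝ E] [FiniteDimensional ℝ E]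
  [MeasurableSpace E] [BorelSpace E]
  {HM : Type} [TopologicalSpace HM] {I : ModelWithCorners ℝ E HM} [I.Boundaryless]
  {M : Type} [TopologicalSpace M] [ChartedSpace HM M] [IsManifold I ∞ M]
  [MeasurableSpace M] [T2Space M] [BorelSpace M] [SecondCountableTopology M]
  {ι : Type} [Fintype ι] {lam : Type} [Fintype lam]
  {T : Type} [NormedAddCommGroup T] [NormedSpace ℝ T]
  {𝔉 : Fam I M ι lam T} (h : 𝔉.OK) {o o' o'' : Ref 𝔉} {r n m k j : ℕ} {x : M}

/-- automorphisms that act trivially on all configurations -/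
structure Triv (B : Base M ι lam) (O O' : Set M) (r : ℕ) (m : Md M ι lam) (w : M → CL m.V m.V)
    (c : Circle) : Prop where
  g : ∀ x ∈ O, ∀ ξ ∈ m.gS x, cj (w x) ξ = ξ
  s : ∀ x ∈ O', ∀ v, m.pp B x v = v → cs m.J c (w x v) = v
  z : ∀ z : EuclideanSpace ℂ (Fin r), (c : ℂ) ^ 2 • z = z

/-- every allowed automorphism is trivial -/
def Pnt.Free (Al : (M → CL o.m.V o.m.V) → Circle → Prop) (y : Pnt o r) : Prop :=
  ∀ w c, Al w c → y.Eq y w c → Triv 𝔉.B 𝔉.Om 𝔉.Om' r o.m w c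

theorem ind_idem {V : Type} [NormedAddCommGroup V] [NormedSpace ℝ V] {O : Set M}
    {p : M → V →L[ℝ] V} (hp : ∀ v, p x (p x v) = p x v) (v : V) :
    O.indicator p x (O.indicator p x v) = O.indicator p x v := by
  by_cases hx : x ∈ O <;> simp [hx, hp]

theorem Pg_idem (x : M) (ξ : o.m.A) : o.Pg x (o.Pg x ξ) = o.Pg x ξ := ind_idem (Std94.pg_pg x) ξ

theorem idx_idem {α : Type} [Fintype α] {S : α → α → ℝ} (hS : ∀ a c, ∑ b, S a b * S b c = S a c)
    (η : Fm α o.m.A) : idx S (o.Pg x) (idx S (o.Pg x) η) = idx S (o.Pg x) η := by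
  rw [idx_eq, ridx_ridx, funext fun a => funext (hS a),
    show o.Pg x ∘L o.Pg x = o.Pg x from ContinuousLinearMap.ext (Pg_idem x)]

include h

theorem P1_idem (x : M) (η : Fm ι o.m.A) : o.P1 x (o.P1 x η) = o.P1 x η :=
  idx_idem (h.B.pr x).idem η

theorem P2_idem (x : M) (η : Fm (ι × ι) o.m.A) : o.P2 x (o.P2 x η) = o.P2 x η :=
  idx_idem (Std94.sd_sd h.B x) η

theorem Pp_idem (x : M) (v : o.m.V) : o.Pp x (o.Pp x v) = o.Pp x v :=
  ind_idem (fun v => congrArg (fun T : En _ => T v) (Std94.pp_pp h.B (Std94.pmx o.ok x))) v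

theorem Pm_idem (x : M) (v : o.m.V) : o.Pm x (o.Pm x v) = o.Pm x v :=
  ind_idem (fun v => congrArg (fun T : En _ => T v) (Std94.pm_pm h.B (Std94.pmx o.ok x))) v

/-- test sections with a prescribed value -/
theorem exists_val {V : Type} [NormedAddCommGroup V] [InnerProductSpace ℝ V] [CompleteSpace V]
    {p : M → V →L[ℝ] V} (hp : 𝔉.F0.Cb p) (hi : ∀ x v, p x (p x v) = p x v) (hk : 4 ≤ k) {v : V}
    (hv : p x v = v) : ∃ e : 𝔉.F0.H k p, 𝔉.F0.val k p e x = v := by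
  obtain ⟨χ, h1, h2, -, h3⟩ := h.tame.choose_spec.exh {x} isCompact_singleton
  refine ⟨𝔉.F0.toH k p ⟨fun y => χ y • p y v, h1.1.smul ((Cb.sm hp).clm_apply contMDiff_const),
    h2.mono fun y hy e => hy (by simp [e]), fun y => by rw [map_smul, hi]⟩, ?_⟩
  rw [val_toH h.sup hk]
  simp [h3 x rfl, hv]

variable {w : M → CL o.m.V o'.m.V} {w' : M → CL o'.m.V o''.m.V} {c c' : Circle}

theorem ActC.unique (hk : 3 ≤ k) {A A' : o.C r k →L[ℝ] o'.C r k} (a : ActC A w c)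
    (a' : ActC A' w c) (v : o.C r k) : A v = A' v :=
  C_ext h hk (funext fun x => by ext1 s; rw [a.α, a'.α]) (funext fun x => by rw [a.φ, a'.φ])
    (by rw [a.z, a'.z])

theorem ActC.comp (hk : 3 ≤ k) {A : o.C r k →L[ℝ] o'.C r k} {A' : o'.C r k →L[ℝ] o''.C r k}
    (a' : ActC A' w' c') (a : ActC A w c) (e : ∀ x ∈ 𝔉.Om, MX o' o'' x (w' x)) :
    ActC (A' ∘L A) (fun x => w' x ∘L w x) (c' * c) := by
  refine ⟨fun v x s => ?_, fun v x => ?_, fun v => ?_⟩
  · rw [ContinuousLinearMap.comp_apply, a'.α, a.α, a.t, sub_add_cancel, cj_cj]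
  · rw [ContinuousLinearMap.comp_apply, a'.φ, a.φ]
    by_cases hx : x ∈ 𝔉.Om'
    · rw [← (e x (h.sub hx)).cs, cs_mul o''.ok.Jsq]; rfl
    · simp [ind_off (val_proj h.sup (k := k + 1) (by omega) v.2.1 x) hx, cs_zero]
  · rw [ContinuousLinearMap.comp_apply, a'.z, a.z, smul_smul, Circle.coe_mul, mul_pow]

theorem Triv.cj_eq {w : M → CL o.m.V o.m.V} (t : Triv 𝔉.B 𝔉.Om 𝔉.Om' r o.m w c) {η : Fm ι o.m.A}
    (hη : o.P1 x η = η) (a : ι) : cj (w x) (η a) = η a := by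
  by_cases hx : x ∈ 𝔉.Om
  · exact t.g x hx _ (idx_mem hη a)
  · simp [idx_off hη hx]

theorem Triv.mv {w : M → CL o.m.V o.m.V} (t : Triv 𝔉.B 𝔉.Om 𝔉.Om' r o.m w c) : Mv o o w :=
  fun s => by
  have : dB o o w s = 0 := funext fun x => by
    ext1 a
    rw [dB_apply, t.cj_eq h (b_P1 s x), sub_self]; rfl
  exact this ▸ zero_mem _

theorem Triv.actC (hk : 3 ≤ k) {w : M → CL o.m.V o.m.V} (t : Triv 𝔉.B 𝔉.Om 𝔉.Om' r o.m w c) :
    ActC (.id ℝ (o.C r k)) w c := by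
  have h4 : 4 ≤ k + 1 := by omega
  refine ⟨fun v x a => ?_, fun v x => ?_, fun v => by rw [t.z]; rfl⟩
  · rw [← PiLp.add_apply, t.cj_eq h (add_b (val_proj h.sup h4 v.1 x) _), PiLp.add_apply,
      add_sub_cancel_right]; rfl
  · have h1 := val_proj h.sup h4 v.2.1 x
    by_cases hx : x ∈ 𝔉.Om'
    · exact (t.s x hx _ (ind_fix h1)).symm
    · simp [ind_off h1 hx, cs_zero]

theorem ActC.triv_iff (hk : 3 ≤ k) {A : o.C r k →L[ℝ] o.C r k} {w : M → CL o.m.V o.m.V}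
    (a : ActC A w c) : Triv 𝔉.B 𝔉.Om 𝔉.Om' r o.m w c ↔ ∀ v, A v = v := by
  have h4 : 4 ≤ k + 1 := by omega
  refine ⟨fun t v => a.unique h hk (t.actC h hk) v,
    fun t => ⟨fun x hx ξ hξ => ?_, fun x hx v hv => ?_, fun z => ?_⟩⟩
  · obtain ⟨s, hs⟩ : ∃ s, 𝔉.B.P s s x ≠ 0 := by
      by_contra hc
      push Not at hc
      have := h.B.rk x
      simp [hc] at this
    obtain ⟨e, he⟩ := exists_val h (h.cP1 o) (P1_idem h) h4 (x := x)
      (v := WithLp.toLp 2 fun b => 𝔉.B.P b s x • ξ) (idx_of hx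
        (fun b => Submodule.smul_mem _ _ hξ) fun b => by
          simp only [smul_smul, ← Finset.sum_smul, (h.B.pr x).idem])
    have h1 := a.α (e, 0) x s
    rw [t, he] at h1
    simp only [Prod.snd_zero, map_zero, Pi.zero_apply, PiLp.zero_apply, add_zero, sub_zero] at h1
    exact smul_right_injective _ hs ((map_smul _ _ _).symm.trans h1.symm)
  · obtain ⟨e, he⟩ := exists_val h (h.cPp o) (Pp_idem h) h4 (x := x) (v := v)
      (by rwa [Ref.Pp, indicator_of_mem hx])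
    have h1 := a.φ (0, e, 0) x
    rw [t, he] at h1
    exact h1.symm
  · have h1 := a.z (0, 0, z, 0)
    rw [t] at h1
    exact (congrArg Prod.fst h1).symm

/-- a trivial automorphism of one point is an automorphism of all points -/
theorem Triv.eq_all {w : M → CL o.m.V o.m.V} (t : Triv 𝔉.B 𝔉.Om 𝔉.Om' r o.m w c) {y₀ : Pnt o r}
    (e : y₀.Eq y₀ w c) (y : Pnt o r) : y.Eq y w c := by
  obtain ⟨y', -, h2, h3⟩ := e.tr h rfl (t.mv h) y
  have := h3 3 le_rfl _ (t.actC h le_rfl)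
  rw [ContinuousLinearMap.id_apply, add_sub_cancel] at this
  exact Pnt.pt_inj le_rfl this ▸ h2

/-- triviality is invariant under conjugation -/
theorem Triv.conj (e : MI o o' w) {w' : M → CL o'.m.V o'.m.V} (e' : MI o' o' w')
    (t : Triv 𝔉.B 𝔉.Om 𝔉.Om' r o.m (fun x => trn (w x) ∘L w' x ∘L w x) (c⁻¹ * (c' * c))) :
    Triv 𝔉.B 𝔉.Om 𝔉.Om' r o'.m w' c' := by
  have b := e.symm h
  have hc : c⁻¹ * (c' * c) = c' := by rw [mul_comm c', inv_mul_cancel_left]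
  rw [hc] at t
  refine ⟨fun x hx ξ hξ => ?_, fun x hx v hv => ?_, t.z⟩
  · have h1 := fun ξ hξ => (b.me x hx).trn_cj (η := ξ) hξ
    simp only [trn_trn] at h1
    have h2 := congrArg (cj (w x)) (t.g x hx _ ((b.me x hx).cj_mem (BE.refl h.B x) o'.ok o.ok hξ))
    rwa [← cj_cj, ← cj_cj, h1 ξ hξ, h1 _ ((e'.me x hx).cj_mem (BE.refl h.B x) o'.ok o'.ok hξ)] at h2
  · have hx' := h.sub hx
    have h1 : ∀ a, w x (trn (w x) a) = o'.m.p x a := fun a =>
      congrArg (fun T : En _ => T a) (e.me x hx').uu'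
    have h2 : o'.m.p x v = v := by rw [← hv, p_pp o'.ok]
    have h3 := congrArg (w x) (t.s x hx (trn (w x) v) (by
      rw [(b.me x hx').pp (BE.refl h.B x) h.B h.B o'.ok, hv]))
    have h4 : ∀ a, o'.m.p x (w' x a) = w' x a := fun a =>
      congrArg (fun T : CL _ _ => T a) ((e'.me x hx').pu o'.ok)
    rwa [← (e.me x hx').cs, ContinuousLinearMap.comp_apply, ContinuousLinearMap.comp_apply, h1, h1, h2,
      h4] at h3

namespace GrpM
variable {Al : (M → CL o.m.V o.m.V) → Circle → Prop} (Γ : GrpM o r k Al) {y : Pnt o r}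

/-- the linear part of the action -/
theorem actC (hk : 3 ≤ k) (g : Γ.G) : ∃ A : o.C r k →L[ℝ] o.C r k, ActC A (Γ.u g) (Γ.ζ g) ∧
    ∀ v v', g • v = g • v' + A (v - v') := by
  obtain ⟨A, hA⟩ := Γ.aff g
  have h4 : 4 ≤ k + 1 := by omega
  have h0 : ∀ v, A v = g • v - g • (0 : o.C r k) := fun v => eq_sub_of_add_eq (hA v).symm
  refine ⟨A, ⟨fun v x a => ?_, fun v x => ?_, fun v => ?_⟩, fun v v' => by
    rw [hA v, hA v', map_sub]; abel⟩
  · have h1 := val_proj h.sup h4 (A v).1 x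
    have h2 := val_proj h.sup h4 v.1 x
    by_cases hx : x ∈ 𝔉.Om
    · have h5 := add_mem (idx_mem h2 a) (o.b_mem v.2.2.2 x a)
      refine eq_sub_of_add_eq ((Γ.mx g hx).cancel (add_mem (idx_mem h1 a) (o.b_mem _ x a))
        ((Γ.mx g hx).cj_mem (BE.refl h.B x) o.ok o.ok h5) ?_)
      have h3 := (Γ.aα g v x hx a).trans (Γ.aα g 0 x hx a).symm
      rw [(Γ.mx g hx).cj_comp h5, h0, Prod.fst_sub, val_sub, ← sub_eq_zero, ← sub_eq_zero.2 h3]
      simp only [Ref.A, Md.addC, Prod.fst_zero, Prod.snd_zero, val_zero, Pi.zero_apply,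
        PiLp.zero_apply, map_zero, add_zero, Pi.sub_apply, PiLp.sub_apply, map_sub, map_add,
        ContinuousLinearMap.sub_comp, ContinuousLinearMap.add_comp, ContinuousLinearMap.comp_add]
      abel
    · simp [idx_off h1 hx, idx_off h2 hx, idx_off (b_P1 v.2.2.2 x) hx]
  · have h1 := Γ.aφ g v x
    have h2 := Γ.aφ g 0 x
    rw [h0, Prod.snd_sub, Prod.fst_sub, val_sub, Pi.sub_apply, ← add_sub_add_left_eq_sub _ _
      (o.Φ0 x), h1, h2]
    simp only [← csL_apply, Prod.snd_zero, Prod.fst_zero, val_zero, Pi.zero_apply, map_add,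
      map_zero]
    abel
  · rw [h0, Prod.snd_sub, Prod.snd_sub, Γ.az, Γ.az]
    simp

theorem free_iff (hk : 3 ≤ k) : Γ.Free (y.pt k) ↔ y.Free Al := by
  refine ⟨fun f w c al e => ?_, fun f g e v => ?_⟩
  · obtain ⟨g, hu, hζ⟩ := Γ.surj y y w c rfl al e
    obtain ⟨A, a, hA⟩ := Γ.actC h hk g
    have h1 := f g (Γ.smul_of_eq h hk e rfl hu hζ)
    have t := (a.triv_iff h hk).2 fun v => by simpa [h1] using (hA v 0).symm
    exact ⟨fun x hx => hu x hx ▸ t.g x hx, fun x hx => hu x (h.sub hx) ▸ hζ ▸ t.s x hx, hζ ▸ t.z⟩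
  · obtain ⟨A, a, hA⟩ := Γ.actC h hk g
    rw [hA v (y.pt k), e, (a.triv_iff h hk).1 (f _ _ (Γ.al g y y e) (Γ.eq_of_smul h hk e)),
      add_sub_cancel]

omit h in
theorem u_inv (g : Γ.G) (hx : x ∈ 𝔉.Om) : Γ.u g⁻¹ x = trn (Γ.u g x) := by
  have h1 := Γ.umul g⁻¹ g x hx
  rw [inv_mul_cancel, Γ.u_one hx] at h1
  rw [← (Γ.mx g⁻¹ hx).up o.ok, ← (Γ.uu g x hx).2, ← ContinuousLinearMap.comp_assoc, ← h1,
    ← (Γ.uu g x hx).1, ContinuousLinearMap.comp_assoc, (Γ.uu g x hx).2,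
    ← trn_of_sym (o.ok.psym x), ← trn_comp, (Γ.mx g hx).pu o.ok]

omit h in
theorem ζ_inv (g : Γ.G) : Γ.ζ g⁻¹ = (Γ.ζ g)⁻¹ :=
  eq_inv_of_mul_eq_one_left (by rw [← Γ.ζmul, inv_mul_cancel, Γ.ζ_one])

variable (n m) in
/-- the action on the equations -/
def ρ (g : Γ.G) : o.Y n m k →L[ℝ] o.Y n m k :=
  (Γ.ρD g).prodMap ((Γ.ρC g).prodMap ((sqL _ (Γ.ζ g)).prodMap (.id ℝ _)))

omit h in
theorem ρ_apply (g : Γ.G) (v : o.Y n m k) : Γ.ρ n m g v =
    (Γ.ρD g v.1, Γ.ρC g v.2.1, ((Γ.ζ g : ℂ) ^ 2) • v.2.2.1, v.2.2.2) := by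
  simp only [ρ, sqL, ContinuousLinearMap.coe_prodMap', Prod.map, ContinuousLinearMap.coe_id', id,
    ContinuousLinearMap.lsmul_apply]

omit h in
theorem actY (g : Γ.G) : ActY (Γ.ρ n m g) (Γ.u g) (Γ.ζ g) := by
  refine ⟨fun v x => ?_, fun v x a => ?_, fun v => ?_⟩ <;> rw [ρ_apply]
  exacts [Γ.vD g _ x, Γ.vC g _ x a]

omit h in
theorem continuous_ρ (v : o.Y n m k) : Continuous fun g => Γ.ρ n m g v := by
  simp only [ρ_apply]
  have := Γ.cζ
  exact (Γ.cD.clm_apply continuous_const).prodMk ((Γ.cC.clm_apply continuous_const).prodMk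
    (by fun_prop))

variable (n m) in
/-- the action on the equations as an isomorphism -/
def eqY (hk : 4 ≤ k) (g : Γ.G) : o.Y n m k ≃L[ℝ] o.Y n m k :=
  .equivOfInverse (Γ.ρ n m g) (Γ.ρ n m g⁻¹)
    ((Γ.actY g).inv h hk (Γ.ζ_inv g ▸ Γ.actY g⁻¹) (fun _ => Γ.mx g) fun _ => Γ.u_inv g)
    ((Γ.actY g⁻¹).inv h hk (by rw [Γ.ζ_inv, inv_inv]; exact Γ.actY g) (fun _ => Γ.mx g⁻¹)
      fun x hx => by rw [Γ.u_inv g hx, trn_trn])

/-- representing maps of natural families are equivariant -/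
theorem equivar (hk : 4 ≤ k) {τ : T → PtX M ι lam r n m} (hn : NatP o o Al τ)
    {f : o.C r k → o.Y n m k} (hf : RepF τ f) (g : Γ.G) {v : o.C r k} (hv : v ∈ o.U r k) :
    f (g • v) = Γ.ρ n m g (f v) := by
  have h3 : 3 ≤ k := by omega
  refine eqOn_U h h3 (f := fun v => f (g • v)) (hf.1.continuousOn.comp
    (continuous_const_smul g).continuousOn (Γ.inv_U g))
    ((Γ.ρ n m g).continuous.comp_continuousOn hf.1.continuousOn) (fun y => ?_) hv
  refine congrFun (Continuous.ext_on (Γ.dense y) (hf.1.continuousOn.comp_continuous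
    (f := fun g : Γ.G => g • y.pt k) (by fun_prop) fun g => Γ.inv_U g _ y.mem_U)
    (Γ.continuous_ρ _) ?_) g
  rintro g ⟨y', e⟩
  exact (congrArg f e).trans ((Γ.actY g).rep h hk hn (Γ.t_eq e) (Γ.al g y y' e)
    (Γ.eq_of_smul h h3 e) (hf.2 y) (hf.2 y'))

end GrpM

/-- representing maps of natural families commute with transport -/
theorem Pnt.Eq.equivar (hk : 4 ≤ k) {y₀ : Pnt o r} {y₀' : Pnt o' r} (e : y₀.Eq y₀' w c)
    (ht : y₀'.t = y₀.t) (mv : Mv o o' w) {A : o.C r k →L[ℝ] o'.C r k} (a : ActC A w c)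
    {Al : (M → CL o.m.V o'.m.V) → Circle → Prop} (al : Al w c)
    {τ : T → PtX M ι lam r n m} (hn : NatP o o' Al τ) {f : o.C r k → o.Y n m k}
    {f' : o'.C r k → o'.Y n m k} (hf : RepF τ f) (hf' : RepF τ f') {v : o.C r k}
    (hv : v ∈ o.U r k) : f' (y₀'.pt k + A (v - y₀.pt k)) = LY n m k w c (f v) := by
  have h3 : 3 ≤ k := by omega
  refine eqOn_U h h3 (f := fun v => f' (y₀'.pt k + A (v - y₀.pt k)))
    (hf'.1.continuousOn.comp (by fun_prop) fun v hv => ?_)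
    ((LY n m k w c).continuous.comp_continuousOn hf.1.continuousOn) (fun y => ?_) hv
  · rw [Mod61.mem_U, Prod.snd_add, Prod.snd_add, Prod.snd_add, a.z]
    show y₀'.t + (v.2.2.2 - y₀.t) ∈ 𝔉.Q
    rwa [ht, add_sub_cancel]
  · obtain ⟨y', h1, h2, h4⟩ := e.tr h ht mv y
    exact (congrArg f' (h4 k h3 A a).symm).trans
      (((e.mi h ht).actY h hk c).rep h hk hn h1 al h2 (hf.2 y) (hf'.2 y'))

end Crest.Agent.X212.Mod61
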