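import Crest.Agent.X212.Mod61.Cnt

/-! One finite perturbation that is good for finitely many strata (instance of `Fin93`), and
transversality of facets from regularity of the sub-problem. -/

set_option autoImplicit false
set_option linter.unusedSectionVars false

noncomputable section

open Set Filter Topology Function
open scoped ContDiff

namespace Crest.Agent.X212.Mod61

open Fin93 (ext0)

variable {W S : Type} (P : S → Prob W) (K : ∀ s, (P s).X → Prop)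

/-- all solutions of the stratum `s` in the range `K s` are regular -/
def Good (s : S) (q : W →₀ ℝ) : Prop := ∀ x, (P s).Sol q x → K s x → (P s).Reg q x

/-- the data for `Fin93` -/
def dat (rank : S → ℕ) (Adm : (W →₀ ℝ) → Prop) (q₀ : W →₀ ℝ) :
    Fin93.Dat (W →₀ ℝ) (Finset W) S (fun J => J → ℝ) fun s => (P s).X where
  ι J p := q₀ + ext0 J p
  rank := rank
  Adm := Adm
  Sol s q x := (P s).Sol q x ∧ K s x
  Reg s := (P s).Reg
  Onto s := (P s).Onto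
  Near s := (P s).Near

variable {P K}

theorem hyp {rank : S → ℕ} {Adm : (W →₀ ℝ) → Prop} {q₀ : W →₀ ℝ} (h : ∀ s, (P s).Ax Adm)
    (hadm : ∀ (J : Finset W) (p₀ : J → ℝ), Adm (q₀ + ext0 J p₀) →
      ∀ᶠ p in 𝓝 p₀, Adm (q₀ + ext0 J p))
    (hdens : ∀ s (J : Finset W) (p : J → ℝ) x, Adm (q₀ + ext0 J p) → (P s).Sol (q₀ + ext0 J p) x →
      K s x → (P s).Reg (q₀ + ext0 J p) x ∨ ∃ J', (P s).Onto (q₀ + ext0 J p) x J')
    (hcomp : ∀ s (J : Finset W) (p₀ : J → ℝ), Adm (q₀ + ext0 J p₀) →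
      (∀ s', rank s' < rank s → Good P K s' (q₀ + ext0 J p₀)) →
      ∀ (ι : Type) (𝒰 : Ultrafilter ι) (p : ι → J → ℝ) (u : ι → (P s).X), Tendsto p 𝒰 (𝓝 p₀) →
        (∀ᶠ i in (𝒰 : Filter ι), (P s).Sol (q₀ + ext0 J (p i)) (u i) ∧ K s (u i)) →
        (∀ᶠ i in (𝒰 : Filter ι), (P s).Reg (q₀ + ext0 J (p i)) (u i)) ∨
          ∃ x₀, (P s).Sol (q₀ + ext0 J p₀) x₀ ∧ K s x₀ ∧ Tendsto u 𝒰 ((P s).Near x₀)) :
    (dat P K rank Adm q₀).Hyp where
  stage J J' hJ p := by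
    obtain ⟨p', hp'⟩ := Fin93.ext0_stage J J' hJ p
    exact ⟨p', congrArg (q₀ + ·) hp'⟩
  adm := hadm
  mono _ _ _ _ _ hJ ho := Prob.Ax.onto_mono hJ ho
  dens s J p x ha hx := hdens s J p x ha hx.1 hx.2
  onto s _ _ _ _ _ hx ho := ((h s).onto_open hx.1.1 ho).mono fun _ h1 h2 => h1 h2.1.1
  reg s _ _ _ _ hx hr := ((h s).reg_open hx.1.1 hr).mono fun _ h1 h2 => h1 h2.1.1
  loc s J p₀ x₀ ha hx ho := by
    obtain ⟨A, hA, hres⟩ := (h s).loc ha hx.1 ho
    exact ⟨A, hA, hres.mono fun p hp x h1 h2 => hp x h1 h2.1⟩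
  comp s J p₀ ha hd 𝒰 h1 h2 := by
    rcases hcomp s J p₀ ha (fun s' hs' x h3 h4 => hd s' hs' x ⟨h3, h4⟩) _ 𝒰 Prod.fst Prod.snd h1 h2
      with h3 | ⟨x₀, h3, h4, h5⟩
    · exact Or.inl h3
    · exact Or.inr ⟨x₀, ⟨h3, h4⟩, h5⟩

/-- **A good finite perturbation exists.** -/
theorem exists_good [Finite S] {rank : S → ℕ} {Adm : (W →₀ ℝ) → Prop} {q₀ : W →₀ ℝ}
    (H : (dat P K rank Adm q₀).Hyp) (h0 : Adm q₀) :
    ∃ (J : Finset W) (p : J → ℝ), Adm (q₀ + ext0 J p) ∧ ∀ s, Good P K s (q₀ + ext0 J p) := by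
  classical
  have e : q₀ + ext0 (∅ : Finset W) 0 = q₀ := by
    ext w
    simpa using Fin93.ext0_not_mem (J := ∅) 0 (Finset.notMem_empty w)
  obtain ⟨J, -, p, h1, h2⟩ := H.exists_good (J₀ := ∅) (p₀ := 0) (by
    show Adm (q₀ + ext0 (∅ : Finset W) 0)
    rwa [e])
  exact ⟨J, p, h1, fun s x h3 h4 => h2 s x ⟨h3, h4⟩⟩

section facet

variable {C C' E E' : Type*} [NormedAddCommGroup C] [NormedSpace ℝ C] [NormedAddCommGroup C']
  [NormedSpace ℝ C'] [NormedAddCommGroup E] [NormedSpace ℝ E] [NormedAddCommGroup E']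
  [NormedSpace ℝ E']

/-- If the sub-problem `F' = ρ ∘ F ∘ j` on the facet `t = const` is regular, the facet is cut out
regularly. -/
theorem surj_prod_of_sub {F : C → E} {F' : C' → E'} {j : C' → C} {j' : C' →L[ℝ] C} {v : C'}
    {t : C → ℝ} {t' : C →L[ℝ] ℝ} (ρ : E →L[ℝ] E') (hρ : Injective ρ) (hj : HasFDerivAt j j' v)
    (hF : DifferentiableAt ℝ F (j v)) (he : ∀ᶠ u in 𝓝 v, F' u = ρ (F (j u)))
    (ht : HasFDerivAt t t' (j v)) (hc : ∀ᶠ u in 𝓝 v, t (j u) = t (j v)) (h0 : t' ≠ 0)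
    (hs : Surjective (fderiv ℝ F' v)) : Surjective ((fderiv ℝ F (j v)).prod t') := by
  have h1 : HasFDerivAt F' (ρ.comp ((fderiv ℝ F (j v)).comp j')) v :=
    (ρ.hasFDerivAt.comp v (hF.hasFDerivAt.comp v hj)).congr_of_eventuallyEq he
  have h2 : t'.comp j' = 0 :=
    (ht.comp v hj).unique ((hasFDerivAt_const (t (j v)) v).congr_of_eventuallyEq hc)
  obtain ⟨w, hw⟩ : ∃ w, t' w ≠ 0 := by
    by_contra hn
    exact h0 (ContinuousLinearMap.ext fun u => by simpa using not_exists.1 hn u)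
  rintro ⟨f, r⟩
  obtain ⟨u, hu⟩ := hs (ρ (f - (r / t' w) • fderiv ℝ F (j v) w))
  rw [h1.fderiv] at hu
  have h3 : fderiv ℝ F (j v) (j' u) = f - (r / t' w) • fderiv ℝ F (j v) w := hρ hu
  have h4 : t' (j' u) = 0 := congrArg (fun B : C' →L[ℝ] ℝ => B u) h2
  refine ⟨j' u + (r / t' w) • w, ?_⟩
  rw [ContinuousLinearMap.prod_apply, map_add, map_add, map_smul, map_smul, h3, h4]
  simp [hw]

theorem surj_of_surj_prod {F' : C →L[ℝ] E} {t' : C →L[ℝ] E'} (h : Surjective (F'.prod t')) :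
    Surjective F' := fun f => by
  obtain ⟨v, hv⟩ := h (f, 0)
  exact ⟨v, congrArg Prod.fst hv⟩

end facet

/-- Comparison of the counts of two problems at the level of smooth configurations. -/
theorem cnt_congr {W W' : Type} {Q : Prob W} {Q' : Prob W'} {A : Set Q.X} {A' : Set Q'.X}
    (f : A → A') (h : ∀ x y : A, Q.eqv x y ↔ Q'.eqv (f x) (f y))
    (hs : ∀ y : A', ∃ x : A, Q'.eqv (f x) y) :
    Nonempty (Q.Cl A ≃ Q'.Cl A') ∧ Q.cnt A = Q'.cnt A' := by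
  let e : Q.Cl A ≃ Q'.Cl A' := Equiv.ofBijective
    (Quotient.lift (s := Q.eqv.comap Subtype.val) (fun x => Quotient.mk _ (f x))
      fun x y hxy => Quotient.sound ((h x y).1 hxy))
    ⟨by
      intro a b
      obtain ⟨x, rfl⟩ := Quotient.mk_surjective a
      obtain ⟨y, rfl⟩ := Quotient.mk_surjective b
      intro hxy
      have h1 : (Q'.eqv.comap (Subtype.val : A' → Q'.X)) (f x) (f y) := Quotient.exact hxy
      exact Quotient.sound ((h x y).2 h1),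
     by
      intro m
      obtain ⟨y, rfl⟩ := Quotient.mk_surjective m
      obtain ⟨x, hx⟩ := hs y
      exact ⟨Quotient.mk _ x, Quotient.sound hx⟩⟩
  exact ⟨⟨e⟩, Nat.card_congr e⟩

end Crest.Agent.X212.Mod61
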